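import Vale.Agent.P321.Fock

namespace Vale.Agent.P321

open scoped RealInnerProductSpace
open Polynomial

/-! ### the sequence `aa` -/

theorem aa_pos {h : ℕ} (hh : 1 ≤ h) (i : ℕ) : 0 < aa h i := by
  unfold aa
  have : (0 : ℝ) < h := by exact_mod_cast hh
  positivity

theorem aa_nonneg (h i : ℕ) : 0 ≤ aa h i := by
  unfold aa; positivity

theorem aa_anti {h : ℕ} (hh : 1 ≤ h) {i j : ℕ} (hij : i ≤ j) : aa h j ≤ aa h i := by
  unfold aa
  have : (0 : ℝ) < h := by exact_mod_cast hh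
  have hij' : (i : ℝ) ≤ j := by exact_mod_cast hij
  apply one_div_le_one_div_of_le (by positivity)
  apply Real.sqrt_le_sqrt
  nlinarith

theorem aa_sq {h : ℕ} (i : ℕ) : aa h i ^ 2 = 1 / (((i : ℝ) + 1) * h) := by
  unfold aa
  rw [div_pow, one_pow, Real.sq_sqrt (by positivity)]

theorem aa_zero_sq (h : ℕ) : aa h 0 ^ 2 = 1 / (h : ℝ) := by
  rw [aa_sq]; simp

theorem aa_le_one {h : ℕ} (hh : 1 ≤ h) (i : ℕ) : aa h i ≤ 1 := by
  have h1 : aa h i ^ 2 ≤ 1 := by
    rw [aa_sq]
    have h1 : (1 : ℝ) ≤ h := by exact_mod_cast hh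
    have h0 : (0 : ℝ) ≤ i := Nat.cast_nonneg i
    rw [div_le_one (by positivity)]
    nlinarith
  have := aa_nonneg h i
  nlinarith

theorem aa_mul_le {h : ℕ} (hh : 1 ≤ h) (i j : ℕ) :
    aa h i * aa h j ≤ aa h (i + j + 1) * (aa h i + aa h j) := by
  have h1 : (0 : ℝ) < h := by exact_mod_cast hh
  have hi := aa_pos hh i
  have hj := aa_pos hh j
  have hij := aa_pos hh (i + j + 1)
  have si := aa_sq (h := h) i
  have sj := aa_sq (h := h) j
  have sij := aa_sq (h := h) (i + j + 1)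
  have key : (aa h i * aa h j) ^ 2 ≤ (aa h (i + j + 1) * (aa h i + aa h j)) ^ 2 := by
    have e : (aa h i * aa h j) ^ 2 = aa h (i + j + 1) ^ 2 * (aa h i ^ 2 + aa h j ^ 2) := by
      rw [mul_pow, si, sj, sij]
      push_cast
      field_simp
      ring
    rw [e, mul_pow]
    apply mul_le_mul_of_nonneg_left _ (sq_nonneg _)
    nlinarith
  exact le_of_sq_le_sq key (by positivity)

theorem sum_aa_le (h n : ℕ) : ∑ i ∈ Finset.range n, aa h i ≤ 2 * √(n : ℝ) * aa h 0 := by
  induction n with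
  | zero => simp
  | succ n ih =>
    rw [Finset.sum_range_succ]
    have e : aa h n = 1 / √((n : ℝ) + 1) * aa h 0 := by
      unfold aa
      rw [Real.sqrt_mul (by positivity)]
      simp
      ring
    have h2 : 2 * √(n : ℝ) + 1 / √((n : ℝ) + 1) ≤ 2 * √((n : ℝ) + 1) := by
      have a := Real.sqrt_nonneg (n : ℝ)
      have b : 0 < √((n : ℝ) + 1) := Real.sqrt_pos.2 (by positivity)
      have a2 := Real.sq_sqrt (Nat.cast_nonneg n : (0 : ℝ) ≤ n)
      have b2 := Real.sq_sqrt (by positivity : (0 : ℝ) ≤ (n : ℝ) + 1)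
      rw [← sub_nonneg]
      have e3 : 2 * √((n : ℝ) + 1) - (2 * √(n : ℝ) + 1 / √((n : ℝ) + 1)) =
          (√((n : ℝ) + 1) - √(n : ℝ)) ^ 2 / √((n : ℝ) + 1) := by
        field_simp
        nlinarith
      rw [e3]; positivity
    rw [e]
    push_cast
    nlinarith [aa_nonneg h 0, mul_le_mul_of_nonneg_right h2 (aa_nonneg h 0)]

theorem sum_aa_cube_le (h n : ℕ) :
    ∑ i ∈ Finset.range n, aa h i ^ 3 ≤ 3 * aa h 0 ^ 3 := by
  have e : ∀ i, aa h i = 1 / √((i : ℝ) + 1) * aa h 0 := by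
    intro i
    unfold aa
    rw [Real.sqrt_mul (by positivity)]
    simp
    ring
  have main : ∀ n : ℕ, ∑ i ∈ Finset.range (n + 1), (1 / √((i : ℝ) + 1)) ^ 3 ≤
      3 - 2 / √((n : ℝ) + 1) := by
    intro n
    induction n with
    | zero => norm_num
    | succ n ih =>
      rw [Finset.sum_range_succ]
      set a := √((n : ℝ) + 1) with ha
      set b := √(((n + 1 : ℕ) : ℝ) + 1) with hb
      have a0 : 0 < a := Real.sqrt_pos.2 (by positivity)
      have b0 : 0 < b := Real.sqrt_pos.2 (by positivity)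
      have a2 : a ^ 2 = (n : ℝ) + 1 := Real.sq_sqrt (by positivity)
      have b2 : b ^ 2 = a ^ 2 + 1 := by
        rw [hb, Real.sq_sqrt (by positivity), a2]; push_cast; ring
      have hab : a ≤ b := by nlinarith
      have : (1 / b) ^ 3 ≤ 2 / a - 2 / b := by
        rw [div_sub_div _ _ a0.ne' b0.ne', one_div, inv_pow, ← one_div,
          div_le_div_iff₀ (by positivity) (by positivity)]
        have h3 : (b - a) * (b + a) = 1 := by nlinarith
        have h4 : 1 ≤ (b - a) * (2 * b) := by nlinarith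
        calc 1 * (a * b) ≤ ((b - a) * (2 * b)) * (a * b) :=
              mul_le_mul_of_nonneg_right h4 (by positivity)
          _ ≤ ((b - a) * (2 * b)) * (b * b) := by
              apply mul_le_mul_of_nonneg_left _ (by linarith)
              exact mul_le_mul_of_nonneg_right hab b0.le
          _ = (2 * b - a * 2) * b ^ 3 := by ring
      linarith
  rcases n with _ | n
  · simp; exact pow_nonneg (aa_nonneg _ _) _
  · have : ∑ i ∈ Finset.range (n + 1), aa h i ^ 3 =
        (∑ i ∈ Finset.range (n + 1), (1 / √((i : ℝ) + 1)) ^ 3) * aa h 0 ^ 3 := by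
      rw [Finset.sum_mul]
      refine Finset.sum_congr rfl fun i _ => ?_
      rw [e i, mul_pow]
    rw [this]
    refine mul_le_mul_of_nonneg_right ?_ (pow_nonneg (aa_nonneg _ _) _)
    refine (main n).trans ?_
    have : 0 ≤ 2 / √((n : ℝ) + 1) := by positivity
    linarith

/-- convolution bound `aa * aa` -/
theorem conv_aa {h : ℕ} (hh : 1 ≤ h) (r : ℕ) :
    ∑ i ∈ Finset.range r, aa h i * aa h (r - 1 - i) ≤ 4 * aa h 0 ^ 2 := by
  have h1 : ∀ i ∈ Finset.range r, aa h i * aa h (r - 1 - i) ≤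
      aa h r * (aa h i + aa h (r - 1 - i)) := by
    intro i hi
    have hi' := Finset.mem_range.1 hi
    have := aa_mul_le hh i (r - 1 - i)
    rwa [show i + (r - 1 - i) + 1 = r by omega] at this
  refine (Finset.sum_le_sum h1).trans ?_
  rw [← Finset.mul_sum, Finset.sum_add_distrib, Finset.sum_range_reflect (fun i => aa h i) r]
  have h2 := sum_aa_le h r
  have h3 : aa h r * √(r : ℝ) ≤ aa h 0 := by
    unfold aa
    rw [Real.sqrt_mul (by positivity)]
    have : √(r : ℝ) ≤ √((r : ℝ) + 1) := Real.sqrt_le_sqrt (by linarith)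
    have h0 : (0 : ℝ) < h := by exact_mod_cast hh
    have : 0 < √(h : ℝ) := Real.sqrt_pos.2 h0
    have : 0 < √((r : ℝ) + 1) := Real.sqrt_pos.2 (by positivity)
    simp only [Nat.cast_zero, zero_add, one_mul]
    rw [one_div, mul_inv, one_div]
    calc (√((r : ℝ) + 1))⁻¹ * (√(h : ℝ))⁻¹ * √(r : ℝ) =
        (√(h : ℝ))⁻¹ * (√(r : ℝ) / √((r : ℝ) + 1)) := by ring
      _ ≤ (√(h : ℝ))⁻¹ * 1 := by
        apply mul_le_mul_of_nonneg_left _ (by positivity)
        rw [div_le_one (by positivity)]; assumption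
      _ = _ := by ring
  have h4 := aa_nonneg h 0
  have h5 := aa_nonneg h r
  calc aa h r * (∑ i ∈ Finset.range r, aa h i + ∑ i ∈ Finset.range r, aa h i)
      ≤ aa h r * (2 * √(r : ℝ) * aa h 0 + 2 * √(r : ℝ) * aa h 0) := by gcongr
    _ = 4 * (aa h r * √(r : ℝ)) * aa h 0 := by ring
    _ ≤ 4 * aa h 0 * aa h 0 := by gcongr
    _ = _ := by ring

/-- convolution bound `aa * aa^3` -/
theorem conv_aa_cube {h : ℕ} (hh : 1 ≤ h) (r : ℕ) :
    ∑ i ∈ Finset.range r, aa h i * aa h (r - 1 - i) ^ 3 ≤ 6 * aa h 0 ^ 3 * aa h r := by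
  have h1 : ∀ i ∈ Finset.range r, aa h i * aa h (r - 1 - i) ^ 3 ≤
      aa h r * (aa h i ^ 3 / 3 + 5 / 3 * aa h (r - 1 - i) ^ 3) := by
    intro i hi
    have hi' := Finset.mem_range.1 hi
    have h2 := aa_mul_le hh i (r - 1 - i)
    rw [show i + (r - 1 - i) + 1 = r by omega] at h2
    set x := aa h i with hx
    set y := aa h (r - 1 - i) with hy
    have x0 : 0 ≤ x := aa_nonneg _ _
    have y0 : 0 ≤ y := aa_nonneg _ _
    have r0 : 0 ≤ aa h r := aa_nonneg _ _
    have h3 : x * y ^ 2 ≤ x ^ 3 / 3 + 2 / 3 * y ^ 3 := by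
      nlinarith [mul_nonneg (add_nonneg x0 (mul_nonneg zero_le_two y0)) (sq_nonneg (x - y))]
    calc x * y ^ 3 = (x * y) * y ^ 2 := by ring
      _ ≤ (aa h r * (x + y)) * y ^ 2 := by gcongr
      _ = aa h r * (x * y ^ 2 + y ^ 3) := by ring
      _ ≤ aa h r * (x ^ 3 / 3 + 5 / 3 * y ^ 3) := by
        apply mul_le_mul_of_nonneg_left _ r0
        linarith
  refine (Finset.sum_le_sum h1).trans ?_
  rw [← Finset.mul_sum, Finset.sum_add_distrib, ← Finset.sum_div, ← Finset.mul_sum,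
    Finset.sum_range_reflect (fun i => aa h i ^ 3) r]
  have h2 := sum_aa_cube_le h r
  have h5 := aa_nonneg h r
  calc aa h r * ((∑ i ∈ Finset.range r, aa h i ^ 3) / 3 +
        5 / 3 * ∑ i ∈ Finset.range r, aa h i ^ 3)
      = aa h r * (2 * ∑ i ∈ Finset.range r, aa h i ^ 3) := by ring
    _ ≤ aa h r * (2 * (3 * aa h 0 ^ 3)) := by gcongr
    _ = _ := by ring

/-! ### words -/

/-- `0` or `1` -/
def eb (b : Bool) : ℕ := if b then 1 else 0

theorem eb_le (b : Bool) : eb b ≤ 1 := by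
  unfold eb; split <;> simp

theorem norm_add_sq_le_two {V : Type} [NormedAddCommGroup V] (x y : V) : ‖x + y‖ ^ 2 ≤ 2 * ‖x‖ ^ 2 + 2 * ‖y‖ ^ 2 := by
  have h1 := norm_add_le x y
  have h2 := norm_nonneg (x + y)
  nlinarith [sq_nonneg (‖x‖ - ‖y‖)]

theorem norm_sub_sq_le_two {V : Type} [NormedAddCommGroup V] (x y : V) :
    ‖x - y‖ ^ 2 ≤ 2 * ‖x‖ ^ 2 + 2 * ‖y‖ ^ 2 := by
  have h1 := norm_sub_le x y
  have h2 := norm_nonneg (x - y)
  nlinarith [sq_nonneg (‖x‖ - ‖y‖)]

section

variable {κ : ℝ} {V : Type} [NormedAddCommGroup V] [InnerProductSpace ℝ V] (F : Fock κ V)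
  (s sY : ℝ) (h : ℕ)

theorem Fock.Wd_eq (hh : 1 ≤ h) (b : Bool) :
    F.Wd s sY h b = F.op (W0 s sY h) +
      F.op (w s ^ (h + eb b)) * F.ζ * F.op (w s ^ (h - eb b)) := by
  have e1 : (if b then h + 1 else h) = h + eb b := by unfold eb; split <;> rfl
  have e2 : (if b then h - 1 else h) = h - eb b := by unfold eb; split <;> rfl
  unfold Fock.Wd
  rw [e1, e2, mul_add, add_mul]
  congr 1
  rw [← F.op_mul, ← F.op_mul]
  congr 1
  unfold W0
  have := eb_le b
  rw [mul_right_comm, ← pow_add]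
  congr 2
  omega

theorem Fock.TT_nil : F.TT s sY h [] = 1 := rfl

theorem Fock.TT_cons (b : Bool) (l : List Bool) :
    F.TT s sY h (b :: l) = F.Wd s sY h b * F.TT s sY h l := by
  simp [Fock.TT]

theorem Fock.TT_append (l l' : List Bool) :
    F.TT s sY h (l ++ l') = F.TT s sY h l * F.TT s sY h l' := by
  simp [Fock.TT]

theorem Fock.TT_replicate (n : ℕ) (b : Bool) :
    F.TT s sY h (List.replicate n b) = F.Wd s sY h b ^ n := by
  simp [Fock.TT]

/-- expansion of a product of periods according to the first mark -/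
theorem Fock.TT_expand (hh : 1 ≤ h) (l : List Bool) (v : V) :
    F.TT s sY h l v = F.op (W0 s sY h ^ l.length) v +
      ∑ i ∈ Finset.range l.length,
        F.op (W0 s sY h ^ i * w s ^ (h + eb (l.getD i false)))
          (F.ζ (F.op (w s ^ (h - eb (l.getD i false))) (F.TT s sY h (l.drop (i + 1)) v))) := by
  induction l with
  | nil => simp [Fock.TT_nil, Fock.op_one]
  | cons b l ih =>
    rw [F.TT_cons, Module.End.mul_apply, F.Wd_eq s sY h hh, LinearMap.add_apply]
    rw [List.length_cons, Finset.sum_range_succ']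
    conv_lhs => rw [ih]
    rw [map_add, map_sum, ← F.op_mul_apply, ← pow_succ', add_assoc]
    congr 1
    rw [Module.End.mul_apply, Module.End.mul_apply]
    congr 1
    · refine Finset.sum_congr rfl fun i _ => ?_
      rw [← F.op_mul_apply, ← mul_assoc, ← pow_succ']
      simp
    · rw [← ih]
      simp

/-- the basic recursion -/
theorem Fock.rec_bound (hκ : 0 ≤ κ) (hs0 : 0 ≤ s) (hs1 : s ≤ 1) (hh : 1 ≤ h) {L : ℕ}
    {Q : ℝ[X]} {β : ℕ → ℝ} (hQ : KBound s sY h L Q β) (l : List Bool) (hl : l.length ≤ L)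
    (v : V) :
    ‖F.op Q (F.TT s sY h l v)‖ ^ 2 ≤ 2 * ‖F.op (Q * W0 s sY h ^ l.length) v‖ ^ 2 +
      2 * (κ * ∑ i ∈ Finset.range l.length, β i * ‖F.TT s sY h (l.drop (i + 1)) v‖ ^ 2) := by
  rw [F.TT_expand s sY h hh l v, map_add, ← F.op_mul_apply, map_sum]
  refine (norm_add_sq_le_two _ _).trans ?_
  have hβ0 : ∀ i ≤ L, 0 ≤ β i := by
    intro i hi
    refine le_trans ?_ (hQ (fun _ => 0) (by simp) i hi)
    exact Finset.sum_nonneg fun _ _ => abs_nonneg _
  have h1 : ‖∑ i ∈ Finset.range l.length, F.op Q (F.op (W0 s sY h ^ i *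
        w s ^ (h + eb (l.getD i false)))
          (F.ζ (F.op (w s ^ (h - eb (l.getD i false))) (F.TT s sY h (l.drop (i + 1)) v))))‖ ^ 2
      ≤ κ * ∑ i ∈ Finset.range l.length, β i *
        ‖F.op (w s ^ (h - eb (l.getD i false))) (F.TT s sY h (l.drop (i + 1)) v)‖ ^ 2 := by
    simp_rw [← F.op_mul_apply, ← mul_assoc]
    apply F.norm_sum_sq_le hκ l.length
      (fun i => Q * W0 s sY h ^ i * w s ^ (h + eb (l.getD i false)))
      (fun i => F.op (w s ^ (h - eb (l.getD i false))) (F.TT s sY h (l.drop (i + 1)) v)) β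
    intro i hi
    refine le_trans ?_ (hQ (fun i => eb (l.getD i false)) (fun i => eb_le _) i (by omega))
    apply Finset.sum_le_sum_of_subset_of_nonneg
    · intro j hj
      simp only [Finset.mem_range] at hj ⊢
      omega
    · intro _ _ _; exact abs_nonneg _
  have h2 : ∑ i ∈ Finset.range l.length, β i *
        ‖F.op (w s ^ (h - eb (l.getD i false))) (F.TT s sY h (l.drop (i + 1)) v)‖ ^ 2 ≤
      ∑ i ∈ Finset.range l.length, β i * ‖F.TT s sY h (l.drop (i + 1)) v‖ ^ 2 := by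
    refine Finset.sum_le_sum fun i hi => ?_
    have hi' := Finset.mem_range.1 hi
    refine mul_le_mul_of_nonneg_left ?_ (hβ0 i (by omega))
    have := F.norm_op_le (w s ^ (h - eb (l.getD i false))) (F.TT s sY h (l.drop (i + 1)) v)
    rw [l1_w_pow hs0 hs1, one_mul] at this
    gcongr
  have h3 := mul_le_mul_of_nonneg_left h2 hκ
  linarith

end

end Vale.Agent.P321
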