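import Vale.Agent.P321.Diff3

namespace Vale.Agent.P321

open scoped RealInnerProductSpace
open Polynomial

/-- plain blocks, comb, plain blocks (the final string has `N` more plain blocks at the end) -/
def core (N h R m : ℕ) (b : Bool) : List Bool :=
  List.replicate (2 * N) false ++ comb h R m b ++ List.replicate (2 * N) false

theorem pat_length (j : ℕ) : ∀ b, (pat j b).length = 2 ^ j := by
  induction j with
  | zero => intro b; rfl
  | succ j ih => intro b; simp [pat, ih, pow_succ]; ring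

/-- list of periods of the comb -/
def plist (R m : ℕ) (b : Bool) : List Bool :=
  List.replicate R false ++ pat m b ++ List.replicate R false

theorem plist_length (R m : ℕ) (b : Bool) : (plist R m b).length = 2 * R + 2 ^ m := by
  simp [plist, pat_length]; ring

section

variable {κ : ℝ} {V : Type} [NormedAddCommGroup V] [InnerProductSpace ℝ V] (F : Fock κ V)
  {s sY : ℝ} {h R L N m : ℕ} {C lam mu nu2 : ℝ}

theorem Fock.blks_append (B B' : List Bool) :
    F.blks s sY (B ++ B') = F.blks s sY B * F.blks s sY B' := by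
  simp [Fock.blks]

theorem Fock.blks_replicate_false (n : ℕ) :
    F.blks s sY (List.replicate n false) = F.op (w s ^ n) := by
  simp [Fock.blks, Fock.blk, F.op_pow]

theorem Fock.blks_per (b : Bool) : F.blks s sY (per h b) = F.Wd s sY h b := by
  unfold per Fock.Wd
  rw [F.blks_append, F.blks_replicate_false]
  have e : F.blks s sY (true :: List.replicate (if b then h - 1 else h) false) =
      (F.op (w sY) + F.ζ) * F.op (w s ^ (if b then h - 1 else h)) := by
    have e1 : (true :: List.replicate (if b then h - 1 else h) false) =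
      [true] ++ List.replicate (if b then h - 1 else h) false := rfl
    rw [e1, F.blks_append, F.blks_replicate_false]
    simp [Fock.blks, Fock.blk]
  rw [e, mul_assoc]

theorem Fock.blks_flatMap (l : List Bool) :
    F.blks s sY (l.flatMap (per h)) = F.TT s sY h l := by
  induction l with
  | nil => simp [Fock.blks, F.TT_nil]
  | cons b l ih => rw [List.flatMap_cons, F.blks_append, F.blks_per, ih, F.TT_cons]

theorem Fock.blks_core (b : Bool) :
    F.blks s sY (core N h R m b) =
      F.op (w s ^ (2 * N)) * F.TT s sY h (plist R m b) * F.op (w s ^ (2 * N)) := by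
  unfold core comb
  rw [F.blks_append, F.blks_append, F.blks_replicate_false, F.blks_flatMap]
  rfl

end

/-- plain generating polynomial of a block string -/
noncomputable def plp (s sY : ℝ) (B : List Bool) : ℝ[X] :=
  w s ^ B.count false * w sY ^ B.count true

theorem plp_append (s sY : ℝ) (B B' : List Bool) :
    plp s sY (B ++ B') = plp s sY B * plp s sY B' := by
  unfold plp
  rw [List.count_append, List.count_append, pow_add, pow_add]
  ring

theorem plp_replicate (s sY : ℝ) (n : ℕ) : plp s sY (List.replicate n false) = w s ^ n := by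
  unfold plp
  simp [List.count_replicate]

theorem plp_per (s sY : ℝ) {h : ℕ} (hh : 1 ≤ h) (b : Bool) :
    plp s sY (per h b) = W0 s sY h := by
  unfold plp per W0
  have e1 : (List.replicate (if b then h + 1 else h) false ++
    true :: List.replicate (if b then h - 1 else h) false).count false = 2 * h := by
    cases b <;> simp <;> omega
  have e2 : (List.replicate (if b then h + 1 else h) false ++
    true :: List.replicate (if b then h - 1 else h) false).count true = 1 := by
    cases b <;> simp [List.count_replicate]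
  rw [e1, e2, pow_one]

theorem plp_flatMap (s sY : ℝ) {h : ℕ} (hh : 1 ≤ h) (l : List Bool) :
    plp s sY (l.flatMap (per h)) = W0 s sY h ^ l.length := by
  induction l with
  | nil => simp [plp]
  | cons b l ih =>
    rw [List.flatMap_cons, plp_append, plp_per s sY hh, ih, List.length_cons, pow_succ']

theorem plp_core (s sY : ℝ) {N h R m : ℕ} (hh : 1 ≤ h) (b : Bool) :
    plp s sY (core N h R m b) =
      w s ^ (2 * N) * W0 s sY h ^ (2 * R + 2 ^ m) * w s ^ (2 * N) := by
  unfold core comb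
  rw [plp_append, plp_append, plp_replicate, plp_flatMap s sY hh]
  have := plist_length R m b
  unfold plist at this
  rw [this]

section

variable {κ : ℝ} {V : Type} [NormedAddCommGroup V] [InnerProductSpace ℝ V] (F : Fock κ V)
  {s sY : ℝ} {h R L N m : ℕ} {C lam mu nu2 : ℝ}

/-- difference of the two patterns -/
theorem pat_diff (j : ℕ) :
    S1 F s sY h (2 ^ j) (2 ^ j) (alpha (F.Wd s sY h false) (F.Del s sY h) j) ∧
    S2 F s sY h (4 ^ j) (2 ^ j) (F.TT s sY h (pat j true) - F.TT s sY h (pat j false) -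
      alpha (F.Wd s sY h false) (F.Del s sY h) j) := by
  induction j with
  | zero =>
    constructor
    · have := S1.word (F := F) (s := s) (sY := sY) (h := h) [] [] 1 (by simp)
      simpa [alpha, F.TT_nil] using this
    · have e : F.TT s sY h (pat 0 true) - F.TT s sY h (pat 0 false) -
        alpha (F.Wd s sY h false) (F.Del s sY h) 0 = 0 := by
        simp [pat, alpha, Fock.Del, Fock.TT]
      rw [e]
      exact S2.zero _ _
  | succ j ih =>
    obtain ⟨ih1, ih2⟩ := ih
    set W := F.Wd s sY h false with hW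
    set α := alpha W (F.Del s sY h) j with hα
    set Tt := F.TT s sY h (pat j true) with hTt
    set Tf := F.TT s sY h (pat j false) with hTf
    have hp : 2 ^ (j + 1) = 2 ^ j + 2 ^ j := by rw [pow_succ]; ring
    have hlen : (List.replicate (2 ^ j) false).length = 2 ^ j := by simp
    have e1 : alpha W (F.Del s sY h) (j + 1) = α * W ^ (2 ^ j) - W ^ (2 ^ j) * α := rfl
    constructor
    · have h1 := ih1.right (List.replicate (2 ^ j) false)
      have h2 := ih1.left (List.replicate (2 ^ j) false)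
      rw [F.TT_replicate, hlen] at h1 h2
      rw [e1, hp]
      exact h1.sub h2
    · have hg : S1 F s sY h (2 ^ j) (2 ^ j) (Tf - W ^ (2 ^ j)) := by
        have := S1.TT_sub (F := F) (s := s) (sY := sY) (h := h) (pat j false)
        rwa [pat_length] at this
      have e2 : F.TT s sY h (pat (j + 1) true) = Tt * Tf := by
        simp [pat, F.TT_append, hTt, hTf]
      have e3 : F.TT s sY h (pat (j + 1) false) = Tf * Tt := by
        simp [pat, F.TT_append, hTt, hTf]
      have e4 : F.TT s sY h (pat (j + 1) true) - F.TT s sY h (pat (j + 1) false) -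
          alpha W (F.Del s sY h) (j + 1) =
          (α * (Tf - W ^ (2 ^ j)) - (Tf - W ^ (2 ^ j)) * α) +
          ((Tt - Tf - α) * Tf - Tf * (Tt - Tf - α)) := by
        rw [e2, e3, e1]
        noncomm_ring
      rw [e4]
      have h1 := ih1.mul hg
      have h2 := hg.mul ih1
      have h3 := ih2.right (pat j false)
      have h4 := ih2.left (pat j false)
      rw [pat_length] at h3 h4
      have h5 := (h1.sub h2).add (h3.sub h4)
      have e5 : 2 ^ j * 2 ^ j + 2 ^ j * 2 ^ j + (4 ^ j + 4 ^ j) = 4 ^ (j + 1) := by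
        have : (4 : ℕ) ^ j = 2 ^ j * 2 ^ j := by
          rw [← mul_pow]
          norm_num
        rw [pow_succ, this]; ring
      rw [e5, ← hp] at h5
      exact h5

theorem Fock.nrm_S2 (hκ : 0 ≤ κ) (K : KB s sY h L N m C lam mu nu2)
    (hsm : 64 * (κ * C) * √(((L : ℝ) + 1) / h) ≤ 1) (hR : aa h R ^ 2 ≤ aa h 0 ^ 3)
    (hL : 2 * R + 2 ^ m ≤ L) {n A : ℕ} (hA : A ≤ 2 ^ m) {X : Module.End ℝ V}
    (hX : S2 F s sY h n A X) :
    F.nrm s sY h R N X ≤
      n * (M0 κ C ^ 3 * (√lam * √(aa h 0 ^ 3) * √nu2) * aa h 0) := by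
  have hM := M0_ge hκ K.hC
  have ha0 := aa_nonneg h 0
  induction hX with
  | word l l' l'' A hA' =>
    have h1 := F.second_order hκ K hsm hR (List.replicate R false ++ l) l'
      (l'' ++ List.replicate R false) (by simp; omega) (by omega) (by simp; omega) (by simp)
    rw [Nat.cast_one, one_mul]
    refine le_trans (le_of_eq ?_) h1
    unfold Fock.nrm
    rw [F.TT_append, F.TT_append, F.TT_replicate]
    simp only [Module.End.mul_apply]
  | zero n A =>
    rw [F.nrm_zero]
    positivity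
  | add _ _ ih1 ih2 =>
    refine (F.nrm_add _ _).trans ?_
    have := ih1 hA
    have := ih2 hA
    push_cast
    linarith
  | neg _ ih =>
    rw [F.nrm_neg]
    exact ih hA

theorem core_sq {x A P a b c : ℝ} (hx : 0 ≤ x) (h : x ≤ P * A * (a + b + c)) :
    x ^ 2 ≤ 3 * P ^ 2 * A ^ 2 * (a ^ 2 + b ^ 2 + c ^ 2) := by
  have h1 : x ^ 2 ≤ (P * A * (a + b + c)) ^ 2 := by gcongr
  have h2 : (a + b + c) ^ 2 ≤ 3 * (a ^ 2 + b ^ 2 + c ^ 2) := by
    nlinarith [sq_nonneg (a - b), sq_nonneg (b - c), sq_nonneg (a - c)]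
  calc x ^ 2 ≤ _ := h1
    _ = (P * A) ^ 2 * (a + b + c) ^ 2 := by ring
    _ ≤ (P * A) ^ 2 * (3 * (a ^ 2 + b ^ 2 + c ^ 2)) := by gcongr
    _ = _ := by ring

end

/-- the part of the coefficients that differs between the two strings -/
theorem chain_diff (m : ℕ) {κ0 C : ℝ} (hκ0 : 0 ≤ κ0) (hC : 1 ≤ C) :
    ∃ Cf : ℝ, 0 ≤ Cf ∧ ∀ {κ : ℝ} {V : Type} [NormedAddCommGroup V] [InnerProductSpace ℝ V]
      (F : Fock κ V) {s sY : ℝ} {h R L N : ℕ} {lam mu nu2 : ℝ}, 0 ≤ κ → κ ≤ κ0 →
      KB s sY h L N m C lam mu nu2 → 64 * (κ * C) * √(((L : ℝ) + 1) / h) ≤ 1 →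
      aa h R ^ 2 ≤ aa h 0 ^ 3 → 2 * R + 2 ^ m ≤ L →
      ‖F.blks s sY (core N h R m true) F.Ω - F.blks s sY (core N h R m false) F.Ω‖ ^ 2 ≤
        Cf * lam * nu2 * aa h 0 ^ 3 * (mu ^ (2 * m) + aa h R + aa h 0 ^ 2) := by
  set P : ℝ := M0 κ0 C ^ 3 * (2 ^ (m ^ 2) * (2 ^ m * (3 * 2 ^ m)) + 4 ^ m) with hP
  have hM := M0_ge hκ0 hC
  refine ⟨3 * P ^ 2, by positivity, ?_⟩
  intro κ V _ _ F s sY h R L N lam mu nu2 hκ hκκ K hsm hR hL
  have hMκ := M0_ge hκ hC
  have hMle : M0 κ C ≤ M0 κ0 C := M0_mono hκ hκκ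
  have ha0 := aa_nonneg h 0
  have haR := aa_nonneg h R
  have hnu0 : 0 ≤ nu2 := by
    refine le_trans ?_ K.hnu
    rw [← F.norm_op_Ω]
    positivity
  have hmu0 := K.hmu0
  -- the vector is the operator of the pattern difference between the outer parts
  have e1 : F.blks s sY (core N h R m true) F.Ω - F.blks s sY (core N h R m false) F.Ω =
      F.op (w s ^ (2 * N)) ((F.Wd s sY h false ^ R)
        ((F.TT s sY h (pat m true) - F.TT s sY h (pat m false))
          ((F.Wd s sY h false ^ R) (F.v0 s N)))) := by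
    rw [F.blks_core, F.blks_core]
    unfold plist Fock.v0
    rw [F.TT_append, F.TT_append, F.TT_append, F.TT_append, F.TT_replicate]
    simp only [Module.End.mul_apply, LinearMap.sub_apply, map_sub]
  have e2 : ‖F.blks s sY (core N h R m true) F.Ω - F.blks s sY (core N h R m false) F.Ω‖ =
      F.nrm s sY h R N (F.TT s sY h (pat m true) - F.TT s sY h (pat m false)) := by
    rw [e1]; rfl
  obtain ⟨_, hS2⟩ := pat_diff F (s := s) (sY := sY) (h := h) m
  have h2 := F.nrm_S2 hκ K hsm hR hL le_rfl hS2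
  set B1 : ℝ := M0 κ C ^ 3 * (3 * 2 ^ m) * (√lam * √(aa h 0 ^ 3) * √nu2) *
    (mu ^ m + √(aa h R)) with hB1
  have hB10 : 0 ≤ B1 := by positivity
  have h1 := F.nrm_alpha (s := s) (sY := sY) (h := h) (R := R) (N := N) (m := m) hB10
    (fun i j a b hij hab => F.nrm_word (hκ := hκ) K hsm hR hL hij hab) m le_rfl 0 0 (by simp)
  have e3 : F.Wd s sY h false ^ 0 * adn (F.Wd s sY h false) (m - m)
      (alpha (F.Wd s sY h false) (F.Del s sY h) m) * F.Wd s sY h false ^ 0 =
      alpha (F.Wd s sY h false) (F.Del s sY h) m := by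
    simp [adn]
  rw [e3] at h1
  have h3 : F.nrm s sY h R N (F.TT s sY h (pat m true) - F.TT s sY h (pat m false)) ≤
      2 ^ (m ^ 2) * (2 ^ m * B1) +
      ((4 ^ m : ℕ) : ℝ) * (M0 κ C ^ 3 * (√lam * √(aa h 0 ^ 3) * √nu2) * aa h 0) := by
    have e4 : F.TT s sY h (pat m true) - F.TT s sY h (pat m false) =
        alpha (F.Wd s sY h false) (F.Del s sY h) m +
        (F.TT s sY h (pat m true) - F.TT s sY h (pat m false) -
          alpha (F.Wd s sY h false) (F.Del s sY h) m) := by abel
    calc _ = F.nrm s sY h R N (alpha (F.Wd s sY h false) (F.Del s sY h) m +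
        (F.TT s sY h (pat m true) - F.TT s sY h (pat m false) -
          alpha (F.Wd s sY h false) (F.Del s sY h) m)) := by rw [← e4]
      _ ≤ _ := (F.nrm_add _ _).trans (add_le_add h1 h2)
  have hmum : 0 ≤ mu ^ m := pow_nonneg hmu0 _
  have h4 : F.nrm s sY h R N (F.TT s sY h (pat m true) - F.TT s sY h (pat m false)) ≤
      P * (√lam * √(aa h 0 ^ 3) * √nu2) * (mu ^ m + √(aa h R) + aa h 0) := by
    refine h3.trans ?_
    set S := √lam * √(aa h 0 ^ 3) * √nu2 with hS
    have hS0 : 0 ≤ S := by positivity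
    have hη0 : 0 ≤ √(aa h R) := Real.sqrt_nonneg _
    have hM3 : M0 κ C ^ 3 ≤ M0 κ0 C ^ 3 := by gcongr
    push_cast
    calc 2 ^ (m ^ 2) * (2 ^ m * B1) + 4 ^ m * (M0 κ C ^ 3 * S * aa h 0) =
        M0 κ C ^ 3 * S * ((2 ^ (m ^ 2) * (2 ^ m * (3 * 2 ^ m))) * (mu ^ m + √(aa h R)) +
          4 ^ m * aa h 0) := by rw [hB1]; ring
      _ ≤ M0 κ0 C ^ 3 * S * ((2 ^ (m ^ 2) * (2 ^ m * (3 * 2 ^ m))) * (mu ^ m + √(aa h R)) +
          4 ^ m * aa h 0) := by gcongr
      _ ≤ M0 κ0 C ^ 3 * S * ((2 ^ (m ^ 2) * (2 ^ m * (3 * 2 ^ m)) + 4 ^ m) *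
          (mu ^ m + √(aa h R) + aa h 0)) := by
        refine mul_le_mul_of_nonneg_left ?_ (by positivity)
        set Q : ℝ := 2 ^ (m ^ 2) * (2 ^ m * (3 * 2 ^ m)) with hQ
        have hQ0 : 0 ≤ Q := by positivity
        have h40 : (0 : ℝ) ≤ 4 ^ m := by positivity
        nlinarith [mul_nonneg hQ0 ha0, mul_nonneg h40 (add_nonneg hmum hη0)]
      _ = _ := by rw [hP]; ring
  rw [← e2] at h4
  have h5 := core_sq (norm_nonneg _) h4
  refine h5.trans (le_of_eq ?_)
  rw [mul_pow (√lam * √(aa h 0 ^ 3)), mul_pow (√lam), Real.sq_sqrt K.hlam,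
    Real.sq_sqrt (by positivity), Real.sq_sqrt hnu0, Real.sq_sqrt haR, ← pow_mul, mul_comm m 2]
  ring

/-- the hidden part of the coefficients -/
theorem chain_hid {κ : ℝ} {V : Type} [NormedAddCommGroup V] [InnerProductSpace ℝ V]
    (F : Fock κ V) {s sY : ℝ} {h R L N m : ℕ} {C lam mu nu2 : ℝ} (hκ : 0 ≤ κ)
    (K : KB s sY h L N m C lam mu nu2) (hsm : 64 * (κ * C) * √(((L : ℝ) + 1) / h) ≤ 1)
    (hL : 2 * R + 2 ^ m ≤ L) (b : Bool) :
    ‖F.blks s sY (core N h R m b) F.Ω -
      F.op (w s ^ (core N h R m b).count false * w sY ^ (core N h R m b).count true) F.Ω‖ ^ 2 ≤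
      4 * κ * lam * L * nu2 := by
  have e1 : w s ^ (core N h R m b).count false * w sY ^ (core N h R m b).count true =
      w s ^ (2 * N) * W0 s sY h ^ (2 * R + 2 ^ m) * w s ^ (2 * N) :=
    plp_core s sY K.hh b
  rw [e1, F.blks_core, F.op_mul_apply, F.op_mul_apply]
  simp only [Module.End.mul_apply]
  rw [← map_sub]
  have e2 : F.op (w s ^ (2 * N)) F.Ω = F.v0 s N := rfl
  rw [e2, ← plist_length R m b]
  have h1 := F.E7 hκ K hsm (plist R m b) (by rw [plist_length]; exact hL) (F.v0 s N)
  have h2 : ‖F.op (w s ^ (2 * N)) (F.TT s sY h (plist R m b) (F.v0 s N) -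
      F.op (W0 s sY h ^ (plist R m b).length) (F.v0 s N))‖ ≤
      ‖F.op (w s ^ N) (F.TT s sY h (plist R m b) (F.v0 s N) -
      F.op (W0 s sY h ^ (plist R m b).length) (F.v0 s N))‖ := by
    rw [two_mul, pow_add, F.op_mul_apply]
    exact F.norm_op_w_le K _ _
  have h3 : ‖F.v0 s N‖ ^ 2 ≤ nu2 := by
    have hnu0 : 0 ≤ nu2 := by
      refine le_trans ?_ K.hnu
      rw [← F.norm_op_Ω]
      positivity
    calc ‖F.v0 s N‖ ^ 2 ≤ √nu2 ^ 2 := by
          have := F.norm_v0_le K
          gcongr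
      _ = nu2 := Real.sq_sqrt hnu0
  have hlam := K.hlam
  calc _ ≤ _ := pow_le_pow_left₀ (norm_nonneg _) h2 2
    _ ≤ _ := h1
    _ ≤ _ := by gcongr

end Vale.Agent.P321
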