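import Mathlib

namespace Vale.Agent.P321

/-- The trace of `x` when exactly the letters in positions `i` with `k i = true` survive. -/
def trace {n : ℕ} (x k : Fin n → Bool) : List Bool :=
  ((List.finRange n).filter (fun i => k i)).map x

/-- Probability that the set of surviving positions is `k`. -/
noncomputable def keepProb {n : ℕ} (q : ℝ) (k : Fin n → Bool) : ℝ :=
  ∏ i, (if k i then 1 - q else q)

/-- Probability that the randomized estimator `est`, fed with `m` independent traces of `x`,
outputs `x`. -/
noncomputable def successProb {n m : ℕ} (q : ℝ)
    (est : (Fin m → List Bool) → PMF (Fin n → Bool)) (x : Fin n → Bool) : ℝ :=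
  ∑ k : Fin m → Fin n → Bool,
    (∏ j, keepProb q (k j)) * ((est (fun j => trace x (k j))) x).toReal

/-- `m` traces suffice to reconstruct every string of length `n` with probability `2/3`. -/
def Suffices (q : ℝ) (n m : ℕ) : Prop :=
  ∃ est : (Fin m → List Bool) → PMF (Fin n → Bool), ∀ x, 2 / 3 ≤ successProb q est x

/-- The worst-case sample complexity of trace reconstruction. -/
noncomputable def T (q : ℝ) (n : ℕ) : ℕ := sInf {m | Suffices q n m}

end Vale.Agent.P321
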