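import Vale.Agent.P321.Est

namespace Vale.Agent.P321

open scoped RealInnerProductSpace
open Polynomial

/-- the constant in the first round of estimates -/
noncomputable def M0 (κ C : ℝ) : ℝ := 200 * (1 + κ) ^ 2 * C ^ 2

theorem M0_ge {κ C : ℝ} (hκ : 0 ≤ κ) (hC : 1 ≤ C) : 200 ≤ M0 κ C := by
  unfold M0
  have h1 : 1 ≤ (1 + κ) ^ 2 := by nlinarith
  have h2 : 1 ≤ C ^ 2 := by nlinarith
  nlinarith [mul_le_mul h1 h2 zero_le_one (by positivity)]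

theorem M0_mono {κ κ' C : ℝ} (hκ : 0 ≤ κ) (h : κ ≤ κ') : M0 κ C ≤ M0 κ' C := by
  unfold M0
  gcongr

/-- `(1 + κ) C ≤ (1+κ)^2 C^2 = M0 / 200` and similar -/
theorem M0_facts {κ C : ℝ} (hκ : 0 ≤ κ) (hC : 1 ≤ C) :
    κ ≤ M0 κ C / 200 ∧ C ≤ M0 κ C / 200 ∧ κ * C ≤ M0 κ C / 200 ∧
      (κ * C) ^ 2 ≤ M0 κ C / 200 ∧ κ * (κ * C) ≤ M0 κ C / 200 ∧ (κ * C) * C ≤ M0 κ C / 200 := by
  unfold M0
  have hC0 : 0 ≤ C := by linarith
  have hC2 : C ≤ C ^ 2 := by nlinarith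
  have h1 : 1 ≤ (1 + κ) ^ 2 := by nlinarith
  have h2 : κ ≤ (1 + κ) ^ 2 := by nlinarith
  have h3 : κ ^ 2 ≤ (1 + κ) ^ 2 := by nlinarith
  have hc : (1 : ℝ) ≤ C ^ 2 := by nlinarith
  have e : 200 * (1 + κ) ^ 2 * C ^ 2 / 200 = (1 + κ) ^ 2 * C ^ 2 := by ring
  rw [e]
  refine ⟨?_, ?_, ?_, ?_, ?_, ?_⟩
  · calc κ = κ * 1 := by ring
      _ ≤ (1 + κ) ^ 2 * C ^ 2 := by gcongr
  · calc C = 1 * C := by ring
      _ ≤ (1 + κ) ^ 2 * C ^ 2 := by gcongr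
  · gcongr
  · rw [mul_pow]; gcongr
  · calc κ * (κ * C) = κ ^ 2 * C := by ring
      _ ≤ (1 + κ) ^ 2 * C ^ 2 := by gcongr
  · calc κ * C * C = κ * C ^ 2 := by ring
      _ ≤ (1 + κ) ^ 2 * C ^ 2 := by gcongr

theorem le_mul_of_sq_le {x M A B : ℝ} (hM : 1 ≤ M) (hA : 0 ≤ A) (h : x ^ 2 ≤ B * A ^ 2)
    (hB : B ≤ M) : x ≤ M * A := by
  have h1 : x ^ 2 ≤ (M * A) ^ 2 := by
    refine h.trans ?_
    rw [mul_pow]
    refine mul_le_mul_of_nonneg_right ?_ (sq_nonneg _)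
    nlinarith
  exact le_of_sq_le_sq h1 (by positivity)

theorem le_mul_of_sq_le' {x M A B : ℝ} (hM : 200 ≤ M) (hA : 0 ≤ A)
    (h : x ^ 2 ≤ B * A ^ 2) (hB : B ≤ 200 * M) : x ≤ M * A := by
  have h1 : x ^ 2 ≤ (M * A) ^ 2 := by
    refine h.trans ?_
    rw [mul_pow]
    refine mul_le_mul_of_nonneg_right ?_ (sq_nonneg _)
    nlinarith
  exact le_of_sq_le_sq h1 (by positivity)

section

variable {κ : ℝ} {V : Type} [NormedAddCommGroup V] [InnerProductSpace ℝ V] (F : Fock κ V)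
  {s sY : ℝ} {h R L N m : ℕ} {C lam mu nu2 : ℝ}

/-- the seminorm measuring the vector on the right of a shifted defect -/
noncomputable def Fock.th (s : ℝ) (h : ℕ) (G : V) : ℝ :=
  √(aa h 0 ^ 3) * ‖F.op (w s ^ (h - 1)) G‖ + ‖F.op ((w s - 1) * w s ^ (h - 1)) G‖

theorem Fock.th_nonneg (G : V) : 0 ≤ F.th s h G := by
  unfold Fock.th; positivity

theorem Fock.th_add (G G' : V) : F.th s h (G + G') ≤ F.th s h G + F.th s h G' := by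
  unfold Fock.th
  rw [map_add, map_add]
  have h1 := norm_add_le (F.op (w s ^ (h - 1)) G) (F.op (w s ^ (h - 1)) G')
  have h2 := norm_add_le (F.op ((w s - 1) * w s ^ (h - 1)) G)
    (F.op ((w s - 1) * w s ^ (h - 1)) G')
  have h3 := mul_le_mul_of_nonneg_left h1 (Real.sqrt_nonneg (aa h 0 ^ 3))
  linarith

theorem Fock.th_sub (G G' : V) : F.th s h (G - G') ≤ F.th s h G + F.th s h G' := by
  unfold Fock.th
  rw [map_sub, map_sub]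
  have h1 := norm_sub_le (F.op (w s ^ (h - 1)) G) (F.op (w s ^ (h - 1)) G')
  have h2 := norm_sub_le (F.op ((w s - 1) * w s ^ (h - 1)) G)
    (F.op ((w s - 1) * w s ^ (h - 1)) G')
  have h3 := mul_le_mul_of_nonneg_left h1 (Real.sqrt_nonneg (aa h 0 ^ 3))
  linarith

theorem Fock.sq_le_th (G : V) :
    aa h 0 ^ 3 * ‖F.op (w s ^ (h - 1)) G‖ ^ 2 + ‖F.op ((w s - 1) * w s ^ (h - 1)) G‖ ^ 2 ≤
      F.th s h G ^ 2 := by
  unfold Fock.th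
  have h1 := Real.sq_sqrt (pow_nonneg (aa_nonneg h 0) 3)
  have h2 : 0 ≤ √(aa h 0 ^ 3) * ‖F.op (w s ^ (h - 1)) G‖ *
    ‖F.op ((w s - 1) * w s ^ (h - 1)) G‖ := by positivity
  nlinarith

/-- b6 -/
theorem Fock.b6 (hκ : 0 ≤ κ) (K : KB s sY h L N m C lam mu nu2)
    (hsm : 64 * (κ * C) * √(((L : ℝ) + 1) / h) ≤ 1) (G : V) (l : List Bool)
    (hl : l.length ≤ L) :
    ‖F.op (w s ^ N) (F.TT s sY h l (F.Del s sY h G))‖ ≤
      M0 κ C * (√lam * F.th s h G) := by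
  obtain ⟨f1, f2, f3, f4, f5, f6⟩ := M0_facts hκ K.hC
  have hM := M0_ge hκ K.hC
  refine le_mul_of_sq_le (B := 5 * κ + 30 * κ * (κ * C)) (by linarith)
    (mul_nonneg (Real.sqrt_nonneg _) (F.th_nonneg _)) ?_ (by linarith)
  have h0 : 0 ≤ 5 * κ + 30 * κ * (κ * C) := by
    have := K.hC
    positivity
  calc _ ≤ _ := F.E6 hκ K hsm G l hl
    _ ≤ (5 * κ + 30 * κ * (κ * C)) * lam * F.th s h G ^ 2 :=
      mul_le_mul_of_nonneg_left (F.sq_le_th G) (mul_nonneg h0 K.hlam)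
    _ = _ := by rw [mul_pow, Real.sq_sqrt K.hlam]; ring

/-- b4 -/
theorem Fock.b4 (hκ : 0 ≤ κ) (K : KB s sY h L N m C lam mu nu2)
    (hsm : 64 * (κ * C) * √(((L : ℝ) + 1) / h) ≤ 1) (hR : aa h R ^ 2 ≤ aa h 0 ^ 3) (G : V)
    (l : List Bool) (hl : l.length ≤ L) (hRl : R ≤ l.length) :
    ‖F.TT s sY h l (F.Del s sY h G)‖ ≤ M0 κ C * (√(aa h R) * F.th s h G) := by
  obtain ⟨f1, f2, f3, f4, f5, f6⟩ := M0_facts hκ K.hC
  have hM := M0_ge hκ K.hC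
  have hC0 : 0 ≤ C := by linarith [K.hC]
  have hc0 : 0 ≤ κ * C := mul_nonneg hκ hC0
  refine le_mul_of_sq_le (B := 8 * (κ * C) + 96 * (κ * C) ^ 2) (by linarith)
    (mul_nonneg (Real.sqrt_nonneg _) (F.th_nonneg _)) ?_ (by linarith)
  have h1 := F.E4 hκ K hsm G l.length l rfl hl
  have h2 : aa h l.length ≤ aa h R := aa_anti K.hh hRl
  have h3 := aa_nonneg h l.length
  have h4 := aa_nonneg h R
  have h5 := aa_nonneg h 0
  have h6 : aa h l.length ^ 3 ≤ aa h 0 ^ 3 * aa h R := by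
    calc aa h l.length ^ 3 ≤ aa h R ^ 3 := by gcongr
      _ = aa h R ^ 2 * aa h R := by ring
      _ ≤ _ := by gcongr
  set x2 := ‖F.op (w s ^ (h - 1)) G‖ ^ 2 with hx2
  set y2 := ‖F.op ((w s - 1) * w s ^ (h - 1)) G‖ ^ 2 with hy2
  have hx0 : 0 ≤ x2 := sq_nonneg _
  have hy0 : 0 ≤ y2 := sq_nonneg _
  have h7 : (4 * (κ * C) * aa h l.length ^ 3 + 96 * (κ * C) ^ 2 * aa h 0 ^ 3 * aa h l.length) *
      x2 + 8 * (κ * C) * aa h l.length * y2 ≤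
      (4 * (κ * C) * (aa h 0 ^ 3 * aa h R) + 96 * (κ * C) ^ 2 * aa h 0 ^ 3 * aa h R) *
      x2 + 8 * (κ * C) * aa h R * y2 := by gcongr
  have h8 : F.th s h G ^ 2 ≥ aa h 0 ^ 3 * x2 + y2 := F.sq_le_th G
  rw [mul_pow (√(aa h R)), Real.sq_sqrt h4]
  have p1 : 0 ≤ κ * C * (aa h 0 ^ 3 * aa h R) * x2 := by positivity
  have p2 : 0 ≤ (κ * C) ^ 2 * aa h R * y2 := by positivity
  calc _ ≤ _ := h1
    _ ≤ _ := h7
    _ ≤ (8 * (κ * C) + 96 * (κ * C) ^ 2) * (aa h R * (aa h 0 ^ 3 * x2 + y2)) := by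
      nlinarith
    _ ≤ (8 * (κ * C) + 96 * (κ * C) ^ 2) * (aa h R * F.th s h G ^ 2) := by
      gcongr

theorem Fock.norm_op_w_le (K : KB s sY h L N m C lam mu nu2) (n : ℕ) (v : V) :
    ‖F.op (w s ^ n) v‖ ≤ ‖v‖ := by
  have := F.norm_op_le (w s ^ n) v
  rwa [l1_w_pow K.hs0 K.hs1, one_mul] at this

/-- b1 -/
theorem Fock.b1 (hκ : 0 ≤ κ) (K : KB s sY h L N m C lam mu nu2)
    (hsm : 64 * (κ * C) * √(((L : ℝ) + 1) / h) ≤ 1) (hR : aa h R ^ 2 ≤ aa h 0 ^ 3) (v : V)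
    (l : List Bool) (hl : l.length ≤ L) (hRl : R ≤ l.length) :
    F.th s h (F.TT s sY h l v) ≤ M0 κ C * (√(aa h 0 ^ 3) * ‖v‖) := by
  obtain ⟨f1, f2, f3, f4, f5, f6⟩ := M0_facts hκ K.hC
  have hM := M0_ge hκ K.hC
  have hC0 : 0 ≤ C := by linarith [K.hC]
  have hc0 : 0 ≤ κ * C := mul_nonneg hκ hC0
  have ha0 := aa_nonneg h 0
  have hr0 : 0 ≤ √(aa h 0 ^ 3) := Real.sqrt_nonneg _
  have h1 : ‖F.op (w s ^ (h - 1)) (F.TT s sY h l v)‖ ≤ 2 * ‖v‖ := by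
    refine (F.norm_op_w_le K _ _).trans ?_
    have := F.E1 hκ K hsm l.length l rfl hl v
    refine le_of_sq_le_sq ?_ (by positivity)
    linarith
  have h2 : ‖F.op ((w s - 1) * w s ^ (h - 1)) (F.TT s sY h l v)‖ ≤
      (M0 κ C / 2) * (√(aa h 0 ^ 3) * ‖v‖) := by
    refine le_mul_of_sq_le (B := 2 * C + 24 * (κ * C)) (by linarith) (by positivity) ?_
      (by linarith)
    have h3 := F.E2 hκ K hsm l hl v
    have h4 : aa h l.length ^ 2 ≤ aa h 0 ^ 3 := by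
      refine le_trans ?_ hR
      have := aa_anti K.hh hRl
      have := aa_nonneg h l.length
      gcongr
    rw [mul_pow, Real.sq_sqrt (by positivity)]
    calc _ ≤ _ := h3
      _ ≤ (2 * C * aa h 0 ^ 3 + 24 * (κ * C) * aa h 0 ^ 3) * ‖v‖ ^ 2 := by gcongr
      _ = _ := by ring
  unfold Fock.th
  have h5 : √(aa h 0 ^ 3) * ‖F.op (w s ^ (h - 1)) (F.TT s sY h l v)‖ ≤
      √(aa h 0 ^ 3) * (2 * ‖v‖) := by gcongr
  have h6 : 0 ≤ √(aa h 0 ^ 3) * ‖v‖ := by positivity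
  nlinarith

/-- b5 -/
theorem Fock.b5 (hκ : 0 ≤ κ) (K : KB s sY h L N m C lam mu nu2)
    (hsm : 64 * (κ * C) * √(((L : ℝ) + 1) / h) ≤ 1) (hR : aa h R ^ 2 ≤ aa h 0 ^ 3)
    {e : ℕ} (he : e ≤ 1) (v : V) (l : List Bool) (hl : l.length ≤ L) (hRl : R ≤ l.length) :
    F.th s h (F.TT s sY h l (F.op (w s ^ (h + e)) (F.ζ v))) ≤
      M0 κ C * (√(aa h 0 ^ 3) * √(aa h R) * ‖v‖) := by
  obtain ⟨f1, f2, f3, f4, f5, f6⟩ := M0_facts hκ K.hC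
  have hM := M0_ge hκ K.hC
  have hC0 : 0 ≤ C := by linarith [K.hC]
  have hc0 : 0 ≤ κ * C := mul_nonneg hκ hC0
  have ha0 := aa_nonneg h 0
  have haR := aa_nonneg h R
  have hal := aa_nonneg h l.length
  have hlR : aa h l.length ≤ aa h R := aa_anti K.hh hRl
  have hr0 : 0 ≤ √(aa h 0 ^ 3) := Real.sqrt_nonneg _
  have h1 : ‖F.op (w s ^ (h - 1)) (F.TT s sY h l (F.op (w s ^ (h + e)) (F.ζ v)))‖ ≤
      (M0 κ C / 2) * (√(aa h R) * ‖v‖) := by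
    refine (F.norm_op_w_le K _ _).trans ?_
    refine le_mul_of_sq_le (B := 4 * (κ * C)) (by linarith) (by positivity) ?_
      (by linarith)
    rw [mul_pow, Real.sq_sqrt haR]
    calc _ ≤ _ := F.E5 hκ K hsm he v l.length l rfl hl
      _ ≤ 4 * (κ * C) * aa h R * ‖v‖ ^ 2 := by gcongr
      _ = _ := by ring
  have h2 : ‖F.op ((w s - 1) * w s ^ (h - 1))
      (F.TT s sY h l (F.op (w s ^ (h + e)) (F.ζ v)))‖ ≤
      (M0 κ C / 2) * (√(aa h 0 ^ 3) * √(aa h R) * ‖v‖) := by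
    refine le_mul_of_sq_le (B := 2 * (κ * C) + 48 * (κ * C) ^ 2) (by linarith)
      (by positivity) ?_ (by linarith)
    have h6 : aa h l.length ^ 3 ≤ aa h 0 ^ 3 * aa h R := by
      calc aa h l.length ^ 3 ≤ aa h R ^ 3 := by gcongr
        _ = aa h R ^ 2 * aa h R := by ring
        _ ≤ _ := by gcongr
    rw [mul_pow (√(aa h 0 ^ 3) * √(aa h R)), mul_pow (√(aa h 0 ^ 3)),
      Real.sq_sqrt (by positivity), Real.sq_sqrt haR]
    calc _ ≤ _ := F.E5' hκ K hsm he v l hl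
      _ ≤ (2 * (κ * C) * (aa h 0 ^ 3 * aa h R) +
          48 * (κ * C) ^ 2 * aa h 0 ^ 3 * aa h R) * ‖v‖ ^ 2 := by gcongr
      _ = _ := by ring
  unfold Fock.th
  have h5 : √(aa h 0 ^ 3) * ‖F.op (w s ^ (h - 1))
      (F.TT s sY h l (F.op (w s ^ (h + e)) (F.ζ v)))‖ ≤
      √(aa h 0 ^ 3) * ((M0 κ C / 2) * (√(aa h R) * ‖v‖)) := by gcongr
  linarith

/-- b8 -/
theorem Fock.b8 (hκ : 0 ≤ κ) (K : KB s sY h L N m C lam mu nu2) {e : ℕ} (he : e ≤ 1) (Y : V) :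
    ‖F.op (w s ^ N) (F.op (w s ^ (h + e)) (F.ζ (F.op (w s ^ (h - e)) Y)))‖ ≤
      M0 κ C * (√lam * ‖Y‖) := by
  obtain ⟨f1, f2, f3, f4, f5, f6⟩ := M0_facts hκ K.hC
  have hM := M0_ge hκ K.hC
  refine le_mul_of_sq_le (B := κ) (by linarith) (by positivity) ?_ (by linarith)
  rw [mul_pow, Real.sq_sqrt K.hlam]
  calc _ ≤ _ := F.E8 hκ K he Y
    _ = _ := by ring

/-- second-order building block -/
theorem Fock.b44 (hκ : 0 ≤ κ) (K : KB s sY h L N m C lam mu nu2)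
    (hsm : 64 * (κ * C) * √(((L : ℝ) + 1) / h) ≤ 1) (hR : aa h R ^ 2 ≤ aa h 0 ^ 3) (v : V)
    (l l' : List Bool) (hl : l.length ≤ L) (hl' : l'.length ≤ L) (hRl : R ≤ l'.length) :
    ‖F.TT s sY h l (F.Del s sY h (F.TT s sY h l' v))‖ ≤ M0 κ C * (√(aa h 0 ^ 3) * ‖v‖) := by
  obtain ⟨f1, f2, f3, f4, f5, f6⟩ := M0_facts hκ K.hC
  have hM := M0_ge hκ K.hC
  have hC0 : 0 ≤ C := by linarith [K.hC]
  have hc0 : 0 ≤ κ * C := mul_nonneg hκ hC0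
  have ha0 := aa_nonneg h 0
  have ha1 := aa_le_one K.hh 0
  have hal := aa_nonneg h l.length
  have hl0 : aa h l.length ≤ aa h 0 := aa_anti K.hh (Nat.zero_le _)
  have h1 := F.E4 hκ K hsm (F.TT s sY h l' v) l.length l rfl hl
  have h2 : ‖F.op (w s ^ (h - 1)) (F.TT s sY h l' v)‖ ^ 2 ≤ 4 * ‖v‖ ^ 2 := by
    refine le_trans ?_ (F.E1 hκ K hsm l'.length l' rfl hl' v)
    have := F.norm_op_w_le K (h - 1) (F.TT s sY h l' v)
    gcongr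
  have h3 : ‖F.op ((w s - 1) * w s ^ (h - 1)) (F.TT s sY h l' v)‖ ^ 2 ≤
      (2 * C + 24 * (κ * C)) * (aa h 0 ^ 3 * ‖v‖ ^ 2) := by
    have h3 := F.E2 hκ K hsm l' hl' v
    have h4 : aa h l'.length ^ 2 ≤ aa h 0 ^ 3 := by
      refine le_trans ?_ hR
      have := aa_anti K.hh hRl
      have := aa_nonneg h l'.length
      gcongr
    calc _ ≤ _ := h3
      _ ≤ (2 * C * aa h 0 ^ 3 + 24 * (κ * C) * aa h 0 ^ 3) * ‖v‖ ^ 2 := by gcongr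
      _ = _ := by ring
  refine le_mul_of_sq_le' (B := 16 * (κ * C) + 576 * (κ * C) ^ 2 + 16 * ((κ * C) * C))
    (M := M0 κ C) (by linarith) (by positivity) ?_ (by linarith)
  · rw [mul_pow (√(aa h 0 ^ 3)), Real.sq_sqrt (by positivity)]
    calc _ ≤ _ := h1
      _ ≤ (4 * (κ * C) * aa h 0 ^ 3 + 96 * (κ * C) ^ 2 * aa h 0 ^ 3 * 1) * (4 * ‖v‖ ^ 2) +
          8 * (κ * C) * 1 * ((2 * C + 24 * (κ * C)) * (aa h 0 ^ 3 * ‖v‖ ^ 2)) := by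
        have : aa h l.length ≤ 1 := hl0.trans ha1
        gcongr
      _ = _ := by ring

end

end Vale.Agent.P321
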