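import Vale.Agent.P321.Diff

namespace Vale.Agent.P321

open scoped RealInnerProductSpace
open Polynomial

section

variable {κ : ℝ} {V : Type} [NormedAddCommGroup V] [InnerProductSpace ℝ V] (F : Fock κ V)
  {s sY : ℝ} {h R L N m : ℕ} {C lam mu nu2 : ℝ}

theorem Fock.u_apply (hh : 1 ≤ h) (x : V) :
    (F.Wd s sY h false - 1) x = F.op (W0 s sY h - 1) x +
      F.op (w s ^ (h + 0)) (F.ζ (F.op (w s ^ (h - 0)) x)) := by
  rw [F.Wd_eq s sY h hh, F.op_sub, F.op_one]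
  simp [eb]
  abel

/-- the vacuum smoothed by `w^(2N)` -/
noncomputable def Fock.v0 (s : ℝ) (N : ℕ) : V := F.op (w s ^ (2 * N)) F.Ω

theorem Fock.norm_v0_pow_le (K : KB s sY h L N m C lam mu nu2) {i : ℕ} (hi : i ≤ m) :
    ‖F.op ((W0 s sY h - 1) ^ i) (F.v0 s N)‖ ≤ mu ^ i * √nu2 := by
  unfold Fock.v0
  rw [← F.op_mul_apply]
  have e : (W0 s sY h - 1) ^ i * w s ^ (2 * N) = (w s ^ N * (W0 s sY h - 1) ^ i) * w s ^ N := by
    rw [two_mul, pow_add]; ring
  rw [e, F.op_mul_apply]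
  refine (F.norm_op_le _ _).trans ?_
  have h1 : ‖F.op (w s ^ N) F.Ω‖ ≤ √nu2 := by
    apply Real.le_sqrt_of_sq_le
    rw [F.norm_op_Ω]
    exact K.hnu
  exact mul_le_mul (K.hmu i hi) h1 (norm_nonneg _) (pow_nonneg K.hmu0 _)

theorem Fock.norm_v0_le (K : KB s sY h L N m C lam mu nu2) : ‖F.v0 s N‖ ≤ √nu2 := by
  have := F.norm_v0_pow_le K (Nat.zero_le m)
  simpa [F.op_one] using this

theorem Fock.left_exp (hκ : 0 ≤ κ) (K : KB s sY h L N m C lam mu nu2) (Y : V) (i : ℕ) :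
    ∀ i', i' + i ≤ m →
      ‖F.op (w s ^ (2 * N) * (W0 s sY h - 1) ^ i') (((F.Wd s sY h false - 1) ^ i) Y)‖ ≤
        mu ^ (i' + i) * ‖F.op (w s ^ N) Y‖ +
          M0 κ C * √lam * ∑ j ∈ Finset.range i, ‖((F.Wd s sY h false - 1) ^ j) Y‖ := by
  have e : ∀ i', w s ^ (2 * N) * (W0 s sY h - 1) ^ i' =
      (w s ^ N * (W0 s sY h - 1) ^ i') * w s ^ N := by
    intro i'
    rw [two_mul, pow_add]; ring
  induction i with
  | zero =>
    intro i' hi'
    rw [e, F.op_mul_apply]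
    simp only [pow_zero, Module.End.one_apply, Finset.range_zero, Finset.sum_empty, mul_zero,
      add_zero]
    refine (F.norm_op_le _ _).trans ?_
    exact mul_le_mul_of_nonneg_right (K.hmu i' (by omega)) (norm_nonneg _)
  | succ i ih =>
    intro i' hi'
    rw [pow_succ' (F.Wd s sY h false - 1) i, Module.End.mul_apply, F.u_apply K.hh, map_add]
    refine (norm_add_le _ _).trans ?_
    rw [Finset.sum_range_succ, mul_add, ← add_assoc]
    refine add_le_add ?_ ?_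
    · rw [← F.op_mul_apply, mul_assoc, ← pow_succ]
      have := ih (i' + 1) (by omega)
      rwa [show i' + 1 + i = i' + (i + 1) by ring] at this
    · rw [e, F.op_mul_apply]
      refine (F.norm_op_le _ _).trans ?_
      have h1 := K.hmu i' (by omega)
      have h2 : mu ^ i' ≤ 1 := pow_le_one₀ K.hmu0 K.hmu1
      have h3 := F.b8 hκ K (e := 0) (by omega) (((F.Wd s sY h false - 1) ^ i) Y)
      calc _ ≤ 1 * (M0 κ C * (√lam * ‖((F.Wd s sY h false - 1) ^ i) Y‖)) :=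
            mul_le_mul (h1.trans h2) h3 (norm_nonneg _) zero_le_one
        _ = _ := by ring

theorem Fock.mid_exp (hκ : 0 ≤ κ) (K : KB s sY h L N m C lam mu nu2)
    (hsm : 64 * (κ * C) * √(((L : ℝ) + 1) / h) ≤ 1) (hR : aa h R ^ 2 ≤ aa h 0 ^ 3) (G : V)
    (i : ℕ) : ∀ n, R ≤ n → n + i ≤ L →
      ‖((F.Wd s sY h false - 1) ^ i) ((F.Wd s sY h false ^ n) (F.Del s sY h G))‖ ≤
        2 ^ i * (M0 κ C * (√(aa h R) * F.th s h G)) := by
  induction i with
  | zero =>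
    intro n hn hL
    have := F.b4 hκ K hsm hR G (List.replicate n false) (by simpa using hL) (by simpa using hn)
    rw [F.TT_replicate] at this
    simpa using this
  | succ i ih =>
    intro n hn hL
    have e : ((F.Wd s sY h false - 1) ^ (i + 1)) ((F.Wd s sY h false ^ n) (F.Del s sY h G)) =
        ((F.Wd s sY h false - 1) ^ i) ((F.Wd s sY h false ^ (n + 1)) (F.Del s sY h G)) -
        ((F.Wd s sY h false - 1) ^ i) ((F.Wd s sY h false ^ n) (F.Del s sY h G)) := by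
      rw [pow_succ (F.Wd s sY h false - 1) i, Module.End.mul_apply, ← map_sub,
        pow_succ' (F.Wd s sY h false) n, Module.End.mul_apply, LinearMap.sub_apply,
        Module.End.one_apply]
    rw [e]
    refine (norm_sub_le _ _).trans ?_
    have h1 := ih (n + 1) (by omega) (by omega)
    have h2 := ih n hn (by omega)
    rw [pow_succ (2 : ℝ)]
    linarith

theorem Fock.right0 (hκ : 0 ≤ κ) (K : KB s sY h L N m C lam mu nu2)
    (hsm : 64 * (κ * C) * √(((L : ℝ) + 1) / h) ≤ 1) (hR : aa h R ^ 2 ≤ aa h 0 ^ 3)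
    {e : ℕ} (he : e ≤ 1) (v : V) (j : ℕ) : ∀ n, R ≤ n → n + j ≤ L →
      F.th s h ((F.Wd s sY h false ^ n)
        (((F.Wd s sY h false - 1) ^ j) (F.op (w s ^ (h + e)) (F.ζ v)))) ≤
        2 ^ j * (M0 κ C * (√(aa h 0 ^ 3) * √(aa h R) * ‖v‖)) := by
  induction j with
  | zero =>
    intro n hn hL
    have := F.b5 hκ K hsm hR he v (List.replicate n false) (by simpa using hL)
      (by simpa using hn)
    rw [F.TT_replicate] at this
    simpa using this
  | succ j ih =>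
    intro n hn hL
    set x := F.op (w s ^ (h + e)) (F.ζ v) with hx
    have e : (F.Wd s sY h false ^ n) (((F.Wd s sY h false - 1) ^ (j + 1)) x) =
        (F.Wd s sY h false ^ (n + 1)) (((F.Wd s sY h false - 1) ^ j) x) -
        (F.Wd s sY h false ^ n) (((F.Wd s sY h false - 1) ^ j) x) := by
      rw [pow_succ' (F.Wd s sY h false - 1) j, Module.End.mul_apply, LinearMap.sub_apply,
        Module.End.one_apply, map_sub, pow_succ (F.Wd s sY h false) n, Module.End.mul_apply]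
    rw [e]
    refine (F.th_sub _ _).trans ?_
    have h1 := ih (n + 1) (by omega) (by omega)
    have h2 := ih n hn (by omega)
    rw [pow_succ (2 : ℝ)]
    linarith

theorem Fock.right_exp (hκ : 0 ≤ κ) (K : KB s sY h L N m C lam mu nu2)
    (hsm : 64 * (κ * C) * √(((L : ℝ) + 1) / h) ≤ 1) (hR : aa h R ^ 2 ≤ aa h 0 ^ 3) (j : ℕ) :
    ∀ i, i + j ≤ m → ∀ n, R ≤ n → n + j ≤ L →
      F.th s h ((F.Wd s sY h false ^ n)
        (((F.Wd s sY h false - 1) ^ j) (F.op ((W0 s sY h - 1) ^ i) (F.v0 s N)))) ≤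
        M0 κ C * √(aa h 0 ^ 3) * √nu2 * (mu ^ (i + j) + 2 ^ j * √(aa h R)) := by
  have hM := M0_ge hκ K.hC
  induction j with
  | zero =>
    intro i hi n hn hL
    have h1 := F.b1 hκ K hsm hR (F.op ((W0 s sY h - 1) ^ i) (F.v0 s N))
      (List.replicate n false) (by simpa using hL) (by simpa using hn)
    rw [F.TT_replicate] at h1
    have h2 := F.norm_v0_pow_le K (i := i) (by omega)
    simp only [pow_zero, Module.End.one_apply, add_zero, one_mul]
    refine h1.trans ?_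
    calc M0 κ C * (√(aa h 0 ^ 3) * ‖F.op ((W0 s sY h - 1) ^ i) (F.v0 s N)‖) ≤
        M0 κ C * (√(aa h 0 ^ 3) * (mu ^ i * √nu2)) := by gcongr
      _ = M0 κ C * √(aa h 0 ^ 3) * √nu2 * (mu ^ i + 0) := by ring
      _ ≤ _ := by gcongr; positivity
  | succ j ih =>
    intro i hi n hn hL
    set x := F.op ((W0 s sY h - 1) ^ i) (F.v0 s N) with hx
    have e1 : ((F.Wd s sY h false - 1) ^ (j + 1)) x =
        ((F.Wd s sY h false - 1) ^ j) (F.op ((W0 s sY h - 1) ^ (i + 1)) (F.v0 s N)) +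
        ((F.Wd s sY h false - 1) ^ j)
          (F.op (w s ^ (h + 0)) (F.ζ (F.op (w s ^ (h - 0)) x))) := by
      rw [pow_succ (F.Wd s sY h false - 1) j, Module.End.mul_apply, F.u_apply K.hh, map_add]
      congr 2
      rw [hx, ← F.op_mul_apply, ← pow_succ']
    rw [e1, map_add]
    refine (F.th_add _ _).trans ?_
    have h1 := ih (i + 1) (by omega) n hn (by omega)
    have h2 := F.right0 hκ K hsm hR (e := 0) (by omega) (F.op (w s ^ (h - 0)) x) j n hn
      (by omega)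
    have h3 : ‖F.op (w s ^ (h - 0)) x‖ ≤ √nu2 := by
      refine (F.norm_op_w_le K _ _).trans ?_
      refine (F.norm_v0_pow_le K (i := i) (by omega)).trans ?_
      exact mul_le_of_le_one_left (Real.sqrt_nonneg _) (pow_le_one₀ K.hmu0 K.hmu1)
    rw [show i + 1 + j = i + (j + 1) by ring] at h1
    have h4 : 2 ^ j * (M0 κ C * (√(aa h 0 ^ 3) * √(aa h R) * ‖F.op (w s ^ (h - 0)) x‖)) ≤
        2 ^ j * (M0 κ C * (√(aa h 0 ^ 3) * √(aa h R) * √nu2)) := by
      gcongr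
    refine (add_le_add h1 (h2.trans h4)).trans (le_of_eq ?_)
    rw [pow_succ (2 : ℝ) j]; ring

/-- first-order terms -/
theorem Fock.first_order (hκ : 0 ≤ κ) (K : KB s sY h L N m C lam mu nu2)
    (hsm : 64 * (κ * C) * √(((L : ℝ) + 1) / h) ≤ 1) (hR : aa h R ^ 2 ≤ aa h 0 ^ 3)
    {i j n n' : ℕ} (hij : i + j = m) (hn : R ≤ n) (hn' : R ≤ n') (hni : n + i ≤ L)
    (hnj : n' + j ≤ L) :
    ‖F.op (w s ^ (2 * N)) (((F.Wd s sY h false - 1) ^ i) ((F.Wd s sY h false ^ n)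
      (F.Del s sY h ((F.Wd s sY h false ^ n') (((F.Wd s sY h false - 1) ^ j) (F.v0 s N))))))‖ ≤
      M0 κ C ^ 3 * (3 * 2 ^ m) * (√lam * √(aa h 0 ^ 3) * √nu2) * (mu ^ m + √(aa h R)) := by
  have hM := M0_ge hκ K.hC
  set G := (F.Wd s sY h false ^ n') (((F.Wd s sY h false - 1) ^ j) (F.v0 s N)) with hG
  set M := M0 κ C with hMd
  have hM1 : 1 ≤ M := by linarith
  set η := √(aa h R) with hη
  have hη0 : 0 ≤ η := Real.sqrt_nonneg _
  have hη1 : η ≤ 1 := by
    rw [hη]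
    apply Real.sqrt_le_one.2
    exact aa_le_one K.hh R
  have h1 := F.left_exp hκ K ((F.Wd s sY h false ^ n) (F.Del s sY h G)) i 0 (by omega)
  rw [pow_zero, mul_one, zero_add] at h1
  have h2 : ‖F.op (w s ^ N) ((F.Wd s sY h false ^ n) (F.Del s sY h G))‖ ≤
      M * (√lam * F.th s h G) := by
    have := F.b6 hκ K hsm G (List.replicate n false) (by simp; omega)
    rwa [F.TT_replicate] at this
  have h3 : ∑ j' ∈ Finset.range i, ‖((F.Wd s sY h false - 1) ^ j')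
      ((F.Wd s sY h false ^ n) (F.Del s sY h G))‖ ≤ 2 ^ i * (M * (η * F.th s h G)) := by
    have h4 : ∑ j' ∈ Finset.range i, ‖((F.Wd s sY h false - 1) ^ j')
        ((F.Wd s sY h false ^ n) (F.Del s sY h G))‖ ≤
        ∑ j' ∈ Finset.range i, 2 ^ j' * (M * (η * F.th s h G)) := by
      refine Finset.sum_le_sum fun j' hj' => ?_
      have := Finset.mem_range.1 hj'
      exact F.mid_exp hκ K hsm hR G j' n hn (by omega)
    refine h4.trans ?_
    rw [← Finset.sum_mul]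
    refine mul_le_mul_of_nonneg_right ?_ (mul_nonneg (by linarith)
      (mul_nonneg hη0 (F.th_nonneg _)))
    have h5 : (∑ j' ∈ Finset.range i, (2 : ℝ) ^ j') = 2 ^ i - 1 := by
      have := geom_sum_eq (by norm_num : (2 : ℝ) ≠ 1) i
      rw [this]; norm_num
    rw [h5]; linarith
  have h6 := F.right_exp hκ K hsm hR j 0 (by omega) n' hn' hnj
  rw [pow_zero, F.op_one, Module.End.one_apply, zero_add, ← hG] at h6
  have hth := F.th_nonneg (s := s) (h := h) G
  have hmui : 0 ≤ mu ^ i := pow_nonneg K.hmu0 _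
  have hmuj : 0 ≤ mu ^ j := pow_nonneg K.hmu0 _
  have hmui1 : mu ^ i ≤ 1 := pow_le_one₀ K.hmu0 K.hmu1
  have hmuj1 : mu ^ j ≤ 1 := pow_le_one₀ K.hmu0 K.hmu1
  have h7 : ‖F.op (w s ^ (2 * N)) (((F.Wd s sY h false - 1) ^ i)
      ((F.Wd s sY h false ^ n) (F.Del s sY h G)))‖ ≤
      M ^ 2 * √lam * (mu ^ i + 2 ^ i * η) * F.th s h G := by
    calc _ ≤ _ := h1
      _ ≤ mu ^ i * (M * (√lam * F.th s h G)) +
          M * √lam * (2 ^ i * (M * (η * F.th s h G))) := by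
        gcongr
      _ = M * √lam * mu ^ i * F.th s h G + M ^ 2 * √lam * (2 ^ i * η) * F.th s h G := by ring
      _ ≤ M ^ 2 * √lam * mu ^ i * F.th s h G +
          M ^ 2 * √lam * (2 ^ i * η) * F.th s h G := by
        have : M ≤ M ^ 2 := by nlinarith
        gcongr
      _ = _ := by ring
  have p2i : (1 : ℝ) ≤ 2 ^ i := one_le_pow₀ (by norm_num)
  have p2j : (1 : ℝ) ≤ 2 ^ j := one_le_pow₀ (by norm_num)
  have p2m : (2 : ℝ) ^ i * 2 ^ j = 2 ^ m := by rw [← pow_add, hij]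
  have h8 : (mu ^ i + 2 ^ i * η) * (mu ^ j + 2 ^ j * η) ≤ 3 * 2 ^ m * (mu ^ m + η) := by
    have e1 : (mu ^ i + 2 ^ i * η) * (mu ^ j + 2 ^ j * η) =
        mu ^ m + mu ^ i * (2 ^ j * η) + mu ^ j * (2 ^ i * η) + 2 ^ m * (η * η) := by
      rw [← p2m, ← hij, pow_add]; ring
    rw [e1]
    have a1 : mu ^ i * (2 ^ j * η) ≤ 1 * (2 ^ m * η) := by
      rw [← p2m]; gcongr; nlinarith
    have a2 : mu ^ j * (2 ^ i * η) ≤ 1 * (2 ^ m * η) := by
      rw [← p2m]; gcongr; nlinarith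
    have a3 : (2 : ℝ) ^ m * (η * η) ≤ 2 ^ m * (1 * η) := by gcongr
    have a4 : mu ^ m ≤ 3 * 2 ^ m * mu ^ m := by
      have : (1 : ℝ) ≤ 2 ^ m := one_le_pow₀ (by norm_num)
      have : 0 ≤ mu ^ m := pow_nonneg K.hmu0 _
      nlinarith
    nlinarith
  calc _ ≤ _ := h7
    _ ≤ M ^ 2 * √lam * (mu ^ i + 2 ^ i * η) *
        (M * √(aa h 0 ^ 3) * √nu2 * (mu ^ j + 2 ^ j * η)) := by gcongr
    _ = M ^ 3 * (√lam * √(aa h 0 ^ 3) * √nu2) *
        ((mu ^ i + 2 ^ i * η) * (mu ^ j + 2 ^ j * η)) := by ring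
    _ ≤ M ^ 3 * (√lam * √(aa h 0 ^ 3) * √nu2) * (3 * 2 ^ m * (mu ^ m + η)) := by gcongr
    _ = _ := by ring

/-- second-order terms -/
theorem Fock.second_order (hκ : 0 ≤ κ) (K : KB s sY h L N m C lam mu nu2)
    (hsm : 64 * (κ * C) * √(((L : ℝ) + 1) / h) ≤ 1) (hR : aa h R ^ 2 ≤ aa h 0 ^ 3)
    (l l' l'' : List Bool) (hl : l.length ≤ L) (hl' : l'.length ≤ L) (hl'' : l''.length ≤ L)
    (hRl : R ≤ l''.length) :
    ‖F.op (w s ^ (2 * N)) (F.TT s sY h l (F.Del s sY h (F.TT s sY h l'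
      (F.Del s sY h (F.TT s sY h l'' (F.v0 s N))))))‖ ≤
      M0 κ C ^ 3 * (√lam * √(aa h 0 ^ 3) * √nu2) * aa h 0 := by
  have hM := M0_ge hκ K.hC
  obtain ⟨f1, f2, f3, f4, f5, f6⟩ := M0_facts hκ K.hC
  set M := M0 κ C with hMd
  set X := F.TT s sY h l' (F.Del s sY h (F.TT s sY h l'' (F.v0 s N))) with hX
  have ha0 := aa_nonneg h 0
  have ha1 := aa_le_one K.hh 0
  have h1 : ‖F.op (w s ^ (2 * N)) (F.TT s sY h l (F.Del s sY h X))‖ ≤
      M * (√lam * F.th s h X) := by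
    rw [two_mul, pow_add, F.op_mul_apply]
    exact (F.norm_op_w_le K _ _).trans (F.b6 hκ K hsm X l hl)
  have h2 : ‖X‖ ≤ M * (√(aa h 0 ^ 3) * √nu2) := by
    refine (F.b44 hκ K hsm hR (F.v0 s N) l' l'' hl' hl'' hRl).trans ?_
    have := F.norm_v0_le K
    gcongr
  have h3 : F.th s h X ≤ M * (aa h 0 * ‖X‖) := by
    unfold Fock.th
    have h4 : √(aa h 0 ^ 3) ≤ aa h 0 := by
      rw [Real.sqrt_le_left ha0]
      nlinarith [mul_nonneg ha0 ha0]
    have h5 : l1 ((w s - 1) * w s ^ (h - 1)) ≤ (M / 2) * aa h 0 := by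
      have := K.d1 0 (Nat.zero_le _)
      rw [pow_zero, mul_one] at this
      exact le_mul_of_sq_le (B := C) (by linarith) ha0 this (by linarith)
    have h6 : ‖F.op ((w s - 1) * w s ^ (h - 1)) X‖ ≤ (M / 2) * aa h 0 * ‖X‖ :=
      (F.norm_op_le _ _).trans (mul_le_mul_of_nonneg_right h5 (norm_nonneg _))
    have h7 : √(aa h 0 ^ 3) * ‖F.op (w s ^ (h - 1)) X‖ ≤ aa h 0 * ‖X‖ := by
      have := F.norm_op_w_le K (h - 1) X
      gcongr
    have h8 : 0 ≤ aa h 0 * ‖X‖ := by positivity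
    nlinarith
  calc _ ≤ M * (√lam * F.th s h X) := h1
    _ ≤ M * (√lam * (M * (aa h 0 * (M * (√(aa h 0 ^ 3) * √nu2))))) := by gcongr; exact h3.trans (by gcongr)
    _ = _ := by ring

end

end Vale.Agent.P321
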