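import Vale.Agent.P321.Diff2

namespace Vale.Agent.P321

open scoped RealInnerProductSpace
open Polynomial

/-! ### commutator algebra -/

section Alg

variable {A : Type} [Ring A]

/-- iterated commutator with `W` -/
def adn (W : A) : ℕ → A → A
  | 0, X => X
  | k + 1, X => adn W k (X * W - W * X)

theorem adn_add (W : A) (k : ℕ) : ∀ X Y : A, adn W k (X + Y) = adn W k X + adn W k Y := by
  induction k with
  | zero => intro X Y; rfl
  | succ k ih =>
    intro X Y
    simp only [adn]
    rw [← ih]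
    congr 1
    noncomm_ring

theorem adn_zero (W : A) (k : ℕ) : adn W k 0 = 0 := by
  induction k with
  | zero => rfl
  | succ k ih => simp [adn, ih]

theorem adn_sum (W : A) (k n : ℕ) (f : ℕ → A) :
    adn W k (∑ i ∈ Finset.range n, f i) = ∑ i ∈ Finset.range n, adn W k (f i) := by
  induction n with
  | zero => simp [adn_zero]
  | succ n ih => rw [Finset.sum_range_succ, Finset.sum_range_succ, adn_add, ih]

theorem adn_mul (W : A) (k : ℕ) : ∀ (X : A) (i j : ℕ),
    adn W k (W ^ i * X * W ^ j) = W ^ i * adn W k X * W ^ j := by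
  induction k with
  | zero => intro X i j; rfl
  | succ k ih =>
    intro X i j
    simp only [adn]
    rw [← ih]
    congr 1
    have h1 : W ^ j * W = W * W ^ j := (pow_mul_comm' W j)
    have h2 : W * W ^ i = W ^ i * W := (pow_mul_comm' W i).symm
    calc W ^ i * X * W ^ j * W - W * (W ^ i * X * W ^ j) =
        W ^ i * X * (W ^ j * W) - (W * W ^ i) * X * W ^ j := by noncomm_ring
      _ = W ^ i * X * (W * W ^ j) - (W ^ i * W) * X * W ^ j := by rw [h1, h2]
      _ = W ^ i * (X * W - W * X) * W ^ j := by noncomm_ring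

theorem adn_succ_outer (W : A) (k : ℕ) : ∀ X : A,
    adn W (k + 1) X = adn W k X * W - W * adn W k X := by
  induction k with
  | zero => intro X; rfl
  | succ k ih =>
    intro X
    have e1 : adn W (k + 1 + 1) X = adn W (k + 1) (X * W - W * X) := rfl
    have e2 : adn W (k + 1) X = adn W k (X * W - W * X) := rfl
    rw [e1, ih, e2]

theorem telescope_comm (W X : A) (n : ℕ) :
    X * W ^ n - W ^ n * X =
      ∑ i ∈ Finset.range n, W ^ i * (X * W - W * X) * W ^ (n - 1 - i) := by
  have h : ∀ i ∈ Finset.range n, W ^ i * (X * W - W * X) * W ^ (n - 1 - i) =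
      W ^ i * X * W ^ (n - i) - W ^ (i + 1) * X * W ^ (n - (i + 1)) := by
    intro i hi
    have hi' := Finset.mem_range.1 hi
    have e1 : W ^ (n - i) = W * W ^ (n - 1 - i) := by
      rw [← pow_succ']; congr 1; omega
    have e2 : W ^ (i + 1) = W ^ i * W := pow_succ W i
    rw [e1, e2, show n - (i + 1) = n - 1 - i by omega]
    noncomm_ring
  rw [Finset.sum_congr rfl h, Finset.sum_range_sub' (fun i => W ^ i * X * W ^ (n - i))]
  simp

theorem adn_telescope (W X : A) (k n : ℕ) :
    adn W k (X * W ^ n - W ^ n * X) =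
      ∑ i ∈ Finset.range n, W ^ i * adn W (k + 1) X * W ^ (n - 1 - i) := by
  rw [telescope_comm, adn_sum]
  refine Finset.sum_congr rfl fun i _ => ?_
  rw [adn_mul]
  rfl

/-- first-order part of the difference -/
def alpha (W D : A) : ℕ → A
  | 0 => D
  | j + 1 => alpha W D j * W ^ (2 ^ j) - W ^ (2 ^ j) * alpha W D j

end Alg

section

variable {κ : ℝ} {V : Type} [NormedAddCommGroup V] [InnerProductSpace ℝ V] (F : Fock κ V)
  {s sY : ℝ} {h R L N m : ℕ} {C lam mu nu2 : ℝ}

/-- the size of an operator `X` put in the middle of the comb -/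
noncomputable def Fock.nrm (s sY : ℝ) (h R N : ℕ) (X : Module.End ℝ V) : ℝ :=
  ‖F.op (w s ^ (2 * N)) ((F.Wd s sY h false ^ R) (X ((F.Wd s sY h false ^ R) (F.v0 s N))))‖

theorem Fock.nrm_add (X Y : Module.End ℝ V) :
    F.nrm s sY h R N (X + Y) ≤ F.nrm s sY h R N X + F.nrm s sY h R N Y := by
  unfold Fock.nrm
  rw [LinearMap.add_apply, map_add, map_add]
  exact norm_add_le _ _

theorem Fock.nrm_neg (X : Module.End ℝ V) :
    F.nrm s sY h R N (-X) = F.nrm s sY h R N X := by
  unfold Fock.nrm
  rw [LinearMap.neg_apply, map_neg, map_neg, norm_neg]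

theorem Fock.nrm_sub (X Y : Module.End ℝ V) :
    F.nrm s sY h R N (X - Y) ≤ F.nrm s sY h R N X + F.nrm s sY h R N Y := by
  rw [sub_eq_add_neg]
  refine (F.nrm_add _ _).trans ?_
  rw [F.nrm_neg]

theorem Fock.nrm_zero : F.nrm s sY h R N 0 = 0 := by
  unfold Fock.nrm
  simp

theorem Fock.nrm_sum (n : ℕ) (f : ℕ → Module.End ℝ V) :
    F.nrm s sY h R N (∑ i ∈ Finset.range n, f i) ≤
      ∑ i ∈ Finset.range n, F.nrm s sY h R N (f i) := by
  induction n with
  | zero => simp [F.nrm_zero]
  | succ n ih =>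
    rw [Finset.sum_range_succ, Finset.sum_range_succ]
    exact (F.nrm_add _ _).trans (by linarith)

theorem Fock.nrm_word {hκ : 0 ≤ κ} (K : KB s sY h L N m C lam mu nu2)
    (hsm : 64 * (κ * C) * √(((L : ℝ) + 1) / h) ≤ 1) (hR : aa h R ^ 2 ≤ aa h 0 ^ 3)
    (hL : 2 * R + 2 ^ m ≤ L) {i j a b : ℕ} (hij : i + j = m) (hab : a + b + m + 1 ≤ 2 ^ m) :
    F.nrm s sY h R N (F.Wd s sY h false ^ a * (F.Wd s sY h false - 1) ^ i * F.Del s sY h *
      (F.Wd s sY h false - 1) ^ j * F.Wd s sY h false ^ b) ≤
      M0 κ C ^ 3 * (3 * 2 ^ m) * (√lam * √(aa h 0 ^ 3) * √nu2) * (mu ^ m + √(aa h R)) := by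
  have h1 := F.first_order hκ K hsm hR (n := R + a) (n' := b + R) hij (by omega) (by omega)
    (by omega) (by omega)
  refine le_trans (le_of_eq ?_) h1
  unfold Fock.nrm
  set W := F.Wd s sY h false with hW
  have c1 : Commute (W ^ (R + a)) ((W - 1) ^ i) :=
    ((Commute.refl W).sub_right (Commute.one_right W)).pow_pow _ _
  have c2 : Commute (W ^ (b + R)) ((W - 1) ^ j) :=
    ((Commute.refl W).sub_right (Commute.one_right W)).pow_pow _ _
  have e1 : W ^ R * (W ^ a * (W - 1) ^ i * F.Del s sY h * (W - 1) ^ j * W ^ b) * W ^ R =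
      (W - 1) ^ i * W ^ (R + a) * F.Del s sY h * (W ^ (b + R) * (W - 1) ^ j) := by
    rw [c2.eq, ← c1.eq, pow_add, pow_add]
    noncomm_ring
  have e2 : (W ^ R) ((W ^ a * (W - 1) ^ i * F.Del s sY h * (W - 1) ^ j * W ^ b)
      ((W ^ R) (F.v0 s N))) = (W ^ R * (W ^ a * (W - 1) ^ i * F.Del s sY h * (W - 1) ^ j *
        W ^ b) * W ^ R) (F.v0 s N) := by
    simp only [Module.End.mul_apply]
  rw [e2, e1]
  simp only [Module.End.mul_apply]

/-- the commutator part -/
theorem Fock.nrm_adn {B : ℝ}
    (hB : ∀ i j a b : ℕ, i + j = m → a + b + m + 1 ≤ 2 ^ m →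
      F.nrm s sY h R N (F.Wd s sY h false ^ a * (F.Wd s sY h false - 1) ^ i * F.Del s sY h *
        (F.Wd s sY h false - 1) ^ j * F.Wd s sY h false ^ b) ≤ B) (k : ℕ) :
    ∀ i j a b : ℕ, i + j + k = m → a + b + m + 1 ≤ 2 ^ m →
      F.nrm s sY h R N (F.Wd s sY h false ^ a * (F.Wd s sY h false - 1) ^ i *
        adn (F.Wd s sY h false) k (F.Del s sY h) *
        (F.Wd s sY h false - 1) ^ j * F.Wd s sY h false ^ b) ≤ 2 ^ k * B := by
  induction k with
  | zero =>
    intro i j a b hij hab
    simpa [adn] using hB i j a b (by omega) hab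
  | succ k ih =>
    intro i j a b hij hab
    have e : F.Wd s sY h false ^ a * (F.Wd s sY h false - 1) ^ i *
        adn (F.Wd s sY h false) (k + 1) (F.Del s sY h) *
        (F.Wd s sY h false - 1) ^ j * F.Wd s sY h false ^ b =
        F.Wd s sY h false ^ a * (F.Wd s sY h false - 1) ^ i *
        adn (F.Wd s sY h false) k (F.Del s sY h) *
        (F.Wd s sY h false - 1) ^ (j + 1) * F.Wd s sY h false ^ b -
        F.Wd s sY h false ^ a * (F.Wd s sY h false - 1) ^ (i + 1) *
        adn (F.Wd s sY h false) k (F.Del s sY h) *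
        (F.Wd s sY h false - 1) ^ j * F.Wd s sY h false ^ b := by
      rw [adn_succ_outer, pow_succ' (F.Wd s sY h false - 1) j,
        pow_succ (F.Wd s sY h false - 1) i]
      noncomm_ring
    rw [e]
    refine (F.nrm_sub _ _).trans ?_
    have h1 := ih i (j + 1) a b (by omega) hab
    have h2 := ih (i + 1) j a b (by omega) hab
    rw [pow_succ (2 : ℝ)]
    linarith

theorem Fock.nrm_alpha {B : ℝ} (hB0 : 0 ≤ B)
    (hB : ∀ i j a b : ℕ, i + j = m → a + b + m + 1 ≤ 2 ^ m →
      F.nrm s sY h R N (F.Wd s sY h false ^ a * (F.Wd s sY h false - 1) ^ i * F.Del s sY h *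
        (F.Wd s sY h false - 1) ^ j * F.Wd s sY h false ^ b) ≤ B) (j : ℕ) :
    j ≤ m → ∀ a b : ℕ, a + b + 2 ^ j + (m - j) ≤ 2 ^ m →
      F.nrm s sY h R N (F.Wd s sY h false ^ a *
        adn (F.Wd s sY h false) (m - j) (alpha (F.Wd s sY h false) (F.Del s sY h) j) *
        F.Wd s sY h false ^ b) ≤ 2 ^ (j ^ 2) * (2 ^ m * B) := by
  induction j with
  | zero =>
    intro _ a b hab
    have := F.nrm_adn hB m 0 0 a b (by omega) (by omega)
    simpa [alpha] using this
  | succ j ih =>
    intro hj a b hab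
    have e0 : m - j = (m - (j + 1)) + 1 := by omega
    have e1 : F.Wd s sY h false ^ a *
        adn (F.Wd s sY h false) (m - (j + 1))
          (alpha (F.Wd s sY h false) (F.Del s sY h) (j + 1)) *
        F.Wd s sY h false ^ b = ∑ i ∈ Finset.range (2 ^ j),
          F.Wd s sY h false ^ (a + i) *
            adn (F.Wd s sY h false) (m - j) (alpha (F.Wd s sY h false) (F.Del s sY h) j) *
            F.Wd s sY h false ^ (2 ^ j - 1 - i + b) := by
      have e2 : alpha (F.Wd s sY h false) (F.Del s sY h) (j + 1) =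
        alpha (F.Wd s sY h false) (F.Del s sY h) j * F.Wd s sY h false ^ (2 ^ j) -
          F.Wd s sY h false ^ (2 ^ j) * alpha (F.Wd s sY h false) (F.Del s sY h) j := rfl
      rw [e2, adn_telescope, ← e0, Finset.mul_sum, Finset.sum_mul]
      refine Finset.sum_congr rfl fun i _ => ?_
      rw [pow_add, pow_add]
      noncomm_ring
    rw [e1]
    refine (F.nrm_sum _ _).trans ?_
    have h2 : ∀ i ∈ Finset.range (2 ^ j), F.nrm s sY h R N (F.Wd s sY h false ^ (a + i) *
            adn (F.Wd s sY h false) (m - j) (alpha (F.Wd s sY h false) (F.Del s sY h) j) *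
            F.Wd s sY h false ^ (2 ^ j - 1 - i + b)) ≤ 2 ^ (j ^ 2) * (2 ^ m * B) := by
      intro i hi
      have hi' := Finset.mem_range.1 hi
      have hp : 2 ^ (j + 1) = 2 ^ j + 2 ^ j := by rw [pow_succ]; ring
      exact ih (by omega) (a + i) (2 ^ j - 1 - i + b) (by omega)
    refine (Finset.sum_le_sum h2).trans ?_
    rw [Finset.sum_const, Finset.card_range, nsmul_eq_mul]
    push_cast
    rw [← mul_assoc, ← pow_add]
    have h3 : (2 : ℝ) ^ (j + j ^ 2) ≤ 2 ^ ((j + 1) ^ 2) := by
      apply pow_le_pow_right₀ (by norm_num)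
      nlinarith
    have : 0 ≤ 2 ^ m * B := by positivity
    nlinarith

/-! ### words with one or two shifted defects -/

/-- signed sums of at most `n` words of length at most `A` with one factor `Del` -/
inductive S1 (F : Fock κ V) (s sY : ℝ) (h : ℕ) : ℕ → ℕ → Module.End ℝ V → Prop
  | word (l l' : List Bool) (A : ℕ) (hA : l.length + l'.length + 1 ≤ A) :
      S1 F s sY h 1 A (F.TT s sY h l * F.Del s sY h * F.TT s sY h l')
  | zero (n A : ℕ) : S1 F s sY h n A 0
  | add {n n' A : ℕ} {X Y : Module.End ℝ V} (hX : S1 F s sY h n A X)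
      (hY : S1 F s sY h n' A Y) : S1 F s sY h (n + n') A (X + Y)
  | neg {n A : ℕ} {X : Module.End ℝ V} (hX : S1 F s sY h n A X) : S1 F s sY h n A (-X)

/-- the same with two factors `Del` -/
inductive S2 (F : Fock κ V) (s sY : ℝ) (h : ℕ) : ℕ → ℕ → Module.End ℝ V → Prop
  | word (l l' l'' : List Bool) (A : ℕ) (hA : l.length + l'.length + l''.length + 2 ≤ A) :
      S2 F s sY h 1 A (F.TT s sY h l * F.Del s sY h * F.TT s sY h l' * F.Del s sY h *
        F.TT s sY h l'')
  | zero (n A : ℕ) : S2 F s sY h n A 0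
  | add {n n' A : ℕ} {X Y : Module.End ℝ V} (hX : S2 F s sY h n A X)
      (hY : S2 F s sY h n' A Y) : S2 F s sY h (n + n') A (X + Y)
  | neg {n A : ℕ} {X : Module.End ℝ V} (hX : S2 F s sY h n A X) : S2 F s sY h n A (-X)

variable {F}

theorem S1.sub {n n' A : ℕ} {X Y : Module.End ℝ V} (hX : S1 F s sY h n A X)
    (hY : S1 F s sY h n' A Y) : S1 F s sY h (n + n') A (X - Y) := by
  rw [sub_eq_add_neg]; exact hX.add hY.neg

theorem S2.sub {n n' A : ℕ} {X Y : Module.End ℝ V} (hX : S2 F s sY h n A X)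
    (hY : S2 F s sY h n' A Y) : S2 F s sY h (n + n') A (X - Y) := by
  rw [sub_eq_add_neg]; exact hX.add hY.neg

theorem S1.left {n A : ℕ} {X : Module.End ℝ V} (hX : S1 F s sY h n A X) (l : List Bool) :
    S1 F s sY h n (A + l.length) (F.TT s sY h l * X) := by
  induction hX with
  | word l1 l2 A hA =>
    have e : F.TT s sY h l * (F.TT s sY h l1 * F.Del s sY h * F.TT s sY h l2) =
        F.TT s sY h (l ++ l1) * F.Del s sY h * F.TT s sY h l2 := by
      rw [F.TT_append]; noncomm_ring
    rw [e]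
    exact S1.word _ _ _ (by rw [List.length_append]; omega)
  | zero n A => rw [mul_zero]; exact S1.zero _ _
  | add _ _ ih1 ih2 => rw [mul_add]; exact ih1.add ih2
  | neg _ ih => rw [mul_neg]; exact ih.neg

theorem S1.right {n A : ℕ} {X : Module.End ℝ V} (hX : S1 F s sY h n A X) (l : List Bool) :
    S1 F s sY h n (A + l.length) (X * F.TT s sY h l) := by
  induction hX with
  | word l1 l2 A hA =>
    have e : (F.TT s sY h l1 * F.Del s sY h * F.TT s sY h l2) * F.TT s sY h l =
        F.TT s sY h l1 * F.Del s sY h * F.TT s sY h (l2 ++ l) := by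
      rw [F.TT_append]; noncomm_ring
    rw [e]
    exact S1.word _ _ _ (by rw [List.length_append]; omega)
  | zero n A => rw [zero_mul]; exact S1.zero _ _
  | add _ _ ih1 ih2 => rw [add_mul]; exact ih1.add ih2
  | neg _ ih => rw [neg_mul]; exact ih.neg

theorem S2.left {n A : ℕ} {X : Module.End ℝ V} (hX : S2 F s sY h n A X) (l : List Bool) :
    S2 F s sY h n (A + l.length) (F.TT s sY h l * X) := by
  induction hX with
  | word l1 l2 l3 A hA =>
    have e : F.TT s sY h l * (F.TT s sY h l1 * F.Del s sY h * F.TT s sY h l2 *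
        F.Del s sY h * F.TT s sY h l3) =
        F.TT s sY h (l ++ l1) * F.Del s sY h * F.TT s sY h l2 * F.Del s sY h *
          F.TT s sY h l3 := by
      rw [F.TT_append]; noncomm_ring
    rw [e]
    exact S2.word _ _ _ _ (by rw [List.length_append]; omega)
  | zero n A => rw [mul_zero]; exact S2.zero _ _
  | add _ _ ih1 ih2 => rw [mul_add]; exact ih1.add ih2
  | neg _ ih => rw [mul_neg]; exact ih.neg

theorem S2.right {n A : ℕ} {X : Module.End ℝ V} (hX : S2 F s sY h n A X) (l : List Bool) :
    S2 F s sY h n (A + l.length) (X * F.TT s sY h l) := by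
  induction hX with
  | word l1 l2 l3 A hA =>
    have e : (F.TT s sY h l1 * F.Del s sY h * F.TT s sY h l2 *
        F.Del s sY h * F.TT s sY h l3) * F.TT s sY h l =
        F.TT s sY h l1 * F.Del s sY h * F.TT s sY h l2 * F.Del s sY h *
          F.TT s sY h (l3 ++ l) := by
      rw [F.TT_append]; noncomm_ring
    rw [e]
    exact S2.word _ _ _ _ (by rw [List.length_append]; omega)
  | zero n A => rw [zero_mul]; exact S2.zero _ _
  | add _ _ ih1 ih2 => rw [add_mul]; exact ih1.add ih2
  | neg _ ih => rw [neg_mul]; exact ih.neg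

theorem S1.word_mul {n A : ℕ} {Y : Module.End ℝ V} (hY : S1 F s sY h n A Y)
    (l l' : List Bool) (A' : ℕ) (hA' : l.length + l'.length + 1 ≤ A') :
    S2 F s sY h n (A + A') (F.TT s sY h l * F.Del s sY h * F.TT s sY h l' * Y) := by
  induction hY with
  | word l1 l2 A hA =>
    have e : F.TT s sY h l * F.Del s sY h * F.TT s sY h l' *
        (F.TT s sY h l1 * F.Del s sY h * F.TT s sY h l2) =
        F.TT s sY h l * F.Del s sY h * F.TT s sY h (l' ++ l1) * F.Del s sY h *
          F.TT s sY h l2 := by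
      rw [F.TT_append]; noncomm_ring
    rw [e]
    exact S2.word _ _ _ _ (by rw [List.length_append]; omega)
  | zero n A => rw [mul_zero]; exact S2.zero _ _
  | add _ _ ih1 ih2 => rw [mul_add]; exact ih1.add ih2
  | neg _ ih => rw [mul_neg]; exact ih.neg

theorem S1.mul {n n' A A' : ℕ} {X Y : Module.End ℝ V} (hX : S1 F s sY h n A X)
    (hY : S1 F s sY h n' A' Y) : S2 F s sY h (n * n') (A' + A) (X * Y) := by
  induction hX with
  | word l1 l2 A hA =>
    rw [one_mul]
    exact hY.word_mul l1 l2 A hA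
  | zero n A => rw [zero_mul]; exact S2.zero _ _
  | add _ _ ih1 ih2 => rw [add_mul, add_mul]; exact ih1.add ih2
  | neg _ ih => rw [neg_mul]; exact ih.neg

theorem S1.TT_sub (l : List Bool) :
    S1 F s sY h l.length l.length (F.TT s sY h l - F.Wd s sY h false ^ l.length) := by
  induction l with
  | nil => simpa [F.TT_nil] using S1.zero (F := F) (s := s) (sY := sY) (h := h) 0 0
  | cons b l ih =>
    have h1 := ih.left [false]
    have e1 : F.TT s sY h [false] = F.Wd s sY h false := by simp [Fock.TT]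
    rw [e1] at h1
    cases b with
    | false =>
      have e2 : F.TT s sY h (false :: l) - F.Wd s sY h false ^ (false :: l).length =
          0 + F.Wd s sY h false * (F.TT s sY h l - F.Wd s sY h false ^ l.length) := by
        rw [F.TT_cons, List.length_cons, pow_succ']; noncomm_ring
      rw [e2, List.length_cons]
      have h3 := ((S1.zero (F := F) (s := s) (sY := sY) (h := h) 1 (l.length + 1))).add h1
      rwa [add_comm 1] at h3
    | true =>
      have e2 : F.TT s sY h (true :: l) - F.Wd s sY h false ^ (true :: l).length =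
          F.TT s sY h [] * F.Del s sY h * F.TT s sY h l +
          F.Wd s sY h false * (F.TT s sY h l - F.Wd s sY h false ^ l.length) := by
        rw [F.TT_cons, List.length_cons, pow_succ', F.TT_nil]
        unfold Fock.Del
        noncomm_ring
      rw [e2, List.length_cons]
      have h2 := S1.word (F := F) (s := s) (sY := sY) (h := h) [] l (l.length + 1) (by simp)
      have h3 := h2.add h1
      rwa [add_comm 1] at h3

end

end Vale.Agent.P321
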