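import Vale.Agent.P321.Chain

namespace Vale.Agent.P321

open scoped RealInnerProductSpace
open Polynomial

/-! ### consequences of smallness -/

theorem aa_zero_sq_le {h L : ℕ} (hh : 1 ≤ h) {r : ℕ} (hr : r ≤ L) :
    aa h 0 ^ 2 ≤ √(((L : ℝ) + 1) / h) * aa h r := by
  have h0 : (0 : ℝ) < h := by exact_mod_cast hh
  have h1 : aa h L ≤ aa h r := aa_anti hh hr
  have h2 : √(((L : ℝ) + 1) / h) * aa h L = aa h 0 ^ 2 := by
    rw [aa_zero_sq]
    unfold aa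
    rw [mul_one_div, ← Real.sqrt_div (by positivity)]
    have : ((L : ℝ) + 1) / h / (((L : ℝ) + 1) * h) = (1 / (h : ℝ)) ^ 2 := by
      field_simp
    rw [this, Real.sqrt_sq (by positivity)]
  rw [← h2]
  exact mul_le_mul_of_nonneg_left h1 (Real.sqrt_nonneg _)

theorem sum_aa_le' {h L : ℕ} {r : ℕ} (hr : r ≤ L) :
    ∑ i ∈ Finset.range r, aa h i ≤ 2 * √(((L : ℝ) + 1) / h) := by
  refine (sum_aa_le h r).trans ?_
  rw [mul_assoc]
  refine mul_le_mul_of_nonneg_left ?_ zero_le_two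
  unfold aa
  rw [mul_one_div, ← Real.sqrt_div (by positivity)]
  apply Real.sqrt_le_sqrt
  have hr' : (r : ℝ) ≤ L := by exact_mod_cast hr
  have : (r : ℝ) ≤ (L : ℝ) + 1 := by linarith
  simp only [Nat.cast_zero, zero_add, one_mul]
  gcongr

theorem conv_aa' {h L : ℕ} (hh : 1 ≤ h) {r : ℕ} (hr : r ≤ L) :
    ∑ i ∈ Finset.range r, aa h i * aa h (r - 1 - i) ≤
      4 * (√(((L : ℝ) + 1) / h) * aa h r) :=
  (conv_aa hh r).trans (mul_le_mul_of_nonneg_left (aa_zero_sq_le hh hr) (by norm_num))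

theorem conv_cube_aa {h : ℕ} (hh : 1 ≤ h) (r : ℕ) :
    ∑ i ∈ Finset.range r, aa h i ^ 3 * aa h (r - 1 - i) ≤ 6 * aa h 0 ^ 3 * aa h r := by
  rw [← Finset.sum_range_reflect]
  refine le_trans (le_of_eq ?_) (conv_aa_cube hh r)
  refine Finset.sum_congr rfl fun i hi => ?_
  have := Finset.mem_range.1 hi
  rw [show r - 1 - (r - 1 - i) = i by omega, mul_comm]

theorem l1_W0_pow_le {s sY : ℝ} (hs0 : 0 ≤ s) (hs1 : s ≤ 1) (hY0 : 0 ≤ sY) (hY1 : sY ≤ 1)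
    (h n : ℕ) : l1 (W0 s sY h ^ n) ≤ 1 := by
  refine (l1_pow_le _ _).trans ?_
  apply pow_le_one₀ (l1_nonneg _)
  unfold W0
  refine (l1_mul_le _ _).trans ?_
  rw [l1_w_pow hs0 hs1, one_mul]
  have := l1_w_pow hY0 hY1 1
  rw [pow_one] at this
  rw [this]

section

variable {κ : ℝ} {V : Type} [NormedAddCommGroup V] [InnerProductSpace ℝ V] (F : Fock κ V)
  {s sY : ℝ} {h L N m : ℕ} {C lam mu nu2 : ℝ}

theorem KBound.diag {Q : ℝ[X]} {β : ℕ → ℝ} (hQ : KBound s sY h L Q β) {r : ℕ} (hr : r ≤ L)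
    {e : ℕ} (he : e ≤ 1) :
    ip (Q * W0 s sY h ^ r * w s ^ (h + e)) (Q * W0 s sY h ^ r * w s ^ (h + e)) ≤ β r := by
  refine le_trans ?_ (hQ (fun _ => e) (fun _ => he) r hr)
  refine (le_abs_self _).trans ?_
  exact Finset.single_le_sum (f := fun j =>
    |ip (Q * W0 s sY h ^ r * w s ^ (h + e)) (Q * W0 s sY h ^ j * w s ^ (h + e))|)
    (fun _ _ => abs_nonneg _) (Finset.mem_range.2 (by omega))

theorem Fock.Del_apply (hh : 1 ≤ h) (v : V) :
    F.Del s sY h v =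
      F.op ((w s - 1) * w s ^ h) (F.ζ (F.op (w s ^ (h - 1)) v)) -
        F.op (w s ^ h) (F.ζ (F.op ((w s - 1) * w s ^ (h - 1)) v)) := by
  obtain ⟨n, rfl⟩ := Nat.exists_eq_add_of_le' hh
  unfold Fock.Del
  rw [F.Wd_eq s sY _ hh, F.Wd_eq s sY _ hh]
  simp only [eb, LinearMap.sub_apply, LinearMap.add_apply, Module.End.mul_apply]
  rw [F.op_mul_apply, F.op_mul_apply, F.op_sub, F.op_one]
  simp only [if_true, Bool.false_eq_true, if_false, add_zero, Nat.add_sub_cancel, Nat.sub_zero,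
    LinearMap.sub_apply, map_sub, Module.End.one_apply]
  have e1 : F.op (w s ^ (n + 1 + 1)) = F.op (w s) * F.op (w s ^ (n + 1)) := by
    rw [← F.op_mul, ← pow_succ']
  have e2 : F.op (w s ^ (n + 1)) = F.op (w s) * F.op (w s ^ n) := by
    rw [← F.op_mul, ← pow_succ']
  rw [e1, Module.End.mul_apply]
  have e3 : F.op (w s ^ (n + 1)) v = F.op (w s) (F.op (w s ^ n) v) := by
    rw [e2, Module.End.mul_apply]
  rw [e3]
  abel

theorem Fock.direct_bound (hκ : 0 ≤ κ) (hh : 1 ≤ h) (Q : ℝ[X]) (r : ℕ) (b1 b2 : ℝ)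
    (h1 : ip ((w s - 1) * Q * W0 s sY h ^ r * w s ^ h)
      ((w s - 1) * Q * W0 s sY h ^ r * w s ^ h) ≤ b1)
    (h2 : ip (Q * W0 s sY h ^ r * w s ^ h) (Q * W0 s sY h ^ r * w s ^ h) ≤ b2) (v : V) :
    ‖F.op (Q * W0 s sY h ^ r) (F.Del s sY h v)‖ ^ 2 ≤
      2 * (κ * b1 * ‖F.op (w s ^ (h - 1)) v‖ ^ 2) +
        2 * (κ * b2 * ‖F.op ((w s - 1) * w s ^ (h - 1)) v‖ ^ 2) := by
  rw [F.Del_apply hh, map_sub, ← F.op_mul_apply, ← F.op_mul_apply]
  refine (norm_sub_sq_le_two _ _).trans ?_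
  rw [F.norm_op_ζ_sq, F.norm_op_ζ_sq]
  have e1 : Q * W0 s sY h ^ r * ((w s - 1) * w s ^ h) =
      (w s - 1) * Q * W0 s sY h ^ r * w s ^ h := by ring
  rw [e1]
  gcongr

/-- E1 -/
theorem Fock.E1 (hκ : 0 ≤ κ) (K : KB s sY h L N m C lam mu nu2)
    (hsm : 64 * (κ * C) * √(((L : ℝ) + 1) / h) ≤ 1) (n : ℕ) :
    ∀ l : List Bool, l.length = n → n ≤ L → ∀ v : V,
      ‖F.TT s sY h l v‖ ^ 2 ≤ 4 * ‖v‖ ^ 2 := by
  induction n using Nat.strong_induction_on with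
  | _ n ih =>
    intro l hl hn v
    have h1 := F.rec_bound s sY h hκ K.hs0 K.hs1 K.hh K.k0 l (hl ▸ hn) v
    rw [F.op_one, Module.End.one_apply, hl, one_mul] at h1
    have h2 : ‖F.op (W0 s sY h ^ n) v‖ ≤ ‖v‖ := by
      refine (F.norm_op_le _ _).trans ?_
      exact mul_le_of_le_one_left (norm_nonneg _) (l1_W0_pow_le K.hs0 K.hs1 K.hY0 K.hY1 h n)
    have h3 : ∑ i ∈ Finset.range n, C * aa h i * ‖F.TT s sY h (l.drop (i + 1)) v‖ ^ 2 ≤
        ∑ i ∈ Finset.range n, C * aa h i * (4 * ‖v‖ ^ 2) := by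
      refine Finset.sum_le_sum fun i hi => ?_
      have hi' := Finset.mem_range.1 hi
      refine mul_le_mul_of_nonneg_left ?_ (mul_nonneg (by linarith [K.hC]) (aa_nonneg _ _))
      exact ih (n - 1 - i) (by omega) (l.drop (i + 1)) (by rw [List.length_drop]; omega)
        (by omega) v
    rw [← Finset.sum_mul, ← Finset.mul_sum] at h3
    have h4 := sum_aa_le' (h := h) hn
    have hc : 0 ≤ κ * C := mul_nonneg hκ (by linarith [K.hC])
    have h5 : κ * (C * ∑ i ∈ Finset.range n, aa h i) ≤ 1 / 32 := by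
      rw [← mul_assoc]
      calc κ * C * ∑ i ∈ Finset.range n, aa h i ≤ κ * C * (2 * √(((L : ℝ) + 1) / h)) :=
            mul_le_mul_of_nonneg_left h4 hc
        _ ≤ 1 / 32 := by linarith
    have h6 : κ * ∑ i ∈ Finset.range n, C * aa h i * ‖F.TT s sY h (l.drop (i + 1)) v‖ ^ 2 ≤
        1 / 32 * (4 * ‖v‖ ^ 2) := by
      refine (mul_le_mul_of_nonneg_left h3 hκ).trans ?_
      rw [← mul_assoc]
      exact mul_le_mul_of_nonneg_right h5 (by positivity)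
    have h7 : ‖F.op (W0 s sY h ^ n) v‖ ^ 2 ≤ ‖v‖ ^ 2 := by gcongr
    nlinarith [sq_nonneg ‖v‖]

/-- E2 -/
theorem Fock.E2 (hκ : 0 ≤ κ) (K : KB s sY h L N m C lam mu nu2)
    (hsm : 64 * (κ * C) * √(((L : ℝ) + 1) / h) ≤ 1) (l : List Bool) (hl : l.length ≤ L)
    (v : V) :
    ‖F.op ((w s - 1) * w s ^ (h - 1)) (F.TT s sY h l v)‖ ^ 2 ≤
      (2 * C * aa h l.length ^ 2 + 24 * (κ * C) * aa h 0 ^ 3) * ‖v‖ ^ 2 := by
  have h1 := F.rec_bound s sY h hκ K.hs0 K.hs1 K.hh K.k1' l hl v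
  have h2 : ‖F.op ((w s - 1) * w s ^ (h - 1) * W0 s sY h ^ l.length) v‖ ^ 2 ≤
      C * aa h l.length ^ 2 * ‖v‖ ^ 2 := by
    calc ‖F.op ((w s - 1) * w s ^ (h - 1) * W0 s sY h ^ l.length) v‖ ^ 2 ≤
        (l1 ((w s - 1) * w s ^ (h - 1) * W0 s sY h ^ l.length) * ‖v‖) ^ 2 := by
          gcongr; exact F.norm_op_le _ _
      _ = l1 ((w s - 1) * w s ^ (h - 1) * W0 s sY h ^ l.length) ^ 2 * ‖v‖ ^ 2 := by ring
      _ ≤ _ := by gcongr; exact K.d1 _ hl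
  have h3 : ∑ i ∈ Finset.range l.length,
      C * aa h i ^ 3 * ‖F.TT s sY h (l.drop (i + 1)) v‖ ^ 2 ≤
        ∑ i ∈ Finset.range l.length, C * aa h i ^ 3 * (4 * ‖v‖ ^ 2) := by
    refine Finset.sum_le_sum fun i hi => ?_
    have hi' := Finset.mem_range.1 hi
    refine mul_le_mul_of_nonneg_left ?_
      (mul_nonneg (by linarith [K.hC]) (pow_nonneg (aa_nonneg _ _) _))
    exact F.E1 hκ K hsm (l.length - 1 - i) (l.drop (i + 1)) (by rw [List.length_drop]; omega)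
      (by omega) v
  rw [← Finset.sum_mul, ← Finset.mul_sum] at h3
  have hC0 : 0 ≤ C := by linarith [K.hC]
  have h4 : C * ∑ i ∈ Finset.range l.length, aa h i ^ 3 ≤ C * (3 * aa h 0 ^ 3) :=
    mul_le_mul_of_nonneg_left (sum_aa_cube_le h _) hC0
  have h5 : κ * ∑ i ∈ Finset.range l.length,
      C * aa h i ^ 3 * ‖F.TT s sY h (l.drop (i + 1)) v‖ ^ 2 ≤
        κ * (C * (3 * aa h 0 ^ 3) * (4 * ‖v‖ ^ 2)) := by
    refine mul_le_mul_of_nonneg_left (h3.trans ?_) hκ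
    exact mul_le_mul_of_nonneg_right h4 (by positivity)
  calc _ ≤ _ := h1
    _ ≤ 2 * (C * aa h l.length ^ 2 * ‖v‖ ^ 2) +
        2 * (κ * (C * (3 * aa h 0 ^ 3) * (4 * ‖v‖ ^ 2))) := by linarith
    _ = _ := by ring

/-- E4 -/
theorem Fock.E4 (hκ : 0 ≤ κ) (K : KB s sY h L N m C lam mu nu2)
    (hsm : 64 * (κ * C) * √(((L : ℝ) + 1) / h) ≤ 1) (G : V) (n : ℕ) :
    ∀ l : List Bool, l.length = n → n ≤ L →
      ‖F.TT s sY h l (F.Del s sY h G)‖ ^ 2 ≤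
        (4 * (κ * C) * aa h n ^ 3 + 96 * (κ * C) ^ 2 * aa h 0 ^ 3 * aa h n) *
            ‖F.op (w s ^ (h - 1)) G‖ ^ 2 +
          8 * (κ * C) * aa h n * ‖F.op ((w s - 1) * w s ^ (h - 1)) G‖ ^ 2 := by
  induction n using Nat.strong_induction_on with
  | _ n ih =>
    intro l hl hn
    have h1 := F.rec_bound s sY h hκ K.hs0 K.hs1 K.hh K.k0 l (hl ▸ hn) (F.Del s sY h G)
    rw [F.op_one, Module.End.one_apply, hl] at h1
    have hd1 := KBound.diag K.k1 hn (e := 0) (by omega)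
    have hd0 := KBound.diag K.k0 hn (e := 0) (by omega)
    rw [add_zero] at hd1 hd0
    have h2 := F.direct_bound (s := s) (sY := sY) hκ K.hh 1 n (C * aa h n ^ 3) (C * aa h n)
      (by rw [mul_one]; exact hd1) hd0 G
    set c := κ * C with hc
    have hC0 : 0 ≤ C := by linarith [K.hC]
    have hc0 : 0 ≤ c := mul_nonneg hκ hC0
    set x2 := ‖F.op (w s ^ (h - 1)) G‖ ^ 2 with hx2
    set y2 := ‖F.op ((w s - 1) * w s ^ (h - 1)) G‖ ^ 2 with hy2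
    have hx0 : 0 ≤ x2 := sq_nonneg _
    have hy0 : 0 ≤ y2 := sq_nonneg _
    set e1 := √(((L : ℝ) + 1) / h) with he1
    have he0 : 0 ≤ e1 := Real.sqrt_nonneg _
    have ha0 : 0 ≤ aa h 0 := aa_nonneg _ _
    have han : 0 ≤ aa h n := aa_nonneg _ _
    have h3 : ∑ i ∈ Finset.range n,
        C * aa h i * ‖F.TT s sY h (l.drop (i + 1)) (F.Del s sY h G)‖ ^ 2 ≤
        ∑ i ∈ Finset.range n, C * (4 * c * x2 * (aa h i * aa h (n - 1 - i) ^ 3) +
          (96 * c ^ 2 * aa h 0 ^ 3 * x2 + 8 * c * y2) * (aa h i * aa h (n - 1 - i))) := by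
      refine Finset.sum_le_sum fun i hi => ?_
      have hi' := Finset.mem_range.1 hi
      have := ih (n - 1 - i) (by omega) (l.drop (i + 1)) (by rw [List.length_drop]; omega)
        (by omega)
      rw [mul_assoc]
      refine mul_le_mul_of_nonneg_left ?_ hC0
      calc aa h i * ‖F.TT s sY h (l.drop (i + 1)) (F.Del s sY h G)‖ ^ 2 ≤ aa h i * _ :=
            mul_le_mul_of_nonneg_left this (aa_nonneg _ _)
        _ = _ := by ring
    rw [← Finset.mul_sum, Finset.sum_add_distrib, ← Finset.mul_sum, ← Finset.mul_sum] at h3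
    have h4 := conv_aa_cube K.hh n
    have h5 := conv_aa' K.hh hn
    rw [← he1] at h5
    have h6 : 4 * c * x2 * ∑ i ∈ Finset.range n, aa h i * aa h (n - 1 - i) ^ 3 +
        (96 * c ^ 2 * aa h 0 ^ 3 * x2 + 8 * c * y2) *
          ∑ i ∈ Finset.range n, aa h i * aa h (n - 1 - i) ≤
        4 * c * x2 * (6 * aa h 0 ^ 3 * aa h n) +
        (96 * c ^ 2 * aa h 0 ^ 3 * x2 + 8 * c * y2) * (4 * (e1 * aa h n)) := by
      gcongr
    have h7 : κ * ∑ i ∈ Finset.range n,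
        C * aa h i * ‖F.TT s sY h (l.drop (i + 1)) (F.Del s sY h G)‖ ^ 2 ≤
        c * (4 * c * x2 * (6 * aa h 0 ^ 3 * aa h n) +
        (96 * c ^ 2 * aa h 0 ^ 3 * x2 + 8 * c * y2) * (4 * (e1 * aa h n))) := by
      refine (mul_le_mul_of_nonneg_left (h3.trans (mul_le_mul_of_nonneg_left h6 hC0)) hκ).trans
        (le_of_eq ?_)
      rw [hc]; ring
    have h8 : c * (4 * c * x2 * (6 * aa h 0 ^ 3 * aa h n) +
        (96 * c ^ 2 * aa h 0 ^ 3 * x2 + 8 * c * y2) * (4 * (e1 * aa h n))) =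
        24 * c ^ 2 * aa h 0 ^ 3 * aa h n * x2 +
        (64 * c * e1) * (6 * c ^ 2 * aa h 0 ^ 3 * aa h n * x2 + 1 / 2 * c * aa h n * y2) := by
      ring
    have h9 : (64 * c * e1) * (6 * c ^ 2 * aa h 0 ^ 3 * aa h n * x2 + 1 / 2 * c * aa h n * y2) ≤
        6 * c ^ 2 * aa h 0 ^ 3 * aa h n * x2 + 1 / 2 * c * aa h n * y2 :=
      mul_le_of_le_one_left (by positivity) hsm
    have h10 : 2 * (κ * (C * aa h n ^ 3) * x2) + 2 * (κ * (C * aa h n) * y2) =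
        2 * c * aa h n ^ 3 * x2 + 2 * c * aa h n * y2 := by rw [hc]; ring
    rw [h10] at h2
    have p1 : 0 ≤ c ^ 2 * aa h 0 ^ 3 * aa h n * x2 := by positivity
    have p2 : 0 ≤ c * aa h n * y2 := by positivity
    calc _ ≤ _ := h1
      _ ≤ 2 * (2 * c * aa h n ^ 3 * x2 + 2 * c * aa h n * y2) +
          2 * (24 * c ^ 2 * aa h 0 ^ 3 * aa h n * x2 +
            (6 * c ^ 2 * aa h 0 ^ 3 * aa h n * x2 + 1 / 2 * c * aa h n * y2)) := by
          linarith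
      _ ≤ _ := by nlinarith

/-- E5 -/
theorem Fock.E5 (hκ : 0 ≤ κ) (K : KB s sY h L N m C lam mu nu2)
    (hsm : 64 * (κ * C) * √(((L : ℝ) + 1) / h) ≤ 1) {e : ℕ} (he : e ≤ 1) (H : V) (n : ℕ) :
    ∀ l : List Bool, l.length = n → n ≤ L →
      ‖F.TT s sY h l (F.op (w s ^ (h + e)) (F.ζ H))‖ ^ 2 ≤
        4 * (κ * C) * aa h n * ‖H‖ ^ 2 := by
  induction n using Nat.strong_induction_on with
  | _ n ih =>
    intro l hl hn
    have h1 := F.rec_bound s sY h hκ K.hs0 K.hs1 K.hh K.k0 l (hl ▸ hn)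
      (F.op (w s ^ (h + e)) (F.ζ H))
    rw [F.op_one, Module.End.one_apply, hl, ← F.op_mul_apply, F.norm_op_ζ_sq] at h1
    have hd0 := KBound.diag K.k0 hn he
    set c := κ * C with hc
    have hC0 : 0 ≤ C := by linarith [K.hC]
    have hc0 : 0 ≤ c := mul_nonneg hκ hC0
    have hx0 : 0 ≤ ‖H‖ ^ 2 := sq_nonneg _
    set e1 := √(((L : ℝ) + 1) / h) with he1
    have he0 : 0 ≤ e1 := Real.sqrt_nonneg _
    have han : 0 ≤ aa h n := aa_nonneg _ _
    have h2 : κ * ip (1 * W0 s sY h ^ n * w s ^ (h + e)) (1 * W0 s sY h ^ n * w s ^ (h + e)) *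
        ‖H‖ ^ 2 ≤ c * aa h n * ‖H‖ ^ 2 := by
      refine mul_le_mul_of_nonneg_right ?_ hx0
      refine (mul_le_mul_of_nonneg_left hd0 hκ).trans (le_of_eq ?_)
      rw [hc]; ring
    have h3 : ∑ i ∈ Finset.range n,
        C * aa h i * ‖F.TT s sY h (l.drop (i + 1)) (F.op (w s ^ (h + e)) (F.ζ H))‖ ^ 2 ≤
        ∑ i ∈ Finset.range n, C * (4 * c * ‖H‖ ^ 2) * (aa h i * aa h (n - 1 - i)) := by
      refine Finset.sum_le_sum fun i hi => ?_
      have hi' := Finset.mem_range.1 hi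
      have := ih (n - 1 - i) (by omega) (l.drop (i + 1)) (by rw [List.length_drop]; omega)
        (by omega)
      calc C * aa h i * _ ≤ C * aa h i * (4 * c * aa h (n - 1 - i) * ‖H‖ ^ 2) :=
            mul_le_mul_of_nonneg_left this (mul_nonneg hC0 (aa_nonneg _ _))
        _ = _ := by ring
    rw [← Finset.mul_sum] at h3
    have h5 := conv_aa' K.hh hn
    rw [← he1] at h5
    have h7 : κ * ∑ i ∈ Finset.range n,
        C * aa h i * ‖F.TT s sY h (l.drop (i + 1)) (F.op (w s ^ (h + e)) (F.ζ H))‖ ^ 2 ≤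
        κ * (C * (4 * c * ‖H‖ ^ 2) * (4 * (e1 * aa h n))) := by
      refine mul_le_mul_of_nonneg_left (h3.trans ?_) hκ
      gcongr
    have h8 : κ * (C * (4 * c * ‖H‖ ^ 2) * (4 * (e1 * aa h n))) =
        (64 * c * e1) * (1 / 4 * c * aa h n * ‖H‖ ^ 2) := by rw [hc]; ring
    have h9 : (64 * c * e1) * (1 / 4 * c * aa h n * ‖H‖ ^ 2) ≤ 1 / 4 * c * aa h n * ‖H‖ ^ 2 :=
      mul_le_of_le_one_left (by positivity) hsm
    have p2 : 0 ≤ c * aa h n * ‖H‖ ^ 2 := by positivity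
    calc _ ≤ _ := h1
      _ ≤ 2 * (c * aa h n * ‖H‖ ^ 2) + 2 * (1 / 4 * c * aa h n * ‖H‖ ^ 2) := by
        linarith
      _ ≤ _ := by nlinarith

/-- E5' -/
theorem Fock.E5' (hκ : 0 ≤ κ) (K : KB s sY h L N m C lam mu nu2)
    (hsm : 64 * (κ * C) * √(((L : ℝ) + 1) / h) ≤ 1) {e : ℕ} (he : e ≤ 1) (H : V)
    (l : List Bool) (hl : l.length ≤ L) :
    ‖F.op ((w s - 1) * w s ^ (h - 1))
        (F.TT s sY h l (F.op (w s ^ (h + e)) (F.ζ H)))‖ ^ 2 ≤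
      (2 * (κ * C) * aa h l.length ^ 3 +
        48 * (κ * C) ^ 2 * aa h 0 ^ 3 * aa h l.length) * ‖H‖ ^ 2 := by
  have h1 := F.rec_bound s sY h hκ K.hs0 K.hs1 K.hh K.k1' l hl
    (F.op (w s ^ (h + e)) (F.ζ H))
  rw [← F.op_mul_apply, F.norm_op_ζ_sq] at h1
  have hd0 := KBound.diag K.k1' hl he
  set n := l.length with hn
  set c := κ * C with hc
  have hC0 : 0 ≤ C := by linarith [K.hC]
  have hc0 : 0 ≤ c := mul_nonneg hκ hC0
  have hx0 : 0 ≤ ‖H‖ ^ 2 := sq_nonneg _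
  have han : 0 ≤ aa h n := aa_nonneg _ _
  have h2 : κ * ip ((w s - 1) * w s ^ (h - 1) * W0 s sY h ^ n * w s ^ (h + e))
      ((w s - 1) * w s ^ (h - 1) * W0 s sY h ^ n * w s ^ (h + e)) *
      ‖H‖ ^ 2 ≤ c * aa h n ^ 3 * ‖H‖ ^ 2 := by
    refine mul_le_mul_of_nonneg_right ?_ hx0
    refine (mul_le_mul_of_nonneg_left hd0 hκ).trans (le_of_eq ?_)
    rw [hc]; ring
  have h3 : ∑ i ∈ Finset.range n,
      C * aa h i ^ 3 * ‖F.TT s sY h (l.drop (i + 1)) (F.op (w s ^ (h + e)) (F.ζ H))‖ ^ 2 ≤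
      ∑ i ∈ Finset.range n, C * (4 * c * ‖H‖ ^ 2) * (aa h i ^ 3 * aa h (n - 1 - i)) := by
    refine Finset.sum_le_sum fun i hi => ?_
    have hi' := Finset.mem_range.1 hi
    have := F.E5 hκ K hsm he H (n - 1 - i) (l.drop (i + 1)) (by rw [List.length_drop]; omega)
      (by omega)
    calc C * aa h i ^ 3 * _ ≤ C * aa h i ^ 3 * (4 * c * aa h (n - 1 - i) * ‖H‖ ^ 2) :=
          mul_le_mul_of_nonneg_left this (mul_nonneg hC0 (pow_nonneg (aa_nonneg _ _) _))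
      _ = _ := by ring
  rw [← Finset.mul_sum] at h3
  have h5 := conv_cube_aa K.hh n
  have h7 : κ * ∑ i ∈ Finset.range n,
      C * aa h i ^ 3 * ‖F.TT s sY h (l.drop (i + 1)) (F.op (w s ^ (h + e)) (F.ζ H))‖ ^ 2 ≤
      κ * (C * (4 * c * ‖H‖ ^ 2) * (6 * aa h 0 ^ 3 * aa h n)) := by
    refine mul_le_mul_of_nonneg_left (h3.trans ?_) hκ
    gcongr
  calc _ ≤ _ := h1
    _ ≤ 2 * (c * aa h n ^ 3 * ‖H‖ ^ 2) +
        2 * (κ * (C * (4 * c * ‖H‖ ^ 2) * (6 * aa h 0 ^ 3 * aa h n))) := by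
      linarith
    _ = _ := by rw [hc]; ring

/-- E6 -/
theorem Fock.E6 (hκ : 0 ≤ κ) (K : KB s sY h L N m C lam mu nu2)
    (hsm : 64 * (κ * C) * √(((L : ℝ) + 1) / h) ≤ 1) (G : V) (l : List Bool)
    (hl : l.length ≤ L) :
    ‖F.op (w s ^ N) (F.TT s sY h l (F.Del s sY h G))‖ ^ 2 ≤
      (5 * κ + 30 * κ * (κ * C)) * lam *
        (aa h 0 ^ 3 * ‖F.op (w s ^ (h - 1)) G‖ ^ 2 +
          ‖F.op ((w s - 1) * w s ^ (h - 1)) G‖ ^ 2) := by
  have h1 := F.rec_bound s sY h hκ K.hs0 K.hs1 K.hh K.kN l hl (F.Del s sY h G)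
  have hdN := KBound.diag K.kN hl (e := 0) (by omega)
  rw [add_zero] at hdN
  have h2 := F.direct_bound (s := s) (sY := sY) hκ K.hh (w s ^ N) l.length _ _
    (K.kN1 _ hl) hdN G
  set n := l.length with hn
  set c := κ * C with hc
  have hC0 : 0 ≤ C := by linarith [K.hC]
  have hc0 : 0 ≤ c := mul_nonneg hκ hC0
  have hlam := K.hlam
  set x2 := ‖F.op (w s ^ (h - 1)) G‖ ^ 2 with hx2
  set y2 := ‖F.op ((w s - 1) * w s ^ (h - 1)) G‖ ^ 2 with hy2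
  have hx0 : 0 ≤ x2 := sq_nonneg _
  have hy0 : 0 ≤ y2 := sq_nonneg _
  set e1 := √(((L : ℝ) + 1) / h) with he1
  have he0 : 0 ≤ e1 := Real.sqrt_nonneg _
  have ha0 : 0 ≤ aa h 0 := aa_nonneg _ _
  have h3 : ∑ i ∈ Finset.range n,
      lam * ‖F.TT s sY h (l.drop (i + 1)) (F.Del s sY h G)‖ ^ 2 ≤
      ∑ i ∈ Finset.range n, lam * (4 * c * x2 * aa h (n - 1 - i) ^ 3 +
          (96 * c ^ 2 * aa h 0 ^ 3 * x2 + 8 * c * y2) * aa h (n - 1 - i)) := by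
    refine Finset.sum_le_sum fun i hi => ?_
    have hi' := Finset.mem_range.1 hi
    have := F.E4 hκ K hsm G (n - 1 - i) (l.drop (i + 1)) (by rw [List.length_drop]; omega)
      (by omega)
    refine mul_le_mul_of_nonneg_left (this.trans (le_of_eq ?_)) hlam
    rw [← hc]
    ring
  have h3' : ∑ i ∈ Finset.range n, lam * (4 * c * x2 * aa h (n - 1 - i) ^ 3 +
      (96 * c ^ 2 * aa h 0 ^ 3 * x2 + 8 * c * y2) * aa h (n - 1 - i)) =
      lam * (4 * c * x2 * ∑ i ∈ Finset.range n, aa h i ^ 3 +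
      (96 * c ^ 2 * aa h 0 ^ 3 * x2 + 8 * c * y2) * ∑ i ∈ Finset.range n, aa h i) := by
    rw [← Finset.mul_sum, Finset.sum_add_distrib, ← Finset.mul_sum, ← Finset.mul_sum,
      Finset.sum_range_reflect (fun i => aa h i ^ 3) n,
      Finset.sum_range_reflect (fun i => aa h i) n]
  rw [h3'] at h3
  have h4 := sum_aa_cube_le h n
  have h5 := sum_aa_le' (h := h) hl
  rw [← he1] at h5
  have h6 : 4 * c * x2 * ∑ i ∈ Finset.range n, aa h i ^ 3 +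
      (96 * c ^ 2 * aa h 0 ^ 3 * x2 + 8 * c * y2) * ∑ i ∈ Finset.range n, aa h i ≤
      4 * c * x2 * (3 * aa h 0 ^ 3) +
      (96 * c ^ 2 * aa h 0 ^ 3 * x2 + 8 * c * y2) * (2 * e1) := by
    gcongr
  have h8 : 4 * c * x2 * (3 * aa h 0 ^ 3) +
      (96 * c ^ 2 * aa h 0 ^ 3 * x2 + 8 * c * y2) * (2 * e1) =
      12 * c * aa h 0 ^ 3 * x2 + (64 * c * e1) * (3 * c * aa h 0 ^ 3 * x2 + 1 / 4 * y2) := by
    ring
  have h9 : (64 * c * e1) * (3 * c * aa h 0 ^ 3 * x2 + 1 / 4 * y2) ≤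
      3 * c * aa h 0 ^ 3 * x2 + 1 / 4 * y2 :=
    mul_le_of_le_one_left (by positivity) hsm
  have h7 : κ * ∑ i ∈ Finset.range n,
      lam * ‖F.TT s sY h (l.drop (i + 1)) (F.Del s sY h G)‖ ^ 2 ≤
      κ * (lam * (15 * c * aa h 0 ^ 3 * x2 + 1 / 4 * y2)) := by
    refine mul_le_mul_of_nonneg_left (h3.trans ?_) hκ
    refine mul_le_mul_of_nonneg_left ?_ hlam
    linarith
  have p1 : 0 ≤ κ * lam * (aa h 0 ^ 3 * x2) := by positivity
  have p2 : 0 ≤ κ * lam * y2 := by positivity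
  have p3 : 0 ≤ κ * c * lam * y2 := by positivity
  calc _ ≤ _ := h1
    _ ≤ 2 * (2 * (κ * (lam * aa h 0 ^ 3) * x2) + 2 * (κ * lam * y2)) +
        2 * (κ * (lam * (15 * c * aa h 0 ^ 3 * x2 + 1 / 4 * y2))) := by
      linarith
    _ = 4 * (κ * lam * (aa h 0 ^ 3 * x2)) + (4 + 1 / 2) * (κ * lam * y2) +
        30 * κ * c * lam * (aa h 0 ^ 3 * x2) := by ring
    _ ≤ 5 * (κ * lam * (aa h 0 ^ 3 * x2)) + 5 * (κ * lam * y2) +
        30 * κ * c * lam * (aa h 0 ^ 3 * x2) + 30 * (κ * c * lam * y2) := by linarith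
    _ = _ := by ring

/-- E7 -/
theorem Fock.E7 (hκ : 0 ≤ κ) (K : KB s sY h L N m C lam mu nu2)
    (hsm : 64 * (κ * C) * √(((L : ℝ) + 1) / h) ≤ 1) (l : List Bool) (hl : l.length ≤ L)
    (v : V) :
    ‖F.op (w s ^ N) (F.TT s sY h l v - F.op (W0 s sY h ^ l.length) v)‖ ^ 2 ≤
      4 * κ * lam * L * ‖v‖ ^ 2 := by
  rw [F.TT_expand s sY h K.hh l v, add_sub_cancel_left, map_sum]
  simp_rw [← F.op_mul_apply, ← mul_assoc]
  have hlam := K.hlam
  refine (F.norm_sum_sq_le hκ l.length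
    (fun i => w s ^ N * W0 s sY h ^ i * w s ^ (h + eb (l.getD i false)))
    (fun i => F.op (w s ^ (h - eb (l.getD i false))) (F.TT s sY h (l.drop (i + 1)) v))
    (fun _ => lam) ?_).trans ?_
  · intro i hi
    refine le_trans ?_ (K.kN (fun i => eb (l.getD i false)) (fun i => eb_le _) i (by omega))
    apply Finset.sum_le_sum_of_subset_of_nonneg
    · intro j hj
      simp only [Finset.mem_range] at hj ⊢
      omega
    · intro _ _ _; exact abs_nonneg _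
  · have h1 : ∑ i ∈ Finset.range l.length, lam *
        ‖F.op (w s ^ (h - eb (l.getD i false))) (F.TT s sY h (l.drop (i + 1)) v)‖ ^ 2 ≤
        ∑ i ∈ Finset.range l.length, lam * (4 * ‖v‖ ^ 2) := by
      refine Finset.sum_le_sum fun i hi => ?_
      have hi' := Finset.mem_range.1 hi
      refine mul_le_mul_of_nonneg_left ?_ hlam
      have h2 := F.norm_op_le (w s ^ (h - eb (l.getD i false)))
        (F.TT s sY h (l.drop (i + 1)) v)
      rw [l1_w_pow K.hs0 K.hs1, one_mul] at h2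
      have h3 := F.E1 hκ K hsm (l.length - 1 - i) (l.drop (i + 1))
        (by rw [List.length_drop]; omega) (by omega) v
      refine le_trans ?_ h3
      gcongr
    rw [Finset.sum_const, Finset.card_range, nsmul_eq_mul] at h1
    have h4 : (l.length : ℝ) ≤ L := by exact_mod_cast hl
    calc _ ≤ κ * ((l.length : ℝ) * (lam * (4 * ‖v‖ ^ 2))) := mul_le_mul_of_nonneg_left h1 hκ
      _ ≤ κ * ((L : ℝ) * (lam * (4 * ‖v‖ ^ 2))) := by gcongr
      _ = _ := by ring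

/-- E8 -/
theorem Fock.E8 (hκ : 0 ≤ κ) (K : KB s sY h L N m C lam mu nu2) {e : ℕ} (he : e ≤ 1) (Y : V) :
    ‖F.op (w s ^ N) (F.op (w s ^ (h + e)) (F.ζ (F.op (w s ^ (h - e)) Y)))‖ ^ 2 ≤
      κ * lam * ‖Y‖ ^ 2 := by
  rw [← F.op_mul_apply, F.norm_op_ζ_sq]
  have hd := KBound.diag K.kN (Nat.zero_le L) he
  rw [pow_zero, mul_one] at hd
  have h2 := F.norm_op_le (w s ^ (h - e)) Y
  rw [l1_w_pow K.hs0 K.hs1, one_mul] at h2
  have hlam := K.hlam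
  calc κ * ip (w s ^ N * w s ^ (h + e)) (w s ^ N * w s ^ (h + e)) *
        ‖F.op (w s ^ (h - e)) Y‖ ^ 2 ≤ κ * lam * ‖F.op (w s ^ (h - e)) Y‖ ^ 2 := by gcongr
    _ ≤ κ * lam * ‖Y‖ ^ 2 := by gcongr

end

end Vale.Agent.P321
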