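import Vale.Agent.P321.FinalEta

/-! Assembly. -/

namespace Vale.Agent.P321

open Polynomial

theorem ff_exp (c : ℝ) (hc : 0 < c) : ∀ᶠ t : ℝ in Filter.atTop,
    26 * t ^ 3 * Real.exp (-c * t) ≤ 1 := by
  have h1 := Real.tendsto_pow_mul_exp_neg_atTop_nhds_zero 3
  have h2 : Filter.Tendsto (fun t : ℝ => c * t) Filter.atTop Filter.atTop :=
    Filter.tendsto_id.const_mul_atTop hc
  have h3 := h1.comp h2
  have h4 : ∀ᶠ t : ℝ in Filter.atTop, (c * t) ^ 3 * Real.exp (-(c * t)) < c ^ 3 / 26 :=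
    (h3.eventually (gt_mem_nhds (by positivity)))
  filter_upwards [h4] with t ht
  have h5 : -c * t = -(c * t) := by ring
  rw [h5]
  rw [mul_pow, lt_div_iff₀ (by norm_num)] at ht
  have hc3 : 0 < c ^ 3 := by positivity
  have h6 : c ^ 3 * (26 * t ^ 3 * Real.exp (-(c * t))) ≤ c ^ 3 * 1 := by linarith
  exact le_of_mul_le_mul_left h6 hc3

theorem Sc.exp_le {k u : ℕ} {X A : ℝ} {h R N D a : ℕ} (S : Sc k u X A h R N D a) {c : ℝ}
    (hc : 0 < c) (he : 26 * (A ^ 4) ^ 3 * Real.exp (-c * A ^ 4) ≤ 1) :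
    2 * ((a : ℝ) + D + 1) * Real.exp (-c * (a + D)) ≤ X ^ 11 / A ^ 7 := by
  have hX0 := S.X0
  have hX1 := S.X1
  have hA0 := S.A0
  have hA1 := S.A1
  have har := S.ar
  have har5 := S.ar5
  have hDA := S.DA
  have hA2N := S.A2N
  rw [S.hNr] at har har5 hA2N
  have hD0 : (0 : ℝ) ≤ D := Nat.cast_nonneg D
  have h4 : (1 : ℝ) ≤ A ^ 4 := one_le_pow₀ hA1
  have e1 : (a : ℝ) + D + 1 ≤ 13 * A ^ 4 := by linarith
  have e2 : Real.exp (-c * (a + D)) ≤ Real.exp (-c * A ^ 4) := by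
    apply Real.exp_le_exp.mpr
    have h5 : A ^ 4 ≤ (a : ℝ) + D := by linarith
    have h6 : c * A ^ 4 ≤ c * ((a : ℝ) + D) := mul_le_mul_of_nonneg_left h5 hc.le
    linarith
  calc 2 * ((a : ℝ) + D + 1) * Real.exp (-c * (a + D)) ≤ 2 * (13 * A ^ 4) * Real.exp (-c * A ^ 4) := by
        apply mul_le_mul (by linarith) e2 (Real.exp_pos _).le (by positivity)
    _ = (26 * (A ^ 4) ^ 3 * Real.exp (-c * A ^ 4)) / A ^ 8 := by
        field_simp
        norm_num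
    _ ≤ 1 / A ^ 8 := div_le_div_of_nonneg_right he (by positivity)
    _ ≤ X ^ 11 / A ^ 7 := by
        rw [div_le_div_iff₀ (by positivity) (by positivity)]
        have e2 : (1 : ℝ) ≤ X ^ 11 := one_le_pow₀ hX1
        have e3 : A ^ 7 ≤ A ^ 8 := pow_le_pow_right₀ hA1 (by norm_num)
        exact mul_le_mul e2 e3 (by positivity) (by positivity)

theorem ff_tend (k : ℕ) (hk : 5 ≤ k) :
    Filter.Tendsto (fun u : ℕ => ((u : ℝ) ^ k) ^ 4) Filter.atTop Filter.atTop := by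
  have h1 : Filter.Tendsto (fun x : ℝ => (x ^ k) ^ 4) Filter.atTop Filter.atTop :=
    (Filter.tendsto_pow_atTop (by norm_num)).comp (Filter.tendsto_pow_atTop (by omega))
  exact h1.comp tendsto_natCast_atTop_atTop

/-- the estimate at one scale -/
theorem lower_scale {q : ℝ} (hq0 : 0 < q) (hq1 : q < 1) (k : ℕ) (hk : 5 ≤ k) :
    ∃ c : ℝ, 0 < c ∧ ∃ u₀ : ℕ, 1 ≤ u₀ ∧ ∀ u : ℕ, u₀ ≤ u → ∀ n : ℕ, 30 * u ^ (4 * k) ≤ n →
      c * (u : ℝ) ^ (7 * k - 11) ≤ (T q n : ℝ) := by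
  obtain ⟨δ, c, hδ0, hδ1, hc, hred⟩ := reduction hq0 hq1 (4 * k) (by omega)
  obtain ⟨C, hC, uKB, hKB⟩ := kernel_bounds hδ0 k hk
  obtain ⟨κ, hκdef⟩ : ∃ κ : ℝ, κ = 4 ^ (4 * k) / q ^ 2 := ⟨_, rfl⟩
  rw [← hκdef] at hred
  have hκ0 : 0 ≤ κ := by rw [hκdef]; positivity
  have hκq : 1 / q ≤ κ := by
    rw [hκdef, div_le_div_iff₀ hq0 (by positivity)]
    have h1 : (1 : ℝ) ≤ 4 ^ (4 * k) := one_le_pow₀ (by norm_num)
    nlinarith
  obtain ⟨Cf, hCf, hchain⟩ := chain_diff k hκ0 hC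
  obtain ⟨cw, hcw, n₀, hP0⟩ := fa_P0 hδ0
  obtain ⟨K3, hK3⟩ : ∃ K3 : ℝ, K3 = 5 * (Cf * C ^ 3 * (C ^ (2 * k) + 2)) * 16 / cw ^ 2 +
      ((16 / 9) * (12 * κ * C ^ 3) * 16 / cw ^ 2) ^ (4 * k) := ⟨_, rfl⟩
  have hK30 : 0 ≤ K3 := by rw [hK3]; positivity
  -- largeness conditions
  have htend : Filter.Tendsto (fun u : ℕ => (u : ℝ)) Filter.atTop Filter.atTop :=
    tendsto_natCast_atTop_atTop
  have hev := (Filter.eventually_ge_atTop uKB).and ((Filter.eventually_ge_atTop n₀).and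
    ((htend.eventually_ge_atTop (128 * (κ * C))).and ((htend.eventually_ge_atTop (1 / δ)).and
    ((Filter.eventually_ge_atTop 4).and ((ff_tend k hk).eventually (ff_exp c hc))))))
  obtain ⟨u₀, hu₀⟩ := hev.exists_forall_of_atTop
  refine ⟨1 / (18 * (K3 + 1)), by positivity, u₀ + 1, by omega, ?_⟩
  intro u hu n hn
  obtain ⟨c1, c2, c3, c4, c5, c6⟩ := hu₀ u (by omega)
  obtain ⟨X, A, h, R, N, D, a, S⟩ := sc_mk k u hk c5
  have hX0 := S.X0
  have hX1 := S.X1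
  have hA0 := S.A0
  have hA1 := S.A1
  have hN0 := S.N0
  have hη0 : 0 ≤ K3 * (X ^ 11 / A ^ 7) := by positivity
  -- apply the reduction
  have hmain := hred (BB N h R k true) (BB N h R k false) (by rw [S.len, S.len])
    (by rw [S.ct, S.ct]) (fa_BB_ne S.hh1 N R k) (by rw [S.ct, S.cf]; exact S.Da)
    (K3 * (X ^ 11 / A ^ 7)) hη0 (by
    intro M hM1 hM2 s sY P0 hs hsY hP0def
    rw [S.len] at hM1 hM2 hs
    push_cast at hM1 hM2 hs
    have hlen0 : (0 : ℝ) < (a : ℝ) + D := by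
      have h1 : (0 : ℝ) ≤ D := Nat.cast_nonneg D
      have h2 := S.ar5
      linarith
    have hs0 : δ ≤ s := by rw [hs, le_div_iff₀ hlen0]; exact hM1
    have hs1 : s ≤ 1 - δ := by rw [hs, div_le_iff₀ hlen0]; exact hM2
    have hMs : (M : ℝ) = s * ((a : ℝ) + D) := by rw [hs]; field_simp
    obtain ⟨hY0, hYs⟩ := tiltY_bounds (q := q) (s := s) hq0 (by linarith) (by linarith)
    rw [← hsY] at hY0 hYs
    have hY1 : sY ≤ 1 := by linarith
    have hP0low : cw / (4 * A ^ 2) ≤ P0 := by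
      rw [hP0def]
      exact S.P0low hδ0 hcw hP0 c2 c4 hs0 hs1 hY0 hY1 hMs
    have hP0pos : 0 < P0 := lt_of_lt_of_le (by positivity) hP0low
    refine ⟨hP0pos, ?_⟩
    have hfin := S.eta hk (q := q) (κ := κ) (C := C) (Cf := Cf) (cw := cw) (s := s) (sY := sY)
      (P0 := P0) (M := M) hq0 hκ0 hκq hC hCf hcw hchain (by rw [S.hXdef]; exact c3) hY0 hY1
      (hKB u c1 s sY hs0 hs1 hY0 hYs) hP0def hP0low
    rw [hK3]
    exact hfin) n (by
      rw [str_length, S.ct, S.cf]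
      have e0 := S.ar
      have e00 := S.DA
      have e01 := S.A2N
      have e1 : (2 : ℝ) * a + D ≤ n := by
        have e2 : (30 : ℝ) * N ≤ n := by rw [S.hN]; exact_mod_cast hn
        linarith
      exact_mod_cast e1)
  -- final computation
  rw [S.len] at hmain
  push_cast at hmain
  have hexp := S.exp_le hc (by rw [S.hA, S.hXdef]; exact c6)
  have hT0 : (0 : ℝ) ≤ (T q n : ℝ) := Nat.cast_nonneg _
  have h18 : 1 / 18 ≤ (T q n : ℝ) * ((K3 + 1) * (X ^ 11 / A ^ 7)) := by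
    refine hmain.trans ?_
    apply mul_le_mul_of_nonneg_left _ hT0
    calc K3 * (X ^ 11 / A ^ 7) + 2 * ((a : ℝ) + D + 1) * Real.exp (-c * (a + D))
        ≤ K3 * (X ^ 11 / A ^ 7) + X ^ 11 / A ^ 7 := add_le_add le_rfl hexp
      _ = _ := by ring
  rw [← S.hXdef]
  have hXA : X ^ (7 * k - 11) = A ^ 7 / X ^ 11 := by
    rw [eq_div_iff (by positivity), S.hA, ← pow_add, ← pow_mul]
    congr 1
    omega
  rw [hXA]
  have h19 : 1 / (18 * (K3 + 1)) * (A ^ 7 / X ^ 11) = (1 / 18) / ((K3 + 1) * (X ^ 11 / A ^ 7)) := by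
    field_simp
  rw [h19, div_le_iff₀ (by positivity)]
  exact h18

end Vale.Agent.P321
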