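import Vale.Agent.P321.KernAux

/-!
M6: verification of the kernel bounds `KB` for `h = u^(2k-2)`, `L = 3 u^(2k-6)`, `N = u^(4k)`,
`m = k` and `u` large.  Uses only the statements of `Kern.lean`.

Notation: `P i = Q * W0^i * w^(h + ε i)` with `W0 = w s^(2h) * w sY`, `v = s (1-s) ≥ δ/2`.

* Diagonal terms: `ip P P ≤ sup P * l1 P`; `sup ≤ 1/(2 √((g+1) v))` where `g ≥ (i+1) h` is the
  exponent of `w s` (`w_pow_coeff_le`, `coeff_mul_le_sup`), `l1 = 1`.  With a factor `w - 1 =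
  s (X - 1)`: `l1 ((w-1) w^g) ≤ 1/√((g+1)v)` (`l1_w_pow_mul_sub`), and
  `sup ((w-1) w^g) ≤ l1 ((w-1) w^(g/2)) * sup (w^(g - g/2))`, so
  `ip P P ≤ C / g^(3/2) ≤ C aa^3`.
* Off-diagonal terms `i ≠ j`: `ip_le_eval` at `x = exp u` and `eval_w_exp_le` give
  `ip (P i) (P j) ≤ exp (u (G_i - G_j) + u^2 (G_i + G_j))`, `G_i = s g_i + sY i`; choose
  `u = -(G_i - G_j) / (2 (G_i + G_j))`, get `exp (-(G_i-G_j)^2 / (4 (G_i+G_j)))`.  Here
  `|G_i - G_j| ≥ s h |i-j|` and `G_i + G_j ≤ C h (L+1)` (resp. `≤ C N` with the factor `w^N`).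
* `hmu`: `l1 (w^n (W0 - 1)) ≤ (2h+1)/√((n+1)v)` by telescoping, with `n = N / i`.
-/

namespace Vale.Agent.P321

open Polynomial

theorem sum_split (L i : ℕ) (hi : i ≤ L) (f : ℕ → ℝ) (d e : ℝ) (hd : f i ≤ d)
    (he : ∀ j ≤ L, j ≠ i → f j ≤ e) : ∑ j ∈ Finset.range (L + 1), f j ≤ d + L * e := by
  have hmem : i ∈ Finset.range (L + 1) := by simp; omega
  rw [← Finset.add_sum_erase _ _ hmem]
  have h1 : ∑ j ∈ (Finset.range (L + 1)).erase i, f j ≤ ∑ _j ∈ (Finset.range (L + 1)).erase i, e := by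
    apply Finset.sum_le_sum
    intro j hj
    rw [Finset.mem_erase, Finset.mem_range] at hj
    exact he j (by omega) hj.1
  rw [Finset.sum_const, Finset.card_erase_of_mem hmem, Finset.card_range, nsmul_eq_mul] at h1
  simp only [Nat.add_sub_cancel] at h1
  linarith

theorem near_split (L i R : ℕ) (f : ℕ → ℝ) (d e : ℝ) (hd0 : 0 ≤ d) (he0 : 0 ≤ e)
    (hd : ∀ j ≤ L, j < i + R → i < j + R → f j ≤ d)
    (he : ∀ j ≤ L, ¬ (j < i + R ∧ i < j + R) → f j ≤ e) :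
    ∑ j ∈ Finset.range (L + 1), f j ≤ 2 * R * d + (L + 1) * e := by
  classical
  have h1 : ∀ j ∈ Finset.range (L + 1), f j ≤ (if j < i + R ∧ i < j + R then d else 0) + e := by
    intro j hj
    rw [Finset.mem_range] at hj
    split_ifs with h
    · have := hd j (by omega) h.1 h.2
      linarith
    · have := he j (by omega) h
      linarith
  refine (Finset.sum_le_sum h1).trans ?_
  rw [Finset.sum_add_distrib, Finset.sum_const, Finset.card_range, nsmul_eq_mul, ← Finset.sum_filter,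
    Finset.sum_const, nsmul_eq_mul]
  have hcard : ((Finset.range (L + 1)).filter (fun j => j < i + R ∧ i < j + R)).card ≤ 2 * R := by
    have hsub : (Finset.range (L + 1)).filter (fun j => j < i + R ∧ i < j + R)
        ⊆ Finset.Ico (i + 1 - R) (i + R) := by
      intro j hj
      rw [Finset.mem_filter, Finset.mem_range] at hj
      rw [Finset.mem_Ico]
      omega
    refine (Finset.card_le_card hsub).trans ?_
    rw [Nat.card_Ico]
    omega
  have hcard' : ((((Finset.range (L + 1)).filter (fun j => j < i + R ∧ i < j + R)).card : ℕ) : ℝ)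
      ≤ 2 * R := by exact_mod_cast hcard
  have h2 := mul_le_mul_of_nonneg_right hcard' hd0
  push_cast
  linarith

/-- exponent of `w s` in the `i`-th member of the family -/
def gx (n h : ℕ) (ε : ℕ → ℕ) (i : ℕ) : ℕ := n + 2 * h * i + (h + ε i)

theorem fam0 (s sY : ℝ) (n h : ℕ) (ε : ℕ → ℕ) (i : ℕ) :
    w s ^ n * W0 s sY h ^ i * w s ^ (h + ε i) = ker s sY (gx n h ε i) i := by
  unfold W0 ker gx
  rw [mul_pow, ← pow_mul]
  ring

theorem fam1 (s sY : ℝ) (n h : ℕ) (ε : ℕ → ℕ) (i : ℕ) :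
    (w s - 1) * w s ^ n * W0 s sY h ^ i * w s ^ (h + ε i)
      = (w s - 1) * ker s sY (gx n h ε i) i := by
  rw [← fam0]
  ring

theorem gap_le {δ s sY : ℝ} (hδ : 0 < δ) (hs0 : δ ≤ s) (hY0 : 0 ≤ sY) (n h : ℕ) (hh : 1 ≤ h)
    (ε : ℕ → ℕ) (hε : ∀ i, ε i ≤ 1) (i j : ℕ) :
    δ * h * |(i : ℝ) - j| ≤
      |(s * (gx n h ε i : ℕ) + sY * i) - (s * (gx n h ε j : ℕ) + sY * j)| := by
  have key : ∀ i j : ℕ, i < j → δ * h * ((j : ℝ) - i) ≤
      (s * (gx n h ε j : ℕ) + sY * j) - (s * (gx n h ε i : ℕ) + sY * i) := by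
    intro i j hij
    have hij' : (1 : ℝ) ≤ (j : ℝ) - i := by
      have : ((i + 1 : ℕ) : ℝ) ≤ j := by exact_mod_cast hij
      push_cast at this
      linarith
    have hh' : (1 : ℝ) ≤ h := by exact_mod_cast hh
    have h1 : (ε i : ℝ) ≤ 1 := by exact_mod_cast hε i
    have h2 : (0 : ℝ) ≤ ε j := Nat.cast_nonneg _
    have e : (s * (gx n h ε j : ℕ) + sY * j) - (s * (gx n h ε i : ℕ) + sY * i)
        = s * (2 * h * ((j : ℝ) - i) + (ε j - ε i)) + sY * ((j : ℝ) - i) := by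
      unfold gx
      push_cast
      ring
    rw [e]
    have h3 : (h : ℝ) * ((j : ℝ) - i) ≤ 2 * h * ((j : ℝ) - i) + ((ε j : ℝ) - ε i) := by
      nlinarith
    have h4 : 0 ≤ (h : ℝ) * ((j : ℝ) - i) := by nlinarith
    have h5 : δ * (h * ((j : ℝ) - i)) ≤ s * (2 * h * ((j : ℝ) - i) + ((ε j : ℝ) - ε i)) := by
      have hs : 0 < s := by linarith
      calc δ * (h * ((j : ℝ) - i)) ≤ s * (h * ((j : ℝ) - i)) := by gcongr
        _ ≤ _ := by gcongr
    have h6 : 0 ≤ sY * ((j : ℝ) - i) := mul_nonneg hY0 (by linarith)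
    linarith
  rcases lt_trichotomy i j with h | h | h
  · have := key i j h
    have h1 : |(i : ℝ) - j| = j - i := by
      rw [abs_of_nonpos]
      · ring
      · have : (i : ℝ) < j := by exact_mod_cast h
        linarith
    rw [h1, abs_sub_comm]
    exact this.trans (le_abs_self _)
  · subst h
    simp
  · have := key j i h
    have h1 : |(i : ℝ) - j| = i - j := by
      rw [abs_of_nonneg]
      have : (j : ℝ) < i := by exact_mod_cast h
      linarith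
    rw [h1]
    exact this.trans (le_abs_self _)

theorem sum_le {s sY : ℝ} (h1 : s ≤ 1) (hY1 : sY ≤ 1)
    (n h L : ℕ) (hh : 1 ≤ h) (ε : ℕ → ℕ) (hε : ∀ i, ε i ≤ 1) (i j : ℕ) (hi : i ≤ L) (hj : j ≤ L) :
    (s * (gx n h ε i : ℕ) + sY * i) + (s * (gx n h ε j : ℕ) + sY * j) ≤
      2 * n + 6 * (h * ((L : ℝ) + 1)) := by
  have key : ∀ i ≤ L, s * (gx n h ε i : ℕ) + sY * i ≤ n + 3 * (h * ((L : ℝ) + 1)) := by
    intro i hi
    have h2 : s * (gx n h ε i : ℕ) ≤ 1 * (gx n h ε i : ℕ) := by gcongr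
    have h3 : sY * i ≤ 1 * (i : ℝ) := by gcongr
    have h4 : ((gx n h ε i + i : ℕ) : ℝ) ≤ ((n + 3 * (h * (L + 1)) : ℕ) : ℝ) := by
      have h5 : gx n h ε i + i ≤ n + 3 * (h * (L + 1)) := by
        unfold gx
        have := hε i
        have h6 : 2 * h * i ≤ 2 * h * L := Nat.mul_le_mul_left _ hi
        have h7 : L ≤ h * L := Nat.le_mul_of_pos_left _ hh
        nlinarith
      exact_mod_cast h5
    push_cast at h4
    linarith
  have := key i hi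
  have := key j hj
  linarith

section

variable {δ s sY : ℝ} {u U h L N : ℕ}

/-- standing assumptions -/
structure Par (δ s sY : ℝ) (u U h L N : ℕ) : Prop where
  hδ : 0 < δ
  hs0 : δ ≤ s
  hs1 : s ≤ 1 - δ
  hY0 : 0 ≤ sY
  hY1 : sY ≤ s
  hu : 1 ≤ u
  hU : 1 ≤ U
  hh : h = U * u ^ 4
  hL : L = 3 * U
  hN : N = U ^ 2 * u ^ 12
  hexp : 200 * (U : ℝ) ^ 4 * (u : ℝ) ^ 8 * Real.exp (-(δ ^ 2 / 128 * (u : ℝ) ^ 4)) ≤ 1

namespace Par

theorem h1' (H : Par δ s sY u U h L N) : 1 ≤ h := by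
  rw [H.hh]
  exact Nat.mul_pos H.hU (pow_pos H.hu 4)

theorem s0 (H : Par δ s sY u U h L N) : 0 ≤ s := by linarith [H.hs0, H.hδ]

theorem s1 (H : Par δ s sY u U h L N) : s ≤ 1 := by linarith [H.hs1, H.hδ]

theorem sY1 (H : Par δ s sY u U h L N) : sY ≤ 1 := by linarith [H.hY1, H.s1]

theorem ur (H : Par δ s sY u U h L N) : (1 : ℝ) ≤ u := by exact_mod_cast H.hu

theorem Ur (H : Par δ s sY u U h L N) : (1 : ℝ) ≤ U := by exact_mod_cast H.hU

theorem AA_le_aa (H : Par δ s sY u U h L N) (g i : ℕ) (hg : (i + 1) * h ≤ g + 1) :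
    AA δ g ≤ 1 / δ * aa h i := by
  unfold AA aa
  have hδ := H.hδ
  have hh : (1 : ℝ) ≤ h := by exact_mod_cast H.h1'
  rw [one_div_mul_one_div]
  apply one_div_le_one_div_of_le (by positivity)
  gcongr
  exact_mod_cast hg

theorem aa_ge (H : Par δ s sY u U h L N) (i : ℕ) (hi : i ≤ L) :
    1 / (2 * (U : ℝ) * (u : ℝ) ^ 2) ≤ aa h i := by
  unfold aa
  have hu := H.ur
  have hU := H.Ur
  have hh : (1 : ℝ) ≤ h := by exact_mod_cast H.h1'
  apply one_div_le_one_div_of_le (by positivity)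
  apply Real.sqrt_le_iff.mpr
  refine ⟨by positivity, ?_⟩
  have h1 : ((i : ℝ) + 1) * h ≤ (4 * U) * (U * u ^ 4) := by
    have h2 : (i : ℝ) ≤ 3 * U := by
      have : i ≤ 3 * U := by rw [← H.hL]; exact hi
      exact_mod_cast this
    have h3 : (h : ℝ) = U * u ^ 4 := by
      rw [H.hh]
      push_cast
      ring
    rw [h3]
    gcongr
    linarith
  calc ((i : ℝ) + 1) * h ≤ (4 * U) * (U * u ^ 4) := h1
    _ = (2 * (U : ℝ) * (u : ℝ) ^ 2) ^ 2 := by ring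

theorem aa_pos (H : Par δ s sY u U h L N) (i : ℕ) : 0 < aa h i := by
  unfold aa
  have hh : (1 : ℝ) ≤ h := by exact_mod_cast H.h1'
  positivity

/-- the exponentially small error, first order -/
theorem err1 (H : Par δ s sY u U h L N) (i : ℕ) (hi : i ≤ L) :
    (L : ℝ) * (8 * Real.exp (-(δ ^ 2 / 128 * (u : ℝ) ^ 4))) ≤ aa h i := by
  refine le_trans ?_ (H.aa_ge i hi)
  have hu := H.ur
  have hU := H.Ur
  rw [le_div_iff₀ (by positivity), H.hL]
  push_cast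
  refine le_trans ?_ H.hexp
  set E := Real.exp (-(δ ^ 2 / 128 * (u : ℝ) ^ 4)) with hE
  have hEp : 0 < E := Real.exp_pos _
  have h1 : (U : ℝ) ^ 2 * u ^ 2 ≤ U ^ 4 * u ^ 8 := by
    gcongr <;> first | assumption | norm_num
  calc 3 * (U : ℝ) * (8 * E) * (2 * U * u ^ 2) = 48 * (U ^ 2 * u ^ 2) * E := by ring
    _ ≤ 48 * (U ^ 4 * u ^ 8) * E := by gcongr
    _ ≤ 200 * (U : ℝ) ^ 4 * (u : ℝ) ^ 8 * E := by
        have : 0 ≤ (U : ℝ) ^ 4 * u ^ 8 * E := by positivity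
        linarith

/-- the exponentially small error, third order -/
theorem err3 (H : Par δ s sY u U h L N) (i : ℕ) (hi : i ≤ L) :
    (L : ℝ) * (8 * Real.exp (-(δ ^ 2 / 128 * (u : ℝ) ^ 4))) ≤ aa h i ^ 3 := by
  have hu := H.ur
  have hU := H.Ur
  have h0 : (1 / (2 * (U : ℝ) * (u : ℝ) ^ 2)) ^ 3 ≤ aa h i ^ 3 := by
    have := H.aa_ge i hi
    gcongr
  refine le_trans ?_ h0
  rw [div_pow, one_pow, le_div_iff₀ (by positivity), H.hL]
  push_cast
  refine le_trans ?_ H.hexp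
  set E := Real.exp (-(δ ^ 2 / 128 * (u : ℝ) ^ 4)) with hE
  have hEp : 0 < E := Real.exp_pos _
  have h1 : (U : ℝ) ^ 4 * u ^ 6 ≤ U ^ 4 * u ^ 8 := by
    gcongr
    norm_num
  calc 3 * (U : ℝ) * (8 * E) * (2 * U * u ^ 2) ^ 3 = 192 * (U ^ 4 * u ^ 6) * E := by ring
    _ ≤ 192 * (U ^ 4 * u ^ 8) * E := by gcongr
    _ ≤ 200 * (U : ℝ) ^ 4 * (u : ℝ) ^ 8 * E := by
        have : 0 ≤ (U : ℝ) ^ 4 * u ^ 8 * E := by positivity
        linarith

theorem hreal (H : Par δ s sY u U h L N) : (h : ℝ) = U * u ^ 4 := by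
  rw [H.hh]
  push_cast
  ring

theorem Lreal (H : Par δ s sY u U h L N) : (L : ℝ) = 3 * U := by
  rw [H.hL]
  push_cast
  ring

theorem Nreal (H : Par δ s sY u U h L N) : (N : ℝ) = U ^ 2 * u ^ 12 := by
  rw [H.hN]
  push_cast
  ring

/-- exponent comparison for `n ≤ h` -/
theorem expo_small (H : Par δ s sY u U h L N) (n : ℕ) (hn : n ≤ h) :
    δ ^ 2 / 128 * (u : ℝ) ^ 4 ≤ (δ * h) ^ 2 / (4 * (2 * n + 6 * (h * ((L : ℝ) + 1)))) := by
  have hu := H.ur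
  have hU := H.Ur
  have hδ := H.hδ
  have hn' : (n : ℝ) ≤ h := by exact_mod_cast hn
  have hn0 : (0 : ℝ) ≤ n := Nat.cast_nonneg n
  rw [H.hreal] at *
  rw [H.Lreal]
  have hden : 2 * (n : ℝ) + 6 * (U * u ^ 4 * (3 * U + 1)) ≤ 26 * (U ^ 2 * u ^ 4) := by
    have h1 : (U : ℝ) * u ^ 4 ≤ U ^ 2 * u ^ 4 := by
      have : (U : ℝ) ≤ U ^ 2 := by nlinarith
      gcongr
    have h2 : 6 * ((U : ℝ) * u ^ 4 * (3 * U + 1)) = 18 * (U ^ 2 * u ^ 4) + 6 * (U * u ^ 4) := by ring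
    linarith
  have hden0 : 0 < 2 * (n : ℝ) + 6 * (U * u ^ 4 * (3 * U + 1)) := by positivity
  rw [le_div_iff₀ (by positivity)]
  calc δ ^ 2 / 128 * (u : ℝ) ^ 4 * (4 * (2 * n + 6 * (U * u ^ 4 * (3 * U + 1))))
      ≤ δ ^ 2 / 128 * (u : ℝ) ^ 4 * (4 * (26 * (U ^ 2 * u ^ 4))) := by gcongr
    _ = (104 / 128) * (δ ^ 2 * U ^ 2 * u ^ 8) := by ring
    _ ≤ 1 * (δ ^ 2 * U ^ 2 * u ^ 8) := by
        gcongr
        norm_num
    _ = (δ * (U * u ^ 4)) ^ 2 := by ring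

/-- exponent comparison for `n = N` and distance at least `u ^ 4` -/
theorem expo_big (H : Par δ s sY u U h L N) :
    δ ^ 2 / 128 * (u : ℝ) ^ 4 ≤ (δ * h * u ^ 4) ^ 2 / (4 * (2 * N + 6 * (h * ((L : ℝ) + 1)))) := by
  have hu := H.ur
  have hU := H.Ur
  have hδ := H.hδ
  rw [H.hreal, H.Lreal, H.Nreal]
  have hden : 2 * ((U : ℝ) ^ 2 * u ^ 12) + 6 * (U * u ^ 4 * (3 * U + 1)) ≤ 26 * (U ^ 2 * u ^ 12) := by
    have h0 : (u : ℝ) ^ 4 ≤ u ^ 12 := pow_le_pow_right₀ hu (by norm_num)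
    have h1 : (U : ℝ) * u ^ 4 ≤ U ^ 2 * u ^ 12 := by
      have : (U : ℝ) ≤ U ^ 2 := by nlinarith
      gcongr
    have h3 : (U : ℝ) ^ 2 * u ^ 4 ≤ U ^ 2 * u ^ 12 := by gcongr
    have h2 : 6 * ((U : ℝ) * u ^ 4 * (3 * U + 1)) = 18 * (U ^ 2 * u ^ 4) + 6 * (U * u ^ 4) := by ring
    linarith
  have hden0 : 0 < 2 * ((U : ℝ) ^ 2 * u ^ 12) + 6 * (U * u ^ 4 * (3 * U + 1)) := by positivity
  rw [le_div_iff₀ (by positivity)]
  calc δ ^ 2 / 128 * (u : ℝ) ^ 4 * (4 * (2 * ((U : ℝ) ^ 2 * u ^ 12) + 6 * (U * u ^ 4 * (3 * U + 1))))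
      ≤ δ ^ 2 / 128 * (u : ℝ) ^ 4 * (4 * (26 * (U ^ 2 * u ^ 12))) := by gcongr
    _ = (104 / 128) * (δ ^ 2 * U ^ 2 * u ^ 16) := by ring
    _ ≤ 1 * (δ ^ 2 * U ^ 2 * u ^ 16) := by
        gcongr
        norm_num
    _ = (δ * (U * u ^ 4) * u ^ 4) ^ 2 := by ring

theorem off_hyp (H : Par δ s sY u U h L N) (n : ℕ) (ε : ℕ → ℕ) (hε : ∀ i, ε i ≤ 1) (i j : ℕ)
    (hij : j ≠ i) :
    δ * h ≤ |(s * (gx n h ε i : ℕ) + sY * i) - (s * (gx n h ε j : ℕ) + sY * j)| := by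
  have h1 := gap_le H.hδ H.hs0 H.hY0 n h H.h1' ε hε i j
  refine le_trans ?_ h1
  have h2 : (1 : ℝ) ≤ |(i : ℝ) - j| := by
    have h3 : (1 : ℤ) ≤ |(i : ℤ) - j| := by
      apply Int.one_le_abs
      intro h
      exact hij (by omega)
    exact_mod_cast h3
  have h4 : 0 ≤ δ * (h : ℝ) := by
    have := H.hδ
    positivity
  nlinarith

theorem off_small (H : Par δ s sY u U h L N) (n : ℕ) (hn : n ≤ h) (ε : ℕ → ℕ)
    (hε : ∀ i, ε i ≤ 1) (i j : ℕ) (hi : i ≤ L) (hj : j ≤ L) (hij : j ≠ i) :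
    |ip (ker s sY (gx n h ε i) i) (ker s sY (gx n h ε j) j)| ≤
        8 * Real.exp (-(δ ^ 2 / 128 * (u : ℝ) ^ 4)) ∧
    |ip ((w s - 1) * ker s sY (gx n h ε i) i) ((w s - 1) * ker s sY (gx n h ε j) j)| ≤
        8 * Real.exp (-(δ ^ 2 / 128 * (u : ℝ) ^ 4)) := by
  have hD := H.off_hyp n ε hε i j hij
  have hS := sum_le H.s1 H.sY1 n h L H.h1' ε hε i j hi hj
  have hh : (1 : ℝ) ≤ h := by exact_mod_cast H.h1'
  have hS0 : 0 < 2 * (n : ℝ) + 6 * (h * ((L : ℝ) + 1)) := by positivity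
  have hD0 : 0 ≤ δ * (h : ℝ) := by
    have := H.hδ
    positivity
  have he := H.expo_small n hn
  have hexp : Real.exp (-((δ * h) ^ 2 / (4 * (2 * n + 6 * (h * ((L : ℝ) + 1)))))) ≤
      Real.exp (-(δ ^ 2 / 128 * (u : ℝ) ^ 4)) := by
    rw [Real.exp_le_exp]
    linarith
  constructor
  · refine (off0 H.s0 H.s1 H.hY0 H.sY1 _ _ _ _ _ _ hD0 hD hS hS0).trans ?_
    linarith
  · refine (off1 H.s0 H.s1 H.hY0 H.sY1 _ _ _ _ _ _ hD0 hD hS hS0).trans ?_
    linarith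

theorem gx_ge (_H : Par δ s sY u U h L N) (n : ℕ) (ε : ℕ → ℕ) (i : ℕ) :
    (i + 1) * h ≤ gx n h ε i + 1 := by
  unfold gx
  nlinarith

theorem k0 (H : Par δ s sY u U h L N) : KBound s sY h L 1 (fun i => (1 / δ + 1) * aa h i) := by
  intro ε hε i hi
  have e : ∀ j, 1 * W0 s sY h ^ j * w s ^ (h + ε j) = ker s sY (gx 0 h ε j) j := by
    intro j
    rw [← fam0, pow_zero]
  simp_rw [e]
  have hd := diag0 H.hδ H.hs0 H.hs1 H.hY0 H.sY1 (gx 0 h ε i) i (gx 0 h ε i) i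
  have hA := H.AA_le_aa (gx 0 h ε i) i (H.gx_ge 0 ε i)
  have hAp := AA_pos H.hδ (gx 0 h ε i)
  refine (sum_split L i hi _ (1 / δ * aa h i) (8 * Real.exp (-(δ ^ 2 / 128 * (u : ℝ) ^ 4)))
    (by linarith) (fun j hj hij => (H.off_small 0 (Nat.zero_le _) ε hε i j hi hj hij).1)).trans ?_
  have := H.err1 i hi
  linarith

theorem k1gen (H : Par δ s sY u U h L N) (n : ℕ) (hn : n ≤ h) :
    KBound s sY h L ((w s - 1) * w s ^ n) (fun i => ((1 / δ) ^ 3 + 1) * aa h i ^ 3) := by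
  intro ε hε i hi
  simp_rw [fam1]
  have hd := diag1 H.hδ H.hs0 H.hs1 H.hY0 H.sY1 (gx n h ε i) i
  have hA := H.AA_le_aa (gx n h ε i) i (H.gx_ge n ε i)
  have hAp := AA_pos H.hδ (gx n h ε i)
  have hA3 : AA δ (gx n h ε i) ^ 3 ≤ (1 / δ * aa h i) ^ 3 := by gcongr
  refine (sum_split L i hi _ ((1 / δ * aa h i) ^ 3) (8 * Real.exp (-(δ ^ 2 / 128 * (u : ℝ) ^ 4)))
    (hd.trans hA3) (fun j hj hij => (H.off_small n hn ε hε i j hi hj hij).2)).trans ?_
  have := H.err3 i hi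
  have e : (1 / δ * aa h i) ^ 3 = (1 / δ) ^ 3 * aa h i ^ 3 := by ring
  rw [e]
  linarith

theorem AA_N (H : Par δ s sY u U h L N) (g : ℕ) (hg : N ≤ g) :
    AA δ g ≤ 1 / δ * (1 / ((U : ℝ) * u ^ 6)) := by
  unfold AA
  have hδ := H.hδ
  have hu := H.ur
  have hU := H.Ur
  rw [one_div_mul_one_div]
  apply one_div_le_one_div_of_le (by positivity)
  gcongr
  apply Real.le_sqrt_of_sq_le
  have h1 : (N : ℝ) ≤ g := by exact_mod_cast hg
  rw [H.Nreal] at h1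
  calc ((U : ℝ) * u ^ 6) ^ 2 = (U : ℝ) ^ 2 * (u : ℝ) ^ 12 := by ring
    _ ≤ (g : ℝ) + 1 := by linarith

theorem kN (H : Par δ s sY u U h L N) :
    KBound s sY h L (w s ^ N) (fun _ => (1 / δ + 1) * u ^ 4 / ((U : ℝ) * u ^ 6)) := by
  intro ε hε i hi
  simp_rw [fam0]
  have hδ := H.hδ
  have hu := H.ur
  have hU := H.Ur
  have hh : (1 : ℝ) ≤ h := by exact_mod_cast H.h1'
  have hgN : ∀ j, N ≤ gx N h ε j := by
    intro j
    unfold gx
    omega
  have hnear : ∀ j ≤ L, j < i + u ^ 4 → i < j + u ^ 4 →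
      |ip (ker s sY (gx N h ε i) i) (ker s sY (gx N h ε j) j)| ≤
        1 / δ * (1 / ((U : ℝ) * u ^ 6)) / 2 := by
    intro j _ _ _
    refine (diag0 H.hδ H.hs0 H.hs1 H.hY0 H.sY1 _ _ _ _).trans ?_
    have := H.AA_N _ (hgN i)
    linarith
  have hfar : ∀ j ≤ L, ¬ (j < i + u ^ 4 ∧ i < j + u ^ 4) →
      |ip (ker s sY (gx N h ε i) i) (ker s sY (gx N h ε j) j)| ≤
        8 * Real.exp (-(δ ^ 2 / 128 * (u : ℝ) ^ 4)) := by
    intro j hj hfar
    have hgap := gap_le H.hδ H.hs0 H.hY0 N h H.h1' ε hε i j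
    have hdist : (u : ℝ) ^ 4 ≤ |(i : ℝ) - j| := by
      have h3 : i + u ^ 4 ≤ j ∨ j + u ^ 4 ≤ i := by
        by_contra hcon
        push Not at hcon
        exact hfar ⟨by omega, by omega⟩
      rcases h3 with h3 | h3
      · have : (i : ℝ) + u ^ 4 ≤ j := by exact_mod_cast h3
        rw [abs_sub_comm]
        exact le_trans (by linarith) (le_abs_self _)
      · have : (j : ℝ) + u ^ 4 ≤ i := by exact_mod_cast h3
        exact le_trans (by linarith) (le_abs_self _)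
    have hD : δ * h * (u : ℝ) ^ 4 ≤
        |(s * (gx N h ε i : ℕ) + sY * i) - (s * (gx N h ε j : ℕ) + sY * j)| := by
      refine le_trans ?_ hgap
      gcongr
    have hS := sum_le H.s1 H.sY1 N h L H.h1' ε hε i j hi hj
    have hS0 : 0 < 2 * (N : ℝ) + 6 * (h * ((L : ℝ) + 1)) := by positivity
    have he := H.expo_big
    refine (off0 H.s0 H.s1 H.hY0 H.sY1 _ _ _ _ _ _ (by positivity) hD hS hS0).trans ?_
    have : Real.exp (-((δ * h * u ^ 4) ^ 2 / (4 * (2 * N + 6 * (h * ((L : ℝ) + 1)))))) ≤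
      Real.exp (-(δ ^ 2 / 128 * (u : ℝ) ^ 4)) := by
      rw [Real.exp_le_exp]
      linarith
    linarith
  refine (near_split L i (u ^ 4) _ _ _ (by positivity) (by positivity) hnear hfar).trans ?_
  push_cast
  have h1 : ((L : ℝ) + 1) * (8 * Real.exp (-(δ ^ 2 / 128 * (u : ℝ) ^ 4))) ≤ 1 / ((U : ℝ) * u ^ 6) := by
    rw [le_div_iff₀ (by positivity), H.Lreal]
    refine le_trans ?_ H.hexp
    set E := Real.exp (-(δ ^ 2 / 128 * (u : ℝ) ^ 4)) with hE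
    have hEp : 0 < E := Real.exp_pos _
    have h1 : (U : ℝ) ^ 2 * u ^ 6 ≤ U ^ 4 * u ^ 8 := by
      gcongr <;> first | assumption | norm_num
    have h3 : (3 * (U : ℝ) + 1) ≤ 4 * U := by linarith
    calc (3 * (U : ℝ) + 1) * (8 * E) * (U * u ^ 6) ≤ (4 * U) * (8 * E) * (U * u ^ 6) := by gcongr
      _ = 32 * (U ^ 2 * u ^ 6) * E := by ring
      _ ≤ 32 * (U ^ 4 * u ^ 8) * E := by gcongr
      _ ≤ 200 * (U : ℝ) ^ 4 * (u : ℝ) ^ 8 * E := by
          have : 0 ≤ (U : ℝ) ^ 4 * u ^ 8 * E := by positivity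
          linarith
  have h2 : 1 / ((U : ℝ) * u ^ 6) ≤ u ^ 4 / ((U : ℝ) * u ^ 6) := by
    gcongr
    exact one_le_pow₀ hu
  have e1 : 2 * (u : ℝ) ^ 4 * (1 / δ * (1 / ((U : ℝ) * u ^ 6)) / 2) =
      1 / δ * (u ^ 4 / ((U : ℝ) * u ^ 6)) := by
    ring
  have e2 : (1 / δ + 1) * (u : ℝ) ^ 4 / ((U : ℝ) * u ^ 6) =
      1 / δ * (u ^ 4 / ((U : ℝ) * u ^ 6)) + u ^ 4 / ((U : ℝ) * u ^ 6) := by
    ring
  rw [e1, e2]
  linarith

theorem kN1 (H : Par δ s sY u U h L N) (r : ℕ) :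
    ip ((w s - 1) * w s ^ N * W0 s sY h ^ r * w s ^ h)
      ((w s - 1) * w s ^ N * W0 s sY h ^ r * w s ^ h) ≤
      ((1 / δ) ^ 3 * u ^ 4 / ((U : ℝ) * u ^ 6)) * aa h 0 ^ 3 := by
  have e : (w s - 1) * w s ^ N * W0 s sY h ^ r * w s ^ h = (w s - 1) * ker s sY (gx N h (fun _ => 0) r) r := by
    have := fam1 s sY N h (fun _ => 0) r
    simpa using this
  rw [e]
  have hδ := H.hδ
  have hu := H.ur
  have hU := H.Ur
  refine (le_abs_self _).trans ?_
  refine (diag1 H.hδ H.hs0 H.hs1 H.hY0 H.sY1 _ _).trans ?_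
  have hA := H.AA_N (gx N h (fun _ => 0) r) (by unfold gx; omega)
  have hAp := AA_pos H.hδ (gx N h (fun _ => 0) r)
  have hA3 : AA δ (gx N h (fun _ => 0) r) ^ 3 ≤ (1 / δ * (1 / ((U : ℝ) * u ^ 6))) ^ 3 := by gcongr
  refine hA3.trans ?_
  set q : ℝ := √(U : ℝ) with hq
  have hq2 : q ^ 2 = U := Real.sq_sqrt (by positivity)
  have hq0 : 0 ≤ q := Real.sqrt_nonneg _
  have hq1 : 1 ≤ q := by
    rw [hq]
    exact Real.one_le_sqrt.mpr hU
  have haa : aa h 0 = 1 / (q * (u : ℝ) ^ 2) := by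
    unfold aa
    congr 1
    rw [H.hreal, ← hq2]
    have : (((0 : ℕ) : ℝ) + 1) * (q ^ 2 * (u : ℝ) ^ 4) = (q * (u : ℝ) ^ 2) ^ 2 := by
      push_cast
      ring
    rw [this]
    exact Real.sqrt_sq (by positivity)
  rw [haa, ← hq2]
  have e1 : (1 / δ * (1 / (q ^ 2 * (u : ℝ) ^ 6))) ^ 3 = (1 / δ) ^ 3 * (1 / (q ^ 6 * (u : ℝ) ^ 18)) := by
    field_simp
  have e2 : (1 / δ) ^ 3 * (u : ℝ) ^ 4 / (q ^ 2 * (u : ℝ) ^ 6) * (1 / (q * (u : ℝ) ^ 2)) ^ 3
      = (1 / δ) ^ 3 * (1 / (q ^ 5 * (u : ℝ) ^ 8)) := by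
    field_simp
  rw [e1, e2]
  gcongr <;> first | assumption | norm_num

theorem d1 (H : Par δ s sY u U h L N) (r : ℕ) :
    l1 ((w s - 1) * w s ^ (h - 1) * W0 s sY h ^ r) ^ 2 ≤ (1 / δ) ^ 2 * aa h r ^ 2 := by
  have hh := H.h1'
  have e : (w s - 1) * w s ^ (h - 1) * W0 s sY h ^ r
      = (w s - 1) * ker s sY (h - 1 + 2 * h * r) r := by
    unfold W0 ker
    rw [mul_pow, ← pow_mul]
    ring
  rw [e, ← mul_pow]
  have h1 := l1_wm_ker H.hδ H.hs0 H.hs1 H.hY0 H.sY1 (h - 1 + 2 * h * r) r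
  have h2 := H.AA_le_aa (h - 1 + 2 * h * r) r (by
    have : h - 1 + 2 * h * r + 1 = h + 2 * h * r := by omega
    rw [this]
    nlinarith)
  have h3 := l1_nonneg ((w s - 1) * ker s sY (h - 1 + 2 * h * r) r)
  exact pow_le_pow_left₀ h3 (h1.trans h2) 2

theorem nu (H : Par δ s sY u U h L N) :
    ip (w s ^ N) (w s ^ N) ≤ (1 / δ) / ((U : ℝ) * u ^ 6) := by
  have e : w s ^ N = ker s sY N 0 := by
    unfold ker
    rw [pow_zero, mul_one]
  rw [e]
  refine (le_abs_self _).trans ?_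
  refine (diag0 H.hδ H.hs0 H.hs1 H.hY0 H.sY1 _ _ _ _).trans ?_
  have h1 := H.AA_N N le_rfl
  have h2 := AA_pos H.hδ N
  have e2 : (1 / δ) / ((U : ℝ) * u ^ 6) = 1 / δ * (1 / ((U : ℝ) * u ^ 6)) := by ring
  rw [e2]
  linarith

theorem l1_W0_sub (H : Par δ s sY u U h L N) (n : ℕ) :
    l1 (w s ^ n * (W0 s sY h - 1)) ≤ 3 * h * AA δ n := by
  have hgeom : w s ^ (2 * h) - 1 = (∑ j ∈ Finset.range (2 * h), w s ^ j) * (w s - 1) :=
    (geom_sum_mul (w s) (2 * h)).symm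
  have e : w s ^ n * (W0 s sY h - 1) =
      (w s ^ n * (X - 1)) * (C sY * w s ^ (2 * h)) +
        ((w s - 1) * w s ^ n) * ∑ j ∈ Finset.range (2 * h), w s ^ j := by
    have h1 : W0 s sY h - 1 = w s ^ (2 * h) * (w sY - 1) + (w s ^ (2 * h) - 1) := by
      unfold W0
      ring
    rw [h1, hgeom, w_sub_one sY]
    ring
  rw [e]
  refine (l1_add_le _ _).trans ?_
  have h1 := l1_pow_sub H.hδ H.hs0 H.hs1 n
  have h2 := l1_wm H.hδ H.hs0 H.hs1 n
  have h3 : l1 (C sY * w s ^ (2 * h)) ≤ 1 := by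
    rw [l1_C_mul, l1_w_pow H.s0 H.s1, mul_one, abs_of_nonneg H.hY0]
    exact H.sY1
  have h4 : ∀ m : ℕ, l1 (∑ j ∈ Finset.range m, w s ^ j) ≤ m := by
    intro m
    induction m with
    | zero =>
      simp [l1]
    | succ m ih =>
      rw [Finset.sum_range_succ]
      refine (l1_add_le _ _).trans ?_
      rw [l1_w_pow H.s0 H.s1]
      push_cast
      linarith
  have h5 := l1_mul_le (w s ^ n * (X - 1)) (C sY * w s ^ (2 * h))
  have h6 := l1_mul_le ((w s - 1) * w s ^ n) (∑ j ∈ Finset.range (2 * h), w s ^ j)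
  have hA := AA_pos H.hδ n
  have hh : (1 : ℝ) ≤ h := by exact_mod_cast H.h1'
  have h7 : l1 (w s ^ n * (X - 1)) * l1 (C sY * w s ^ (2 * h)) ≤ AA δ n * 1 := by
    have := l1_nonneg (C sY * w s ^ (2 * h))
    gcongr
  have h8 : l1 ((w s - 1) * w s ^ n) * l1 (∑ j ∈ Finset.range (2 * h), w s ^ j)
      ≤ AA δ n * (2 * h) := by
    have h9 := h4 (2 * h)
    push_cast at h9
    have := l1_nonneg (∑ j ∈ Finset.range (2 * h), w s ^ j)
    gcongr
  nlinarith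

theorem mu (H : Par δ s sY u U h L N) (k : ℕ) (hk : 1 ≤ k) (i : ℕ) (hi : i ≤ k) :
    l1 (w s ^ N * (W0 s sY h - 1) ^ i) ≤ (3 * k * (1 / δ) / (u : ℝ) ^ 2) ^ i := by
  rcases Nat.eq_zero_or_pos i with h0 | h0
  · subst h0
    rw [pow_zero, pow_zero, mul_one, l1_w_pow H.s0 H.s1]
  · set n := N / i with hn
    have hsplit : w s ^ N * (W0 s sY h - 1) ^ i = w s ^ (N % i) * (w s ^ n * (W0 s sY h - 1)) ^ i := by
      have : N = N % i + n * i := by
        rw [hn]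
        have := Nat.mod_add_div N i
        nlinarith
      conv_lhs => rw [this]
      rw [pow_add, pow_mul, mul_pow]
      ring
    rw [hsplit]
    refine (l1_mul_le _ _).trans ?_
    rw [l1_w_pow H.s0 H.s1, one_mul]
    refine (l1_pow_le _ _).trans ?_
    apply pow_le_pow_left₀ (l1_nonneg _)
    refine (H.l1_W0_sub n).trans ?_
    have hδ := H.hδ
    have hu := H.ur
    have hU := H.Ur
    have hkr : (1 : ℝ) ≤ k := by exact_mod_cast hk
    have hA : AA δ n ≤ k * (1 / δ) / ((U : ℝ) * u ^ 6) := by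
      unfold AA
      have h1 : (U : ℝ) * u ^ 6 / k ≤ √((n : ℝ) + 1) := by
        apply Real.le_sqrt_of_sq_le
        have h2 : N < i * (n + 1) := by
          rw [hn]
          exact Nat.lt_mul_div_succ N h0
        have h3 : (N : ℝ) ≤ k * ((n : ℝ) + 1) := by
          have h4 : N ≤ k * (n + 1) := by
            have : i * (n + 1) ≤ k * (n + 1) := Nat.mul_le_mul_right _ hi
            omega
          exact_mod_cast h4
        rw [H.Nreal] at h3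
        rw [div_pow, div_le_iff₀ (by positivity)]
        have hn0 : (0 : ℝ) ≤ n := Nat.cast_nonneg n
        calc ((U : ℝ) * (u : ℝ) ^ 6) ^ 2 = (U : ℝ) ^ 2 * (u : ℝ) ^ 12 := by ring
          _ ≤ k * ((n : ℝ) + 1) := h3
          _ ≤ (k : ℝ) ^ 2 * ((n : ℝ) + 1) := by
              have : (k : ℝ) ≤ (k : ℝ) ^ 2 := by nlinarith
              gcongr
          _ = ((n : ℝ) + 1) * (k : ℝ) ^ 2 := by ring
      have h5 : 1 / (δ * √((n : ℝ) + 1)) ≤ 1 / (δ * ((U : ℝ) * u ^ 6 / k)) := by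
        apply one_div_le_one_div_of_le (by positivity)
        gcongr
      refine h5.trans (le_of_eq ?_)
      field_simp
    rw [H.hreal]
    calc 3 * ((U : ℝ) * (u : ℝ) ^ 4) * AA δ n
        ≤ 3 * ((U : ℝ) * (u : ℝ) ^ 4) * (k * (1 / δ) / ((U : ℝ) * u ^ 6)) := by gcongr
      _ = 3 * k * (1 / δ) / (u : ℝ) ^ 2 := by
          field_simp

end Par

end

theorem kernel_bounds {δ : ℝ} (hδ : 0 < δ) (k : ℕ) (hk : 5 ≤ k) :
    ∃ C : ℝ, 1 ≤ C ∧ ∃ u₀ : ℕ, ∀ u : ℕ, u₀ ≤ u → ∀ s sY : ℝ, δ ≤ s → s ≤ 1 - δ → 0 ≤ sY →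
      sY ≤ s →
      KB s sY (u ^ (2 * k - 2)) (3 * u ^ (2 * k - 6)) (u ^ (4 * k)) k C
        (C * (u : ℝ) ^ 4 / (u : ℝ) ^ (2 * k)) (C / (u : ℝ) ^ 2) (C / (u : ℝ) ^ (2 * k)) := by
  set Δ : ℝ := 1 / δ with hΔ
  have hΔ0 : 0 < Δ := by positivity
  have hkr : (5 : ℝ) ≤ k := by exact_mod_cast hk
  set C : ℝ := 1 + 3 * k * (Δ + Δ ^ 2 + Δ ^ 3) with hC
  have hC1 : 1 ≤ C := by
    rw [hC]
    have : 0 ≤ 3 * (k : ℝ) * (Δ + Δ ^ 2 + Δ ^ 3) := by positivity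
    linarith
  -- the exponential beats the polynomial
  have hlim : Filter.Tendsto (fun u : ℕ => 200 * ((u : ℝ) ^ (4 * (2 * k - 6) + 8) *
      Real.exp (-(δ ^ 2 / 128 * (u : ℝ))))) Filter.atTop (nhds 0) := by
    have hb : 0 < δ ^ 2 / 128 := by positivity
    have h1 := tendsto_rpow_mul_exp_neg_mul_atTop_nhds_zero ((4 * (2 * k - 6) + 8 : ℕ) : ℝ)
      (δ ^ 2 / 128) hb
    have h2 := (h1.comp (tendsto_natCast_atTop_atTop (R := ℝ))).const_mul 200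
    rw [mul_zero] at h2
    refine h2.congr (fun u => ?_)
    simp only [Function.comp_apply, Real.rpow_natCast]
    rw [neg_mul]
  obtain ⟨u₁, hu₁⟩ := Filter.eventually_atTop.mp (hlim.eventually (Iic_mem_nhds one_pos))
  obtain ⟨u₂, hu₂⟩ := exists_nat_ge C
  refine ⟨C, hC1, max (max u₁ u₂) 1, ?_⟩
  intro u hu s sY hs0 hs1 hY0 hY1
  have hu1 : u₁ ≤ u := le_trans (le_max_left _ _) (le_trans (le_max_left _ _) hu)
  have hu2 : u₂ ≤ u := le_trans (le_max_right _ _) (le_trans (le_max_left _ _) hu)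
  have hu3 : 1 ≤ u := le_trans (le_max_right _ _) hu
  have hur : (1 : ℝ) ≤ u := by exact_mod_cast hu3
  have hUC : C ≤ (u : ℝ) := hu₂.trans (by exact_mod_cast hu2)
  set U : ℕ := u ^ (2 * k - 6) with hU
  have hexp : 200 * (U : ℝ) ^ 4 * (u : ℝ) ^ 8 * Real.exp (-(δ ^ 2 / 128 * (u : ℝ) ^ 4)) ≤ 1 := by
    have h1 := hu₁ u hu1
    have h1' : 200 * ((u : ℝ) ^ (4 * (2 * k - 6) + 8) * Real.exp (-(δ ^ 2 / 128 * (u : ℝ)))) ≤ 1 := h1
    refine le_trans ?_ h1'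
    have h2 : (u : ℝ) ≤ (u : ℝ) ^ 4 := by
      calc (u : ℝ) = (u : ℝ) ^ 1 := (pow_one _).symm
        _ ≤ (u : ℝ) ^ 4 := pow_le_pow_right₀ hur (by norm_num)
    have h3 : Real.exp (-(δ ^ 2 / 128 * (u : ℝ) ^ 4)) ≤ Real.exp (-(δ ^ 2 / 128 * (u : ℝ))) := by
      rw [Real.exp_le_exp]
      have : δ ^ 2 / 128 * (u : ℝ) ≤ δ ^ 2 / 128 * (u : ℝ) ^ 4 := by gcongr
      linarith
    have h4 : 200 * (U : ℝ) ^ 4 * (u : ℝ) ^ 8 = 200 * (u : ℝ) ^ (4 * (2 * k - 6) + 8) := by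
      rw [hU]
      push_cast
      rw [pow_add, mul_comm 4 (2 * k - 6), pow_mul]
      ring
    rw [h4, mul_assoc]
    gcongr
  have H : Par δ s sY u U (u ^ (2 * k - 2)) (3 * u ^ (2 * k - 6)) (u ^ (4 * k)) :=
    { hδ := hδ, hs0 := hs0, hs1 := hs1, hY0 := hY0, hY1 := hY1, hu := hu3
      hU := Nat.one_le_pow _ _ hu3
      hh := by
        rw [hU, ← pow_add]
        congr 1
        omega
      hL := rfl
      hN := by
        rw [hU, ← pow_mul, ← pow_add]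
        congr 1
        omega
      hexp := hexp }
  have hpow : (U : ℝ) * (u : ℝ) ^ 6 = (u : ℝ) ^ (2 * k) := by
    rw [hU]
    push_cast
    rw [← pow_add]
    congr 1
    omega
  have haa : ∀ i, 0 < aa (u ^ (2 * k - 2)) i := H.aa_pos
  have hkpos : (1 : ℝ) ≤ 3 * k := by linarith
  have hs1k : ∀ x : ℝ, 0 ≤ x → x ≤ 3 * k * x := by
    intro x hx
    nlinarith
  have hc1 : Δ ≤ 3 * k * Δ := hs1k _ hΔ0.le
  have hc2 : Δ ^ 2 ≤ 3 * k * Δ ^ 2 := hs1k _ (by positivity)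
  have hc3 : Δ ^ 3 ≤ 3 * k * Δ ^ 3 := hs1k _ (by positivity)
  have hp1 : 0 < 3 * (k : ℝ) * Δ := by positivity
  have hp2 : 0 < 3 * (k : ℝ) * Δ ^ 2 := by positivity
  have hp3 : 0 < 3 * (k : ℝ) * Δ ^ 3 := by positivity
  have hCe : C = 1 + 3 * k * Δ + 3 * k * Δ ^ 2 + 3 * k * Δ ^ 3 := by
    rw [hC]
    ring
  have C1 : Δ + 1 ≤ C := by linarith
  have C2 : Δ ^ 2 ≤ C := by linarith
  have C3 : Δ ^ 3 + 1 ≤ C := by linarith
  have C4 : 3 * k * Δ ≤ C := by linarith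
  have upos : (0 : ℝ) < (u : ℝ) ^ (2 * k) := by positivity
  exact
    { hs0 := H.s0, hs1 := H.s1, hY0 := hY0, hY1 := H.sY1, hh := H.h1', hC := hC1
      hlam := by positivity
      hmu0 := by positivity
      hmu1 := by
        rw [div_le_one (by positivity)]
        calc C ≤ u := hUC
          _ = (u : ℝ) ^ 1 := (pow_one _).symm
          _ ≤ (u : ℝ) ^ 2 := pow_le_pow_right₀ hur (by norm_num)
      k0 := by
        intro ε hε i hi
        refine (H.k0 ε hε i hi).trans ?_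
        beta_reduce
        have := haa i
        gcongr
      k1 := by
        intro ε hε i hi
        have h := H.k1gen 0 (Nat.zero_le _) ε hε i hi
        rw [pow_zero, mul_one] at h
        refine h.trans ?_
        beta_reduce
        have := haa i
        gcongr
      k1' := by
        intro ε hε i hi
        refine (H.k1gen (u ^ (2 * k - 2) - 1) (Nat.sub_le _ _) ε hε i hi).trans ?_
        beta_reduce
        have := haa i
        gcongr
      d1 := by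
        intro r _
        refine (H.d1 r).trans ?_
        gcongr
      kN := by
        intro ε hε i hi
        refine (H.kN ε hε i hi).trans ?_
        beta_reduce
        rw [hpow]
        gcongr
      kN1 := by
        intro r _
        refine (H.kN1 r).trans ?_
        rw [hpow]
        have := haa 0
        have h5 : Δ ^ 3 ≤ C := by linarith
        gcongr
      hmu := by
        intro i hi
        refine (H.mu k (by omega) i hi).trans ?_
        gcongr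
      hnu := by
        refine H.nu.trans ?_
        rw [hpow]
        have h6 : Δ ≤ C := by linarith
        gcongr }

end Vale.Agent.P321
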