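import Vale.Agent.P321.Words

/-! M3: chaos expansions, hypercontractivity, Hellinger distance. -/

namespace Vale.Agent.P321

variable {α : Type} [Fintype α]

theorem Ex_zero (π : α → ℝ) (f : List α → ℝ) : Ex π 0 f = f [] := by
  simp [Ex]

theorem Ex_succ (π : α → ℝ) (M : ℕ) (f : List α → ℝ) :
    Ex π (M + 1) f = ∑ x, π x * Ex π M (fun σ => f (x :: σ)) := by
  unfold Ex
  rw [← (Fin.consEquiv (fun _ : Fin (M + 1) => α)).sum_comp, Fintype.sum_prod_type]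
  refine Finset.sum_congr rfl fun x _ => ?_
  rw [Finset.mul_sum]
  refine Finset.sum_congr rfl fun v _ => ?_
  simp only [Fin.consEquiv, Equiv.coe_fn_mk, Fin.prod_univ_succ, Fin.cons_zero, Fin.cons_succ,
    List.ofFn_succ]
  ring

theorem hyEx_congr (π : α → ℝ) (M : ℕ) {f g : List α → ℝ}
    (h : ∀ σ : List α, σ.length = M → f σ = g σ) : Ex π M f = Ex π M g := by
  unfold Ex
  refine Finset.sum_congr rfl fun v _ => ?_
  rw [h _ (by simp)]

theorem hyEx_mono (π : α → ℝ) (hπ : ∀ x, 0 ≤ π x) (M : ℕ) {f g : List α → ℝ}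
    (h : ∀ σ : List α, σ.length = M → f σ ≤ g σ) : Ex π M f ≤ Ex π M g := by
  unfold Ex
  refine Finset.sum_le_sum fun v _ => ?_
  exact mul_le_mul_of_nonneg_left (h _ (by simp)) (Finset.prod_nonneg fun i _ => hπ _)

theorem hyEx_add (π : α → ℝ) (M : ℕ) (f g : List α → ℝ) :
    Ex π M (fun σ => f σ + g σ) = Ex π M f + Ex π M g := by
  unfold Ex
  rw [← Finset.sum_add_distrib]
  refine Finset.sum_congr rfl fun v _ => ?_
  ring

theorem Ex_const_mul (π : α → ℝ) (M : ℕ) (a : ℝ) (f : List α → ℝ) :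
    Ex π M (fun σ => a * f σ) = a * Ex π M f := by
  unfold Ex
  rw [Finset.mul_sum]
  refine Finset.sum_congr rfl fun v _ => ?_
  ring

theorem Ex_nonneg (π : α → ℝ) (hπ : ∀ x, 0 ≤ π x) (M : ℕ) {f : List α → ℝ}
    (h : ∀ σ : List α, σ.length = M → 0 ≤ f σ) : 0 ≤ Ex π M f := by
  unfold Ex
  refine Finset.sum_nonneg fun v _ => ?_
  exact mul_nonneg (Finset.prod_nonneg fun i _ => hπ _) (h _ (by simp))

theorem nsq_nonneg {κ : ℝ} (hκ : 0 ≤ κ) (M : ℕ) (c : List Bool → ℝ) : 0 ≤ nsq κ M c := by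
  induction M generalizing c with
  | zero => exact sq_nonneg _
  | succ M ih => exact add_nonneg (ih _) (mul_nonneg hκ (ih _))

theorem nsq_mono {κ κ' : ℝ} (hκ : 0 ≤ κ) (h : κ ≤ κ') (M : ℕ) (c : List Bool → ℝ) :
    nsq κ M c ≤ nsq κ' M c := by
  induction M generalizing c with
  | zero => exact le_rfl
  | succ M ih =>
      exact add_le_add (ih _) (mul_le_mul h (ih _) (nsq_nonneg hκ _ _) (hκ.trans h))

/-- mean of a chaos -/
theorem Ex_chaos (π ψ : α → ℝ) (h1 : ∑ x, π x = 1) (h0 : ∑ x, π x * ψ x = 0) (M : ℕ)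
    (c : List Bool → ℝ) :
    Ex π M (fun σ => chaos ψ c σ) = c (List.replicate M false) := by
  induction M generalizing c with
  | zero => simp [Ex_zero, chaos]
  | succ M ih =>
      rw [Ex_succ]
      simp only [chaos, hyEx_add, Ex_const_mul, ih]
      simp only [mul_add, Finset.sum_add_distrib, ← mul_assoc, ← Finset.sum_mul, h1, h0]
      simp [List.replicate_succ]

/-- second moment of a chaos -/
theorem Ex_chaos_sq (π ψ : α → ℝ) (h1 : ∑ x, π x = 1) (h0 : ∑ x, π x * ψ x = 0) (M : ℕ)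
    (c : List Bool → ℝ) :
    Ex π M (fun σ => chaos ψ c σ ^ 2) = nsq (∑ x, π x * ψ x ^ 2) M c := by
  induction M generalizing c with
  | zero => simp [Ex_zero, chaos, nsq]
  | succ M ih =>
      rw [Ex_succ]
      have key : ∀ x : α, Ex π M (fun σ => chaos ψ c (x :: σ) ^ 2) =
          nsq (∑ x, π x * ψ x ^ 2) M (fun u => c (false :: u)) +
          2 * ψ x * Ex π M (fun σ => chaos ψ (fun u => c (false :: u)) σ *
            chaos ψ (fun u => c (true :: u)) σ) +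
          ψ x ^ 2 * nsq (∑ x, π x * ψ x ^ 2) M (fun u => c (true :: u)) := by
        intro x
        rw [← ih, ← ih, ← Ex_const_mul, ← Ex_const_mul, ← hyEx_add, ← hyEx_add]
        refine hyEx_congr π M fun σ _ => ?_
        simp only [chaos]
        ring
      simp only [key]
      set K := Ex π M (fun σ => chaos ψ (fun u => c (false :: u)) σ *
            chaos ψ (fun u => c (true :: u)) σ) with hK
      have e1 : ∀ x, π x * (nsq (∑ x, π x * ψ x ^ 2) M (fun u => c (false :: u)) +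
          2 * ψ x * K + ψ x ^ 2 * nsq (∑ x, π x * ψ x ^ 2) M (fun u => c (true :: u))) =
          π x * nsq (∑ x, π x * ψ x ^ 2) M (fun u => c (false :: u)) +
          (π x * ψ x) * (2 * K) +
          (π x * ψ x ^ 2) * nsq (∑ x, π x * ψ x ^ 2) M (fun u => c (true :: u)) := by
        intro x; ring
      simp only [e1, Finset.sum_add_distrib, ← Finset.sum_mul, h1, h0]
      simp only [nsq]
      ring

/-- second order Taylor bound -/
theorem taylor_pow (g y m : ℝ) (hg : |g| ≤ m) (hy : |y| ≤ m) (k : ℕ) :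
    |(g + y) ^ (k + 2) - g ^ (k + 2) - (k + 2 : ℝ) * g ^ (k + 1) * y| ≤
      (2 ^ (k + 2) - (k + 2) - 1) * y ^ 2 * m ^ k := by
  have hm : 0 ≤ m := (abs_nonneg g).trans hg
  induction k with
  | zero =>
      have : (g + y) ^ (0 + 2) - g ^ (0 + 2) - ((0 : ℕ) + 2 : ℝ) * g ^ (0 + 1) * y = y ^ 2 := by
        push_cast; ring
      rw [this, abs_of_nonneg (sq_nonneg y)]
      norm_num
  | succ k ih =>
      have e : (g + y) ^ (k + 1 + 2) - g ^ (k + 1 + 2) -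
          ((k + 1 : ℕ) + 2 : ℝ) * g ^ (k + 1 + 1) * y =
          (g + y) * ((g + y) ^ (k + 2) - g ^ (k + 2) - (k + 2 : ℝ) * g ^ (k + 1) * y) +
          (k + 2) * g ^ (k + 1) * y ^ 2 := by
        push_cast; ring
      rw [e]
      have hgy : |g + y| ≤ 2 * m := (abs_add_le g y).trans (by linarith)
      have hC : (0 : ℝ) ≤ (k + 2 : ℝ) := by positivity
      have h1 : |(g + y) * ((g + y) ^ (k + 2) - g ^ (k + 2) - (k + 2 : ℝ) * g ^ (k + 1) * y)| ≤
          2 * m * ((2 ^ (k + 2) - (k + 2) - 1) * y ^ 2 * m ^ k) := by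
        rw [abs_mul]
        exact mul_le_mul hgy ih (abs_nonneg _) (by positivity)
      have h2 : |((k + 2 : ℝ)) * g ^ (k + 1) * y ^ 2| ≤ (k + 2) * m ^ (k + 1) * y ^ 2 := by
        rw [abs_mul, abs_mul, abs_of_nonneg hC, abs_pow, abs_of_nonneg (sq_nonneg y)]
        gcongr
      refine (abs_add_le _ _).trans ((add_le_add h1 h2).trans (le_of_eq ?_))
      push_cast
      ring

theorem scalar_step (g y b : ℝ) (hy : |y| ≤ b) (p : ℕ) (hp : 1 ≤ p) :
    (g + y) ^ (2 * p) ≤ 2 * p * g ^ (2 * p - 1) * y + (g ^ 2 + 4 ^ p * b ^ 2) ^ p := by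
  obtain ⟨q, rfl⟩ : ∃ q, p = q + 1 := ⟨p - 1, by omega⟩
  have hb : 0 ≤ b := (abs_nonneg y).trans hy
  have hyb : y ^ 2 ≤ b ^ 2 := sq_le_sq' (by linarith [neg_abs_le y]) (by linarith [le_abs_self y])
  have hm1 : |g| ≤ √(g ^ 2 + b ^ 2) := by
    rw [← Real.sqrt_sq_eq_abs]; exact Real.sqrt_le_sqrt (by nlinarith)
  have hm2 : |y| ≤ √(g ^ 2 + b ^ 2) := by
    rw [← Real.sqrt_sq_eq_abs]; exact Real.sqrt_le_sqrt (by nlinarith)
  have h := taylor_pow g y _ hm1 hm2 (2 * q)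
  have hs : √(g ^ 2 + b ^ 2) ^ (2 * q) = (g ^ 2 + b ^ 2) ^ q := by
    rw [pow_mul, Real.sq_sqrt (by positivity)]
  rw [hs] at h
  have h' := (abs_le.mp h).2
  have h4 : (2 : ℝ) ^ (2 * q + 2) = 4 ^ (q + 1) := by
    rw [show 2 * q + 2 = 2 * (q + 1) by ring, pow_mul]; norm_num
  rw [h4] at h'
  have h5 : (4 ^ (q + 1) - ((2 * q : ℕ) + 2) - 1 : ℝ) * y ^ 2 * (g ^ 2 + b ^ 2) ^ q ≤
      4 ^ (q + 1) * b ^ 2 * (g ^ 2 + 4 ^ (q + 1) * b ^ 2) ^ q := by
    have h6 : (4 ^ (q + 1) - ((2 * q : ℕ) + 2) - 1 : ℝ) * y ^ 2 ≤ 4 ^ (q + 1) * b ^ 2 := by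
      have : (4 ^ (q + 1) - ((2 * q : ℕ) + 2) - 1 : ℝ) ≤ 4 ^ (q + 1) := by
        have : (0 : ℝ) ≤ ((2 * q : ℕ) : ℝ) := by positivity
        linarith
      calc _ ≤ 4 ^ (q + 1) * y ^ 2 := mul_le_mul_of_nonneg_right this (sq_nonneg y)
        _ ≤ _ := by gcongr
    have h7 : (g ^ 2 + b ^ 2) ^ q ≤ (g ^ 2 + 4 ^ (q + 1) * b ^ 2) ^ q := by
      have : (1 : ℝ) ≤ 4 ^ (q + 1) := one_le_pow₀ (by norm_num)
      gcongr
      nlinarith [sq_nonneg b]
    exact mul_le_mul h6 h7 (by positivity) (by positivity)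
  have h8 : g ^ (2 * q + 2) + 4 ^ (q + 1) * b ^ 2 * (g ^ 2 + 4 ^ (q + 1) * b ^ 2) ^ q ≤
      (g ^ 2 + 4 ^ (q + 1) * b ^ 2) ^ (q + 1) := by
    have e1 : g ^ (2 * q + 2) = g ^ 2 * (g ^ 2) ^ q := by rw [← pow_mul]; ring
    have e2 : (g ^ 2 + 4 ^ (q + 1) * b ^ 2) ^ (q + 1) =
        g ^ 2 * (g ^ 2 + 4 ^ (q + 1) * b ^ 2) ^ q +
          4 ^ (q + 1) * b ^ 2 * (g ^ 2 + 4 ^ (q + 1) * b ^ 2) ^ q := by ring
    have e3 : (g ^ 2) ^ q ≤ (g ^ 2 + 4 ^ (q + 1) * b ^ 2) ^ q := by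
      gcongr
      have : (0 : ℝ) ≤ 4 ^ (q + 1) * b ^ 2 := by positivity
      linarith
    rw [e1, e2]
    have e4 := mul_le_mul_of_nonneg_left e3 (sq_nonneg g)
    linarith
  have e2 : 2 * (q + 1) - 1 = 2 * q + 1 := by omega
  have e3 : 2 * (q + 1) = 2 * q + 2 := by ring
  rw [e2, e3]
  push_cast at h' ⊢
  push_cast at h5
  nlinarith [h', h5, h8]

theorem minkowski_Ex (π : α → ℝ) (hπ : ∀ x, 0 ≤ π x) (M : ℕ) (p : ℕ) (hp : 1 ≤ p)
    (G H : List α → ℝ) (hG : ∀ σ, 0 ≤ G σ) (hH : ∀ σ, 0 ≤ H σ) (κ a b : ℝ) (hκ : 0 ≤ κ)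
    (ha : 0 ≤ a) (hb : 0 ≤ b)
    (hGa : Ex π M (fun σ => G σ ^ p) ≤ a ^ p) (hHb : Ex π M (fun σ => H σ ^ p) ≤ b ^ p) :
    Ex π M (fun σ => (G σ + κ * H σ) ^ p) ≤ (a + κ * b) ^ p := by
  have hp0 : (p : ℝ) ≠ 0 := by positivity
  have hp1 : (1 : ℝ) ≤ p := by exact_mod_cast hp
  set w : (Fin M → α) → ℝ := fun v => ∏ i, π (v i) with hw
  have hw0 : ∀ v, 0 ≤ w v := fun v => Finset.prod_nonneg fun i _ => hπ _
  set r : (Fin M → α) → ℝ := fun v => (w v) ^ (1 / (p : ℝ)) with hr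
  have hr0 : ∀ v, 0 ≤ r v := fun v => Real.rpow_nonneg (hw0 v) _
  have hrp : ∀ v, r v ^ p = w v := by
    intro v
    rw [← Real.rpow_natCast, hr, ← Real.rpow_mul (hw0 v)]
    simp [hp0]
  have key := Real.Lp_add_le_of_nonneg (Finset.univ : Finset (Fin M → α))
    (f := fun v => r v * G (List.ofFn v)) (g := fun v => r v * (κ * H (List.ofFn v))) hp1
    (fun v _ => mul_nonneg (hr0 v) (hG _)) (fun v _ => mul_nonneg (hr0 v) (mul_nonneg hκ (hH _)))
  simp only [Real.rpow_natCast] at key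
  have e1 : ∑ v : Fin M → α, (r v * G (List.ofFn v) + r v * (κ * H (List.ofFn v))) ^ p =
      Ex π M (fun σ => (G σ + κ * H σ) ^ p) := by
    refine Finset.sum_congr rfl fun v _ => ?_
    rw [← mul_add, mul_pow, hrp]
  have e2 : ∑ v : Fin M → α, (r v * G (List.ofFn v)) ^ p = Ex π M (fun σ => G σ ^ p) := by
    refine Finset.sum_congr rfl fun v _ => ?_
    rw [mul_pow, hrp]
  have e3 : ∑ v : Fin M → α, (r v * (κ * H (List.ofFn v))) ^ p =
      κ ^ p * Ex π M (fun σ => H σ ^ p) := by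
    rw [← Ex_const_mul]
    refine Finset.sum_congr rfl fun v _ => ?_
    rw [mul_pow, hrp, mul_pow]
  rw [e1, e2, e3] at key
  have i1 : (Ex π M (fun σ => G σ ^ p)) ^ (1 / (p : ℝ)) ≤ a := by
    calc _ ≤ (a ^ p) ^ (1 / (p : ℝ)) :=
          Real.rpow_le_rpow (Ex_nonneg π hπ M fun σ _ => pow_nonneg (hG σ) _) hGa (by positivity)
      _ = a := by rw [one_div, Real.pow_rpow_inv_natCast ha (by omega)]
  have i2 : (κ ^ p * Ex π M (fun σ => H σ ^ p)) ^ (1 / (p : ℝ)) ≤ κ * b := by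
    calc _ ≤ ((κ * b) ^ p) ^ (1 / (p : ℝ)) := by
          refine Real.rpow_le_rpow (mul_nonneg (pow_nonneg hκ _)
            (Ex_nonneg π hπ M fun σ _ => pow_nonneg (hH σ) _)) ?_ (by positivity)
          rw [mul_pow]
          exact mul_le_mul_of_nonneg_left hHb (pow_nonneg hκ _)
      _ = κ * b := by rw [one_div, Real.pow_rpow_inv_natCast (mul_nonneg hκ hb) (by omega)]
  have hnn : 0 ≤ Ex π M (fun σ => (G σ + κ * H σ) ^ p) :=
    Ex_nonneg π hπ M fun σ _ => pow_nonneg (add_nonneg (hG σ) (mul_nonneg hκ (hH σ))) _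
  have i3 : (Ex π M (fun σ => (G σ + κ * H σ) ^ p)) ^ (1 / (p : ℝ)) ≤ a + κ * b :=
    key.trans (add_le_add i1 i2)
  calc Ex π M (fun σ => (G σ + κ * H σ) ^ p)
      = ((Ex π M (fun σ => (G σ + κ * H σ) ^ p)) ^ (1 / (p : ℝ))) ^ p := by
        rw [one_div, Real.rpow_inv_natCast_pow hnn (by omega)]
    _ ≤ (a + κ * b) ^ p := pow_le_pow_left₀ (Real.rpow_nonneg hnn _) i3 p

/-- higher moments of a chaos.  (One step: for all reals `g, h`,
`∑ x, π x * (g + ψ x * h) ^ (2 * p) ≤ (g ^ 2 + 4 ^ p * B ^ 2 * h ^ 2) ^ p`; then Minkowski in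
`L^p`.) -/
theorem Ex_chaos_pow (π ψ : α → ℝ) (hπ : ∀ x, 0 ≤ π x) (h1 : ∑ x, π x = 1)
    (h0 : ∑ x, π x * ψ x = 0) (B : ℝ) (hB : ∀ x, |ψ x| ≤ B) (p : ℕ) (hp : 1 ≤ p) (M : ℕ)
    (c : List Bool → ℝ) :
    Ex π M (fun σ => chaos ψ c σ ^ (2 * p)) ≤ (nsq (4 ^ p * B ^ 2) M c) ^ p := by
  have hκ : (0 : ℝ) ≤ 4 ^ p * B ^ 2 := by positivity
  induction M generalizing c with
  | zero => simp [Ex_zero, chaos, nsq, pow_mul]
  | succ M ih =>
      rw [Ex_succ]
      have step : ∑ x, π x * Ex π M (fun σ => chaos ψ c (x :: σ) ^ (2 * p)) ≤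
          Ex π M (fun σ => (chaos ψ (fun u => c (false :: u)) σ ^ 2 +
            4 ^ p * B ^ 2 * chaos ψ (fun u => c (true :: u)) σ ^ 2) ^ p) := by
        have e : ∑ x, π x * Ex π M (fun σ => chaos ψ c (x :: σ) ^ (2 * p)) =
            Ex π M (fun σ => ∑ x, π x * chaos ψ c (x :: σ) ^ (2 * p)) := by
          unfold Ex
          simp only [Finset.mul_sum]
          rw [Finset.sum_comm]
          refine Finset.sum_congr rfl fun v _ => Finset.sum_congr rfl fun x _ => ?_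
          ring
        rw [e]
        refine hyEx_mono π hπ M fun σ _ => ?_
        set g := chaos ψ (fun u => c (false :: u)) σ
        set h := chaos ψ (fun u => c (true :: u)) σ
        have hx : ∀ x, π x * chaos ψ c (x :: σ) ^ (2 * p) ≤
            π x * ψ x * (2 * p * g ^ (2 * p - 1) * h) +
              π x * (g ^ 2 + 4 ^ p * B ^ 2 * h ^ 2) ^ p := by
          intro x
          have hy : |ψ x * h| ≤ B * |h| := by
            rw [abs_mul]; exact mul_le_mul_of_nonneg_right (hB x) (abs_nonneg _)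
          have := scalar_step g (ψ x * h) (B * |h|) hy p hp
          rw [mul_pow, sq_abs, ← mul_assoc] at this
          have h2 := mul_le_mul_of_nonneg_left this (hπ x)
          calc π x * chaos ψ c (x :: σ) ^ (2 * p) = π x * (g + ψ x * h) ^ (2 * p) := rfl
            _ ≤ _ := h2
            _ = _ := by ring
        refine (Finset.sum_le_sum fun x _ => hx x).trans (le_of_eq ?_)
        rw [Finset.sum_add_distrib, ← Finset.sum_mul, ← Finset.sum_mul, h0, h1]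
        ring
      refine step.trans ?_
      have a1 := ih (fun u => c (false :: u))
      have a2 := ih (fun u => c (true :: u))
      simp only [pow_mul] at a1 a2
      exact minkowski_Ex π hπ M p hp _ _ (fun σ => sq_nonneg _) (fun σ => sq_nonneg _) _ _ _ hκ
        (nsq_nonneg hκ _ _) (nsq_nonneg hκ _ _) a1 a2

omit [Fintype α] in
theorem chaos_sub (ψ : α → ℝ) (c c' : List Bool → ℝ) (σ : List α) :
    chaos ψ (fun u => c u - c' u) σ = chaos ψ c σ - chaos ψ c' σ := by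
  induction σ generalizing c c' with
  | nil => rfl
  | cons x σ ih => simp only [chaos, ih]; ring

omit [Fintype α] in
theorem chaos_zero (ψ : α → ℝ) (σ : List α) : chaos ψ (fun _ => 0) σ = 0 := by
  induction σ with
  | nil => rfl
  | cons x σ ih => simp only [chaos, ih]; ring

/-- the coefficient function of a constant -/
def cst (P : ℝ) : List Bool → ℝ
  | [] => P
  | b :: u => if b then 0 else cst P u

omit [Fintype α] in
theorem chaos_cst (ψ : α → ℝ) (P : ℝ) (σ : List α) : chaos ψ (cst P) σ = P := by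
  induction σ with
  | nil => rfl
  | cons x σ ih =>
      simp only [chaos, cst, Bool.false_eq_true, if_false, if_true]
      have e : (fun u => cst P u) = cst P := rfl
      rw [e, ih, chaos_zero]
      ring

theorem nsq_sub_cst (κ P : ℝ) (M : ℕ) (c : List Bool → ℝ)
    (hc : c (List.replicate M false) = P) :
    nsq κ M (fun u => c u - cst P u) = nsq κ M c - P ^ 2 := by
  induction M generalizing c with
  | zero =>
      simp only [List.replicate_zero] at hc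
      simp [nsq, cst, hc]
  | succ M ih =>
      simp only [nsq, cst, Bool.false_eq_true, if_false, if_true, sub_zero]
      rw [ih (fun u => c (false :: u)) (by simpa [List.replicate_succ] using hc)]
      ring

theorem hell_point (f f' P0 : ℝ) (hf : 0 ≤ f) (hf' : 0 ≤ f') (hP0 : 0 < P0) (p : ℕ) :
    (√f - √f') ^ 2 ≤ 5 / P0 * (f - f') ^ 2 + P0 * (16 / 9 * (f - P0) ^ 2 / P0 ^ 2) ^ p := by
  have hs : √f ^ 2 = f := Real.sq_sqrt hf
  have hs' : √f' ^ 2 = f' := Real.sq_sqrt hf'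
  have n1 := Real.sqrt_nonneg f
  have n2 := Real.sqrt_nonneg f'
  have hT1 : 0 ≤ 5 / P0 * (f - f') ^ 2 := by positivity
  have hT2 : 0 ≤ P0 * (16 / 9 * (f - P0) ^ 2 / P0 ^ 2) ^ p := by positivity
  by_cases h : P0 / 5 ≤ f + f'
  · have h1 : (f - f') ^ 2 = (√f - √f') ^ 2 * (√f + √f') ^ 2 := by
      rw [← mul_pow, ← hs, ← hs']
      simp only [hs, hs']
      have : (√f - √f') * (√f + √f') = √f ^ 2 - √f' ^ 2 := by ring
      rw [this, hs, hs']
    have h2 : P0 / 5 ≤ (√f + √f') ^ 2 := by nlinarith [mul_nonneg n1 n2]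
    have h3 : (√f - √f') ^ 2 ≤ 5 / P0 * (f - f') ^ 2 := by
      rw [h1]
      have h4 : 1 ≤ 5 / P0 * (√f + √f') ^ 2 := by
        have := mul_le_mul_of_nonneg_left h2 (by positivity : 0 ≤ 5 / P0)
        have e : 5 / P0 * (P0 / 5) = 1 := by field_simp
        linarith
      nlinarith [sq_nonneg (√f - √f')]
    linarith
  · push Not at h
    have h1 : (√f - √f') ^ 2 ≤ P0 := by nlinarith [mul_nonneg n1 n2]
    have h2 : 1 ≤ 16 / 9 * (f - P0) ^ 2 / P0 ^ 2 := by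
      rw [le_div_iff₀ (by positivity)]
      have h5 : 4 / 5 * P0 ≤ P0 - f := by linarith
      have h6 : (4 / 5 * P0) ^ 2 ≤ (P0 - f) ^ 2 := pow_le_pow_left₀ (by positivity) h5 2
      nlinarith
    have h3 : 1 ≤ (16 / 9 * (f - P0) ^ 2 / P0 ^ 2) ^ p := one_le_pow₀ h2
    nlinarith

/-- Hellinger distance of two nonnegative chaoses.  On `f + f' ≥ P0 / 5` use
`(√f - √f')² ≤ (f - f')² / (f + f')`, elsewhere `|f - P0| ≥ 3/4 P0` and Markov. -/
theorem hellinger_chaos (π ψ : α → ℝ) (hπ : ∀ x, 0 ≤ π x) (h1 : ∑ x, π x = 1)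
    (h0 : ∑ x, π x * ψ x = 0) (B : ℝ) (hB : ∀ x, |ψ x| ≤ B) (p : ℕ) (hp : 1 ≤ p) (M : ℕ)
    (c c' : List Bool → ℝ) (hc : ∀ σ : List α, 0 ≤ chaos ψ c σ)
    (hc' : ∀ σ : List α, 0 ≤ chaos ψ c' σ) (P0 : ℝ) (hP0 : 0 < P0)
    (hcP : c (List.replicate M false) = P0) :
    Ex π M (fun σ => (√(chaos ψ c σ) - √(chaos ψ c' σ)) ^ 2) ≤
      5 / P0 * nsq (∑ x, π x * ψ x ^ 2) M (fun u => c u - c' u) +
      P0 * ((16 / 9) * (nsq (4 ^ p * B ^ 2) M c - P0 ^ 2) / P0 ^ 2) ^ p := by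
  have hstep : Ex π M (fun σ => (√(chaos ψ c σ) - √(chaos ψ c' σ)) ^ 2) ≤
      Ex π M (fun σ => 5 / P0 * chaos ψ (fun u => c u - c' u) σ ^ 2 +
        (P0 * (16 / 9 / P0 ^ 2) ^ p) * chaos ψ (fun u => c u - cst P0 u) σ ^ (2 * p)) := by
    refine hyEx_mono π hπ M fun σ _ => ?_
    refine (hell_point _ _ P0 (hc σ) (hc' σ) hP0 p).trans (le_of_eq ?_)
    rw [chaos_sub, chaos_sub, chaos_cst, pow_mul]
    have : (16 / 9 * (chaos ψ c σ - P0) ^ 2 / P0 ^ 2) ^ p =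
        (16 / 9 / P0 ^ 2) ^ p * ((chaos ψ c σ - P0) ^ 2) ^ p := by
      rw [← mul_pow]; congr 1; ring
    rw [this]; ring
  refine hstep.trans ?_
  rw [hyEx_add, Ex_const_mul, Ex_const_mul, Ex_chaos_sq π ψ h1 h0]
  have h2 := Ex_chaos_pow π ψ hπ h1 h0 B hB p hp M (fun u => c u - cst P0 u)
  rw [nsq_sub_cst _ _ _ _ hcP] at h2
  have h3 : (P0 * (16 / 9 / P0 ^ 2) ^ p) *
      Ex π M (fun σ => chaos ψ (fun u => c u - cst P0 u) σ ^ (2 * p)) ≤
      (P0 * (16 / 9 / P0 ^ 2) ^ p) * (nsq (4 ^ p * B ^ 2) M c - P0 ^ 2) ^ p :=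
    mul_le_mul_of_nonneg_left h2 (by positivity)
  have h4 : (P0 * (16 / 9 / P0 ^ 2) ^ p) * (nsq (4 ^ p * B ^ 2) M c - P0 ^ 2) ^ p =
      P0 * ((16 / 9) * (nsq (4 ^ p * B ^ 2) M c - P0 ^ 2) / P0 ^ 2) ^ p := by
    rw [mul_assoc, ← mul_pow]; congr 2; ring
  rw [← h4]
  linarith

end Vale.Agent.P321
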