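import Vale.Agent.P321.Words

/-! M2: estimates for binomial kernels, as polynomials `w s ^ g`. -/

namespace Vale.Agent.P321

open Polynomial

theorem l1_eq_sum (P : ℝ[X]) (n : ℕ) (hn : P.natDegree < n) :
    l1 P = ∑ i ∈ Finset.range n, |P.coeff i| := by
  unfold l1
  exact P.sum_over_range' (fun _ => abs_zero) n hn

theorem l1_nonneg (P : ℝ[X]) : 0 ≤ l1 P := by
  rw [l1_eq_sum P (P.natDegree + 1) (Nat.lt_succ_self _)]
  exact Finset.sum_nonneg (fun _ _ => abs_nonneg _)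

theorem l1_add_le (P Q : ℝ[X]) : l1 (P + Q) ≤ l1 P + l1 Q := by
  set n := P.natDegree + Q.natDegree + (P + Q).natDegree + 1 with hn
  rw [l1_eq_sum P n (by omega), l1_eq_sum Q n (by omega), l1_eq_sum (P + Q) n (by omega),
    ← Finset.sum_add_distrib]
  apply Finset.sum_le_sum
  intro i _
  rw [coeff_add]
  exact abs_add_le _ _

theorem l1_neg (P : ℝ[X]) : l1 (-P) = l1 P := by
  set n := P.natDegree + 1 with hn
  rw [l1_eq_sum P n (by omega), l1_eq_sum (-P) n (by rw [natDegree_neg]; omega)]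
  apply Finset.sum_congr rfl
  intro i _
  rw [coeff_neg, abs_neg]

theorem l1_sub_le (P Q : ℝ[X]) : l1 (P - Q) ≤ l1 P + l1 Q := by
  rw [sub_eq_add_neg]
  refine (l1_add_le _ _).trans ?_
  rw [l1_neg]

theorem l1_C_mul (a : ℝ) (P : ℝ[X]) : l1 (C a * P) = |a| * l1 P := by
  set n := P.natDegree + (C a * P).natDegree + 1 with hn
  rw [l1_eq_sum P n (by omega), l1_eq_sum (C a * P) n (by omega), Finset.mul_sum]
  apply Finset.sum_congr rfl
  intro i _
  rw [coeff_C_mul, abs_mul]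

/-- for nonnegative coefficients the `ℓ¹` norm is the value at `1` -/
theorem l1_eq_eval (P : ℝ[X]) (hP : ∀ i, 0 ≤ P.coeff i) : l1 P = P.eval 1 := by
  rw [l1_eq_sum P (P.natDegree + 1) (by omega), eval_eq_sum_range' (n := P.natDegree + 1) (by omega)]
  apply Finset.sum_congr rfl
  intro i _
  rw [one_pow, mul_one, abs_of_nonneg (hP i)]

noncomputable def absP (P : ℝ[X]) : ℝ[X] := ∑ i ∈ P.support, monomial i |P.coeff i|

theorem coeff_absP (P : ℝ[X]) (i : ℕ) : (absP P).coeff i = |P.coeff i| := by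
  classical
  unfold absP
  rw [finsetSum_coeff]
  simp only [coeff_monomial]
  rw [Finset.sum_ite_eq' P.support i]
  split_ifs with h
  · rfl
  · rw [notMem_support_iff.mp h, abs_zero]

theorem l1_eq_eval_absP (P : ℝ[X]) : l1 P = (absP P).eval 1 := by
  have h1 : l1 P = l1 (absP P) := by
    set n := P.natDegree + (absP P).natDegree + 1 with hn
    rw [l1_eq_sum P n (by omega), l1_eq_sum (absP P) n (by omega)]
    apply Finset.sum_congr rfl
    intro i _
    rw [coeff_absP, abs_abs]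
  rw [h1, l1_eq_eval]
  intro i
  rw [coeff_absP]
  exact abs_nonneg _

theorem l1_mul_le (P Q : ℝ[X]) : l1 (P * Q) ≤ l1 P * l1 Q := by
  rw [l1_eq_eval_absP P, l1_eq_eval_absP Q, ← eval_mul]
  set n := (P * Q).natDegree + (absP P * absP Q).natDegree + 1 with hn
  rw [l1_eq_sum (P * Q) n (by omega), eval_eq_sum_range' (n := n) (by omega)]
  apply Finset.sum_le_sum
  intro k _
  rw [one_pow, mul_one, coeff_mul, coeff_mul]
  refine (Finset.abs_sum_le_sum_abs _ _).trans (le_of_eq ?_)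
  apply Finset.sum_congr rfl
  intro x _
  rw [coeff_absP, coeff_absP, abs_mul]

theorem l1_one : l1 (1 : ℝ[X]) = 1 := by
  rw [l1_eq_sum 1 1 (by simp)]
  simp

theorem l1_pow_le (P : ℝ[X]) (n : ℕ) : l1 (P ^ n) ≤ l1 P ^ n := by
  induction n with
  | zero => rw [pow_zero, pow_zero, l1_one]
  | succ n ih =>
    rw [pow_succ, pow_succ]
    exact (l1_mul_le _ _).trans (mul_le_mul_of_nonneg_right ih (l1_nonneg _))

theorem coeff_le_l1 (P : ℝ[X]) (i : ℕ) : |P.coeff i| ≤ l1 P := by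
  rw [l1_eq_sum P (P.natDegree + i + 1) (by omega)]
  exact Finset.single_le_sum (f := fun i => |P.coeff i|) (fun _ _ => abs_nonneg _)
    (Finset.mem_range.mpr (by omega))

/-- `ip` as a sum over a range -/
theorem ip_eq_sum (P Q : ℝ[X]) (n : ℕ) (hn : P.natDegree < n) :
    ip P Q = ∑ i ∈ Finset.range n, P.coeff i * Q.coeff i := by
  unfold ip
  exact P.sum_over_range' (f := fun i a => a * Q.coeff i) (fun _ => zero_mul _) n hn

theorem ip_comm (P Q : ℝ[X]) : ip P Q = ip Q P := by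
  set n := P.natDegree + Q.natDegree + 1 with hn
  rw [ip_eq_sum P Q n (by omega), ip_eq_sum Q P n (by omega)]
  apply Finset.sum_congr rfl
  intro i _
  rw [mul_comm]

theorem ip_add_left (P P' Q : ℝ[X]) : ip (P + P') Q = ip P Q + ip P' Q := by
  set n := P.natDegree + P'.natDegree + (P + P').natDegree + 1 with hn
  rw [ip_eq_sum P Q n (by omega), ip_eq_sum P' Q n (by omega), ip_eq_sum (P + P') Q n (by omega),
    ← Finset.sum_add_distrib]
  apply Finset.sum_congr rfl
  intro i _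
  rw [coeff_add, add_mul]

theorem ip_le_sup (P Q : ℝ[X]) (c : ℝ) (h : ∀ i, |P.coeff i| ≤ c) : |ip P Q| ≤ c * l1 Q := by
  set n := P.natDegree + Q.natDegree + 1 with hn
  rw [ip_eq_sum P Q n (by omega), l1_eq_sum Q n (by omega), Finset.mul_sum]
  refine (Finset.abs_sum_le_sum_abs _ _).trans ?_
  apply Finset.sum_le_sum
  intro i _
  rw [abs_mul]
  exact mul_le_mul_of_nonneg_right (h i) (abs_nonneg _)

theorem coeff_mul_le_sup (P Q : ℝ[X]) (c : ℝ) (h : ∀ i, |P.coeff i| ≤ c) (j : ℕ) :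
    |(P * Q).coeff j| ≤ c * l1 Q := by
  have hc : 0 ≤ c := (abs_nonneg _).trans (h 0)
  rw [mul_comm P Q, coeff_mul,
    Finset.Nat.sum_antidiagonal_eq_sum_range_succ (fun a b => Q.coeff a * P.coeff b)]
  refine (Finset.abs_sum_le_sum_abs _ _).trans ?_
  rw [l1_eq_sum Q (Q.natDegree + j + 1) (by omega), Finset.mul_sum]
  have h1 : ∑ i ∈ Finset.range j.succ, |Q.coeff i * P.coeff (j - i)| ≤
      ∑ i ∈ Finset.range j.succ, c * |Q.coeff i| := by
    apply Finset.sum_le_sum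
    intro i _
    rw [abs_mul, mul_comm]
    exact mul_le_mul_of_nonneg_right (h _) (abs_nonneg _)
  refine h1.trans ?_
  apply Finset.sum_le_sum_of_subset_of_nonneg
  · intro i hi
    rw [Finset.mem_range] at hi ⊢
    omega
  · intro i _ _
    exact mul_nonneg hc (abs_nonneg _)

theorem coeff_mul_nonneg (P Q : ℝ[X]) (hP : ∀ i, 0 ≤ P.coeff i) (hQ : ∀ i, 0 ≤ Q.coeff i)
    (j : ℕ) : 0 ≤ (P * Q).coeff j := by
  rw [coeff_mul]
  exact Finset.sum_nonneg (fun x _ => mul_nonneg (hP _) (hQ _))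

theorem coeff_pow_nonneg (P : ℝ[X]) (hP : ∀ i, 0 ≤ P.coeff i) (n : ℕ) (j : ℕ) :
    0 ≤ (P ^ n).coeff j := by
  induction n generalizing j with
  | zero =>
    rw [pow_zero, coeff_one]
    split_ifs <;> norm_num
  | succ n ih =>
    rw [pow_succ]
    exact coeff_mul_nonneg _ _ ih hP j

theorem w_coeff (s : ℝ) (j : ℕ) : (w s).coeff j = if j = 0 then 1 - s else if j = 1 then s else 0 := by
  unfold w
  rw [coeff_add, coeff_C, coeff_C_mul, coeff_X]
  rcases j with _ | _ | j <;> simp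

theorem w_coeff_nonneg {s : ℝ} (h0 : 0 ≤ s) (h1 : s ≤ 1) (j : ℕ) : 0 ≤ (w s).coeff j := by
  rw [w_coeff]
  split_ifs <;> linarith

theorem w_eval (s x : ℝ) : (w s).eval x = 1 - s + s * x := by
  unfold w
  simp

theorem l1_w_pow {s : ℝ} (h0 : 0 ≤ s) (h1 : s ≤ 1) (g : ℕ) : l1 (w s ^ g) = 1 := by
  rw [l1_eq_eval _ (coeff_pow_nonneg _ (w_coeff_nonneg h0 h1) g), eval_pow, w_eval]
  simp

theorem w_derivative (s : ℝ) : derivative (w s) = C s := by
  unfold w
  simp

/-- the Stein identity for the binomial law -/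
theorem stein (s : ℝ) (g : ℕ) :
    X * derivative (w s ^ (g + 1)) - C (((g : ℝ) + 1) * s) * w s ^ (g + 1) =
      C (((g : ℝ) + 1) * s * (1 - s)) * (w s ^ g * (X - 1)) := by
  rw [derivative_pow_succ, w_derivative]
  have hw : w s = C (1 - s) + C s * X := rfl
  have h2 : w s ^ (g + 1) = w s ^ g * (C (1 - s) + C s * X) := by rw [pow_succ]; congr 1
  rw [h2]
  have h3 : (C (((g : ℝ) + 1) * s) : ℝ[X]) = (C (g : ℝ) + 1) * C s := by simp
  have h4 : (C (((g : ℝ) + 1) * s * (1 - s)) : ℝ[X]) = (C (g : ℝ) + 1) * C s * C (1 - s) := by simp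
  have h5 : (C (1 - s) : ℝ[X]) = 1 - C s := by simp
  rw [h3, h4, h5]
  have h6 : (C (((g : ℝ) + 1)) : ℝ[X]) = C (g : ℝ) + 1 := by simp
  rw [h6]
  ring

theorem stein_coeff (s : ℝ) (g j : ℕ) :
    ((j : ℝ) - ((g : ℝ) + 1) * s) * (w s ^ (g + 1)).coeff j =
      ((g : ℝ) + 1) * s * (1 - s) * (w s ^ g * (X - 1)).coeff j := by
  have h := congrArg (fun P => P.coeff j) (stein s g)
  simp only [coeff_sub, coeff_C_mul] at h
  rw [← h]
  have h1 : (X * derivative (w s ^ (g + 1))).coeff j = j * (w s ^ (g + 1)).coeff j := by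
    rcases j with _ | j
    · simp
    · rw [coeff_X_mul, coeff_derivative]
      push_cast
      ring
  rw [h1]
  ring

theorem binom_var (s : ℝ) (g n : ℕ) (hn : (w s ^ (g + 1)).natDegree < n) (hn' : (w s ^ g * (X - 1)).natDegree + 1 < n) :
    ∑ j ∈ Finset.range n, ((j : ℝ) - ((g : ℝ) + 1) * s) ^ 2 * (w s ^ (g + 1)).coeff j =
      ((g : ℝ) + 1) * s * (1 - s) := by
  have h1 : ∀ j ∈ Finset.range n, ((j : ℝ) - ((g : ℝ) + 1) * s) ^ 2 * (w s ^ (g + 1)).coeff j =
      ((g : ℝ) + 1) * s * (1 - s) * ((X * derivative (w s ^ g * (X - 1)) ).coeff j * 1 ^ j -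
        ((g : ℝ) + 1) * s * ((w s ^ g * (X - 1)).coeff j * 1 ^ j)) := by
    intro j _
    rw [one_pow, mul_one, mul_one, sq, mul_assoc, stein_coeff]
    have h2 : (X * derivative (w s ^ g * (X - 1))).coeff j = (j : ℝ) * (w s ^ g * (X - 1)).coeff j := by
      rcases j with _ | j
      · simp
      · rw [coeff_X_mul, coeff_derivative]
        push_cast
        ring
    rw [h2]
    ring
  rw [Finset.sum_congr rfl h1, ← Finset.mul_sum, Finset.sum_sub_distrib, ← Finset.mul_sum]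
  rw [← eval_eq_sum_range' (n := n) (p := X * derivative (w s ^ g * (X - 1))),
    ← eval_eq_sum_range' (n := n) (p := w s ^ g * (X - 1)) (by omega)]
  · rw [derivative_mul]
    simp [w_eval]
  · refine lt_of_le_of_lt (natDegree_mul_le.trans ?_) hn'
    have := natDegree_derivative_le (w s ^ g * (X - 1))
    rw [natDegree_X]
    omega

/-- total variation of a binomial law, from
`b_g(j-1) - b_g(j) = b_{g+1}(j) (j - (g+1)s) / ((g+1)s(1-s))` and the binomial variance -/
theorem l1_w_pow_mul_sub {s : ℝ} (h0 : 0 < s) (h1 : s < 1) (g : ℕ) :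
    l1 (w s ^ g * (X - 1)) ≤ 1 / √(((g : ℝ) + 1) * s * (1 - s)) := by
  set V := ((g : ℝ) + 1) * s * (1 - s) with hV
  have hV0 : 0 < V := by
    have : 0 < 1 - s := by linarith
    positivity
  set n := (w s ^ (g + 1)).natDegree + (w s ^ g * (X - 1)).natDegree + 2 with hn
  have hvar := binom_var s g n (by omega) (by omega)
  rw [l1_eq_sum _ n (by omega)]
  have hb : ∀ j, 0 ≤ (w s ^ (g + 1)).coeff j := coeff_pow_nonneg _ (w_coeff_nonneg h0.le h1.le) _
  have hsum : ∑ j ∈ Finset.range n, (w s ^ (g + 1)).coeff j = 1 := by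
    have := l1_w_pow h0.le h1.le (g + 1)
    rw [l1_eq_sum _ n (by omega)] at this
    rw [← this]
    apply Finset.sum_congr rfl
    intro j _
    rw [abs_of_nonneg (hb j)]
  have h2 : ∀ j ∈ Finset.range n, |(w s ^ g * (X - 1)).coeff j| =
      1 / V * (|(j : ℝ) - ((g : ℝ) + 1) * s| * (w s ^ (g + 1)).coeff j) := by
    intro j _
    have h3 := stein_coeff s g j
    rw [← hV] at h3
    have h4 : (w s ^ g * (X - 1)).coeff j = 1 / V * (((j : ℝ) - ((g : ℝ) + 1) * s) * (w s ^ (g + 1)).coeff j) := by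
      rw [h3]; field_simp
    rw [h4, abs_mul, abs_mul, abs_of_nonneg (hb j), abs_of_pos (by positivity : 0 < 1 / V)]
  rw [Finset.sum_congr rfl h2, ← Finset.mul_sum]
  have h5 : (∑ j ∈ Finset.range n, |(j : ℝ) - ((g : ℝ) + 1) * s| * (w s ^ (g + 1)).coeff j) ^ 2 ≤ V := by
    have h6 : ∀ j ∈ Finset.range n, |(j : ℝ) - ((g : ℝ) + 1) * s| * (w s ^ (g + 1)).coeff j =
        (|(j : ℝ) - ((g : ℝ) + 1) * s| * √((w s ^ (g + 1)).coeff j)) * √((w s ^ (g + 1)).coeff j) := by
      intro j _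
      rw [mul_assoc, Real.mul_self_sqrt (hb j)]
    rw [Finset.sum_congr rfl h6]
    refine (Finset.sum_mul_sq_le_sq_mul_sq _ _ _).trans ?_
    have h7 : ∑ j ∈ Finset.range n, (|(j : ℝ) - ((g : ℝ) + 1) * s| * √((w s ^ (g + 1)).coeff j)) ^ 2 = V := by
      rw [hV, ← hvar]
      apply Finset.sum_congr rfl
      intro j _
      rw [mul_pow, Real.sq_sqrt (hb j), sq_abs]
    have h8 : ∑ j ∈ Finset.range n, √((w s ^ (g + 1)).coeff j) ^ 2 = 1 := by
      rw [← hsum]
      apply Finset.sum_congr rfl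
      intro j _
      rw [Real.sq_sqrt (hb j)]
    rw [h7, h8, mul_one]
  have h9 : (∑ j ∈ Finset.range n, |(j : ℝ) - ((g : ℝ) + 1) * s| * (w s ^ (g + 1)).coeff j) ≤ √V :=
    Real.le_sqrt_of_sq_le h5
  have hsV : 0 < √V := Real.sqrt_pos.mpr hV0
  calc 1 / V * (∑ j ∈ Finset.range n, |(j : ℝ) - ((g : ℝ) + 1) * s| * (w s ^ (g + 1)).coeff j)
      ≤ 1 / V * √V := by gcongr
    _ = 1 / √V := by
        rw [div_mul_eq_mul_div, one_mul, div_eq_div_iff hV0.ne' hsV.ne', Real.mul_self_sqrt hV0.le, one_mul]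

theorem two_coeff_le (P : ℝ[X]) (j : ℕ) : 2 * |P.coeff j| ≤ l1 (P * (X - 1)) := by
  have hpart : ∀ m, ∑ i ∈ Finset.range (m + 1), (P * (X - 1)).coeff i = - P.coeff m := by
    intro m
    induction m with
    | zero => simp [mul_sub]
    | succ m ih =>
      rw [Finset.sum_range_succ, ih, mul_sub, coeff_sub, mul_one, coeff_mul_X]
      ring
  set n := (P * (X - 1)).natDegree + P.natDegree + j + 1 with hn
  have hfull : ∑ i ∈ Finset.range (n + 1), (P * (X - 1)).coeff i = 0 := by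
    rw [hpart, coeff_eq_zero_of_natDegree_lt (by omega), neg_zero]
  rw [l1_eq_sum _ (n + 1) (by omega)]
  have hsplit : ∀ f : ℕ → ℝ, ∑ i ∈ Finset.range (n + 1), f i =
      ∑ i ∈ Finset.range (j + 1), f i + ∑ i ∈ Finset.Ico (j + 1) (n + 1), f i := by
    intro f
    rw [Finset.sum_range_add_sum_Ico]
    omega
  rw [hsplit] at hfull ⊢
  rw [hpart] at hfull
  have h1 : |P.coeff j| ≤ ∑ i ∈ Finset.range (j + 1), |(P * (X - 1)).coeff i| := by
    rw [← abs_neg, ← hpart]
    exact Finset.abs_sum_le_sum_abs _ _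
  have h2 : |P.coeff j| ≤ ∑ i ∈ Finset.Ico (j + 1) (n + 1), |(P * (X - 1)).coeff i| := by
    have : P.coeff j = ∑ i ∈ Finset.Ico (j + 1) (n + 1), (P * (X - 1)).coeff i := by linarith
    rw [this]
    exact Finset.abs_sum_le_sum_abs _ _
  linarith

theorem w_pow_coeff_le {s : ℝ} (h0 : 0 < s) (h1 : s < 1) (g j : ℕ) :
    (w s ^ g).coeff j ≤ 1 / (2 * √(((g : ℝ) + 1) * s * (1 - s))) := by
  have h2 := two_coeff_le (w s ^ g) j
  have h3 := l1_w_pow_mul_sub h0 h1 g
  have h4 := le_abs_self ((w s ^ g).coeff j)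
  have h5 : 1 / (2 * √(((g : ℝ) + 1) * s * (1 - s))) = (1 / √(((g : ℝ) + 1) * s * (1 - s))) / 2 := by
    rw [div_div, mul_comm]
  rw [h5]
  linarith

/-- exponential moment bound for the overlap of two nonnegative polynomials -/
theorem ip_le_eval (P Q : ℝ[X]) (hP : ∀ i, 0 ≤ P.coeff i) (hQ : ∀ i, 0 ≤ Q.coeff i) (x : ℝ)
    (hx : 0 < x) : ip P Q ≤ P.eval x * Q.eval x⁻¹ := by
  set n := P.natDegree + Q.natDegree + 1 with hn
  rw [ip_eq_sum P Q n (by omega), eval_eq_sum_range' (n := n) (by omega),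
    eval_eq_sum_range' (n := n) (by omega), Finset.sum_mul_sum]
  apply Finset.sum_le_sum
  intro i hi
  have h1 : P.coeff i * Q.coeff i = P.coeff i * x ^ i * (Q.coeff i * x⁻¹ ^ i) := by
    rw [inv_pow]
    have : x ^ i ≠ 0 := by positivity
    field_simp
  rw [h1]
  exact Finset.single_le_sum (f := fun j => P.coeff i * x ^ i * (Q.coeff j * x⁻¹ ^ j))
    (fun j _ => mul_nonneg (mul_nonneg (hP i) (by positivity)) (mul_nonneg (hQ j) (by positivity))) hi

theorem eval_w_exp_le {s : ℝ} (h0 : 0 ≤ s) (u : ℝ) (hu : |u| ≤ 1) :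
    (w s).eval (Real.exp u) ≤ Real.exp (s * (u + u ^ 2)) := by
  rw [w_eval]
  have h1 := Real.abs_exp_sub_one_sub_id_le hu
  have h2 : Real.exp u ≤ 1 + u + u ^ 2 := by
    have := le_abs_self (Real.exp u - 1 - u)
    linarith
  have h3 := Real.add_one_le_exp (s * (u + u ^ 2))
  nlinarith

theorem w_mul_coeff (s : ℝ) (P : ℝ[X]) (j : ℕ) :
    (w s * P).coeff j = (1 - s) * P.coeff j + s * (X * P).coeff j := by
  have : w s * P = C (1 - s) * P + C s * (X * P) := by
    unfold w; ring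
  rw [this, coeff_add, coeff_C_mul, coeff_C_mul]

theorem coeff_X_mul_derivative (P : ℝ[X]) (j : ℕ) :
    (X * derivative P).coeff j = (j : ℝ) * P.coeff j := by
  rcases j with _ | j
  · simp
  · rw [coeff_X_mul, coeff_derivative]
    push_cast
    ring

/-- ratio of consecutive binomial probabilities -/
theorem binom_ratio (s : ℝ) (n j : ℕ) :
    ((j : ℝ) + 1) * (1 - s) * (w s ^ n).coeff (j + 1) = ((n : ℝ) - j) * s * (w s ^ n).coeff j := by
  have h1 : w s * derivative (w s ^ n) = C ((n : ℝ) * s) * w s ^ n := by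
    rcases n with _ | n
    · simp
    · rw [derivative_pow_succ, w_derivative]
      have h3 : (C (((n + 1 : ℕ) : ℝ) * s) : ℝ[X]) = C ((n : ℝ) + 1) * C s := by simp
      rw [h3]
      ring
  have h2 : (w s * derivative (w s ^ n)).coeff j = (C ((n : ℝ) * s) * w s ^ n).coeff j := by rw [h1]
  rw [w_mul_coeff, coeff_C_mul, coeff_X_mul_derivative, coeff_derivative] at h2
  linear_combination h2

theorem card_window (x r : ℝ) (hr : 0 ≤ r) (N : ℕ) :
    (((Finset.range N).filter (fun j : ℕ => |(j : ℝ) - x| ≤ r)).card : ℝ) ≤ 2 * r + 1 := by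
  classical
  set S := (Finset.range N).filter (fun j : ℕ => |(j : ℝ) - x| ≤ r) with hS
  rcases S.eq_empty_or_nonempty with h | h
  · rw [h]; simp; linarith
  · have h1 : S ⊆ Finset.Icc (S.min' h) (S.max' h) := by
      intro j hj
      rw [Finset.mem_Icc]
      exact ⟨S.min'_le j hj, S.le_max' j hj⟩
    have h2 := Finset.card_le_card h1
    rw [Nat.card_Icc] at h2
    have h5 : S.min' h ≤ S.max' h := S.min'_le _ (S.max'_mem h)
    have h3 := (Finset.mem_filter.mp (S.min'_mem h)).2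
    have h4 := (Finset.mem_filter.mp (S.max'_mem h)).2
    have h6 := (abs_le.mp h3).1
    have h7 := (abs_le.mp h4).2
    have h8 : (S.card : ℝ) + (S.min' h : ℕ) ≤ (S.max' h : ℕ) + 1 := by
      exact_mod_cast (by omega : S.card + S.min' h ≤ S.max' h + 1)
    linarith

theorem one_sub_ge_exp (y : ℝ) (h0 : 0 ≤ y) (h1 : y ≤ 1 / 2) : Real.exp (-(2 * y)) ≤ 1 - y := by
  rw [Real.exp_neg]
  have h2 := Real.add_one_le_exp (2 * y)
  have h3 : (Real.exp (2 * y))⁻¹ ≤ (2 * y + 1)⁻¹ := inv_anti₀ (by linarith) h2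
  refine h3.trans ?_
  rw [inv_le_iff_one_le_mul₀ (by linarith)]
  nlinarith

/-- there is an atom of mass `≥ 1/(4√n)` within `√n` of the mean -/
theorem exists_atom {s : ℝ} (h0 : 0 < s) (h1 : s < 1) (n : ℕ) (hn : 1 ≤ n) :
    ∃ j₀ : ℕ, |(j₀ : ℝ) - s * n| ≤ √(n : ℝ) ∧ 1 / (4 * √(n : ℝ)) ≤ (w s ^ n).coeff j₀ := by
  classical
  obtain ⟨g, rfl⟩ : ∃ g, n = g + 1 := ⟨n - 1, by omega⟩
  set r := √((g + 1 : ℕ) : ℝ) with hr
  have hn1 : (1 : ℝ) ≤ ((g + 1 : ℕ) : ℝ) := by exact_mod_cast hn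
  have hr1 : 1 ≤ r := by rw [hr]; exact Real.one_le_sqrt.mpr hn1
  have hrr : r * r = ((g + 1 : ℕ) : ℝ) := Real.mul_self_sqrt (by positivity)
  set N := (w s ^ (g + 1)).natDegree + (w s ^ g * (X - 1)).natDegree + 2 with hN
  have hvar := binom_var s g N (by omega) (by omega)
  have hb : ∀ j, 0 ≤ (w s ^ (g + 1)).coeff j := coeff_pow_nonneg _ (w_coeff_nonneg h0.le h1.le) _
  have hsum : ∑ j ∈ Finset.range N, (w s ^ (g + 1)).coeff j = 1 := by
    have := l1_w_pow h0.le h1.le (g + 1)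
    rw [l1_eq_sum _ N (by omega)] at this
    rw [← this]
    apply Finset.sum_congr rfl
    intro j _
    rw [abs_of_nonneg (hb j)]
  by_contra hcon
  push Not at hcon
  set S := (Finset.range N).filter (fun j : ℕ => |(j : ℝ) - s * ((g + 1 : ℕ) : ℝ)| ≤ r) with hS
  have hsplit := Finset.sum_filter_add_sum_filter_not (Finset.range N)
    (fun j : ℕ => |(j : ℝ) - s * ((g + 1 : ℕ) : ℝ)| ≤ r) (fun j => (w s ^ (g + 1)).coeff j)
  rw [hsum, ← hS] at hsplit
  have hA : ∑ j ∈ S, (w s ^ (g + 1)).coeff j ≤ S.card * (1 / (4 * r)) := by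
    rw [← nsmul_eq_mul, ← Finset.sum_const]
    apply Finset.sum_le_sum
    intro j hj
    rw [hS, Finset.mem_filter] at hj
    exact (hcon j hj.2).le
  have hcard := card_window (s * ((g + 1 : ℕ) : ℝ)) r (by linarith) N
  rw [← hS] at hcard
  have hA' : ∑ j ∈ S, (w s ^ (g + 1)).coeff j ≤ 3 / 4 := by
    refine hA.trans ?_
    calc (S.card : ℝ) * (1 / (4 * r)) ≤ (3 * r) * (1 / (4 * r)) := by
          gcongr
          linarith
      _ = 3 / 4 := by field_simp
  have hA'' : ∑ j ∈ S, (w s ^ (g + 1)).coeff j < 3 / 4 ∨ S = ∅ := by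
    rcases S.eq_empty_or_nonempty with h | h
    · right; exact h
    · left
      have : ∑ j ∈ S, (w s ^ (g + 1)).coeff j < ∑ j ∈ S, (1 / (4 * r)) := by
        apply Finset.sum_lt_sum_of_nonempty h
        intro j hj
        rw [hS, Finset.mem_filter] at hj
        exact hcon j hj.2
      rw [Finset.sum_const, nsmul_eq_mul] at this
      refine lt_of_lt_of_le this ?_
      calc (S.card : ℝ) * (1 / (4 * r)) ≤ (3 * r) * (1 / (4 * r)) := by
            gcongr
            linarith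
        _ = 3 / 4 := by field_simp
  have hB : ∑ j ∈ (Finset.range N).filter (fun j : ℕ => ¬ |(j : ℝ) - s * ((g + 1 : ℕ) : ℝ)| ≤ r),
      (w s ^ (g + 1)).coeff j ≤ 1 / 4 := by
    have hB1 : ((g + 1 : ℕ) : ℝ) * ∑ j ∈ (Finset.range N).filter (fun j : ℕ => ¬ |(j : ℝ) - s * ((g + 1 : ℕ) : ℝ)| ≤ r),
      (w s ^ (g + 1)).coeff j ≤ ((g : ℝ) + 1) * s * (1 - s) := by
      rw [← hvar, Finset.mul_sum]
      refine le_trans ?_ (Finset.sum_le_sum_of_subset_of_nonneg
        (Finset.filter_subset (fun j : ℕ => ¬ |(j : ℝ) - s * ((g + 1 : ℕ) : ℝ)| ≤ r) (Finset.range N)) ?_)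
      · apply Finset.sum_le_sum
        intro j hj
        rw [Finset.mem_filter, not_le] at hj
        apply mul_le_mul_of_nonneg_right _ (hb j)
        rw [← hrr]
        have h3 := hj.2
        have h4 : |(j : ℝ) - s * ((g + 1 : ℕ) : ℝ)| ^ 2 = ((j : ℝ) - ((g : ℝ) + 1) * s) ^ 2 := by
          rw [sq_abs]; push_cast; ring
        rw [← h4]
        nlinarith
      · intro j _ _
        exact mul_nonneg (sq_nonneg _) (hb j)
    have hB2 : ((g : ℝ) + 1) * s * (1 - s) ≤ ((g + 1 : ℕ) : ℝ) * (1 / 4) := by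
      push_cast
      have : s * (1 - s) ≤ 1 / 4 := by nlinarith [sq_nonneg (s - 1 / 2)]
      have hg : (0 : ℝ) ≤ (g : ℝ) + 1 := by positivity
      nlinarith
    exact le_of_mul_le_mul_left (hB1.trans hB2) (by linarith)
  rcases hA'' with h | h
  · linarith
  · rw [h, Finset.sum_empty] at hsplit
    linarith

theorem ratio_step {δ s B : ℝ} (hδ : 0 < δ) (hs0 : δ ≤ s) (hs1 : s ≤ 1 - δ) (hB : 1 ≤ B) (n j : ℕ)
    (hn : 1 ≤ n) (hn2 : 2 * B / δ ≤ √(n : ℝ))
    (hj : |(j : ℝ) - s * n| ≤ B * √(n : ℝ)) :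
    (1 - 2 * (B + 1) / δ ^ 2 / √(n : ℝ)) * (w s ^ n).coeff j ≤ (w s ^ n).coeff (j + 1) ∧
    (1 - 2 * (B + 1) / δ ^ 2 / √(n : ℝ)) * (w s ^ n).coeff (j + 1) ≤ (w s ^ n).coeff j := by
  set r := √(n : ℝ) with hr
  have hn1 : (1 : ℝ) ≤ (n : ℝ) := by exact_mod_cast hn
  have hr1 : 1 ≤ r := by rw [hr]; exact Real.one_le_sqrt.mpr hn1
  have hrr : r * r = (n : ℝ) := Real.mul_self_sqrt (by positivity)
  have hb : ∀ j, 0 ≤ (w s ^ n).coeff j :=
    coeff_pow_nonneg _ (w_coeff_nonneg (by linarith) (by linarith)) _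
  have hrat := binom_ratio s n j
  obtain ⟨hj1, hj2⟩ := abs_le.mp hj
  have hBr : B * r ≤ n * δ / 2 := by
    rw [div_le_iff₀ hδ] at hn2
    rw [← hrr]
    nlinarith
  set P := ((n : ℝ) - j) * s with hP
  set R := ((j : ℝ) + 1) * (1 - s) with hR
  have hj0 : (0 : ℝ) ≤ j := Nat.cast_nonneg j
  have hRlow : (n : ℝ) * δ ^ 2 / 2 ≤ R := by
    have e1 : n * δ / 2 ≤ (j : ℝ) + 1 := by nlinarith
    have e2 : δ ≤ 1 - s := by linarith
    calc (n : ℝ) * δ ^ 2 / 2 = (n * δ / 2) * δ := by ring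
      _ ≤ ((j : ℝ) + 1) * (1 - s) := mul_le_mul e1 e2 hδ.le (by linarith)
  have hPlow : (n : ℝ) * δ ^ 2 / 2 ≤ P := by
    have e1 : n * δ / 2 ≤ (n : ℝ) - j := by nlinarith
    have e3 : 0 ≤ n * δ / 2 := by positivity
    calc (n : ℝ) * δ ^ 2 / 2 = (n * δ / 2) * δ := by ring
      _ ≤ ((n : ℝ) - j) * s := mul_le_mul e1 hs0 hδ.le (by linarith)
  have hPR : P - R = s * n - j - (1 - s) := by rw [hP, hR]; ring
  have hnpos : 0 < (n : ℝ) * δ ^ 2 / 2 := by positivity
  have hPR1 : P - R ≤ (B + 1) * r := by rw [hPR]; nlinarith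
  have hPR2 : R - P ≤ (B + 1) * r := by
    have : R - P = -(P - R) := by ring
    rw [this, hPR]; nlinarith
  have hC : ∀ Z : ℝ, (n : ℝ) * δ ^ 2 / 2 ≤ Z → (B + 1) * r ≤ 2 * (B + 1) / δ ^ 2 / r * Z := by
    intro Z hZ
    have e1 : 2 * (B + 1) / δ ^ 2 / r * ((n : ℝ) * δ ^ 2 / 2) = (B + 1) * r := by
      rw [← hrr]
      field_simp
    rw [← e1]
    apply mul_le_mul_of_nonneg_left hZ
    positivity
  have hRpos : 0 < R := lt_of_lt_of_le hnpos hRlow
  have hPpos : 0 < P := lt_of_lt_of_le hnpos hPlow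
  constructor
  · have h1 : (1 - 2 * (B + 1) / δ ^ 2 / r) * R ≤ P := by
      have := hC R hRlow
      linarith
    have h2 : R * ((1 - 2 * (B + 1) / δ ^ 2 / r) * (w s ^ n).coeff j) ≤ R * (w s ^ n).coeff (j + 1) := by
      rw [hrat]
      calc R * ((1 - 2 * (B + 1) / δ ^ 2 / r) * (w s ^ n).coeff j)
          = ((1 - 2 * (B + 1) / δ ^ 2 / r) * R) * (w s ^ n).coeff j := by ring
        _ ≤ P * (w s ^ n).coeff j := mul_le_mul_of_nonneg_right h1 (hb j)
    exact le_of_mul_le_mul_left h2 hRpos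
  · have h1 : (1 - 2 * (B + 1) / δ ^ 2 / r) * P ≤ R := by
      have := hC P hPlow
      linarith
    have h2 : P * ((1 - 2 * (B + 1) / δ ^ 2 / r) * (w s ^ n).coeff (j + 1)) ≤ P * (w s ^ n).coeff j := by
      rw [← hrat]
      calc P * ((1 - 2 * (B + 1) / δ ^ 2 / r) * (w s ^ n).coeff (j + 1))
          = ((1 - 2 * (B + 1) / δ ^ 2 / r) * P) * (w s ^ n).coeff (j + 1) := by ring
        _ ≤ R * (w s ^ n).coeff (j + 1) := mul_le_mul_of_nonneg_right h1 (hb (j + 1))
    exact le_of_mul_le_mul_left h2 hPpos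

/-- local lower bound for the binomial law in the bulk -/
theorem w_pow_coeff_ge {δ : ℝ} (hδ : 0 < δ) (A : ℝ) : ∃ c > 0, ∃ n₀ : ℕ, ∀ n ≥ n₀, ∀ s : ℝ,
    δ ≤ s → s ≤ 1 - δ → ∀ k : ℕ, |(k : ℝ) - s * n| ≤ A * √(n : ℝ) →
      c / √(n : ℝ) ≤ (w s ^ n).coeff k := by
  set B := max A 1 with hB
  have hB1 : 1 ≤ B := le_max_right _ _
  have hBA : A ≤ B := le_max_left _ _
  set D := 2 * (B + 1) / δ ^ 2 with hD
  have hD0 : 0 < D := by positivity
  have htend : Filter.Tendsto (fun n : ℕ => √(n : ℝ)) Filter.atTop Filter.atTop :=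
    Real.tendsto_sqrt_atTop.comp tendsto_natCast_atTop_atTop
  obtain ⟨n₀, hn₀⟩ := ((htend.eventually_ge_atTop (2 * B / δ)).and
    ((htend.eventually_ge_atTop (2 * D)).and (Filter.eventually_ge_atTop 1))).exists_forall_of_atTop
  refine ⟨Real.exp (-(4 * B * D)) / 4, by positivity, n₀, ?_⟩
  intro n hn s hs0 hs1 k hk
  obtain ⟨hn1, hn2, hn3⟩ := hn₀ n hn
  obtain ⟨j₀, hj1, hj2⟩ := exists_atom (s := s) (by linarith) (by linarith) n hn3
  set r := √(n : ℝ) with hr
  have hr0 : 0 < r := lt_of_lt_of_le (by positivity) hn2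
  have hb : ∀ j, 0 ≤ (w s ^ n).coeff j :=
    coeff_pow_nonneg _ (w_coeff_nonneg (by linarith) (by linarith)) _
  have hj1' : |(j₀ : ℝ) - s * n| ≤ B * r := hj1.trans (by nlinarith)
  have hk' : |(k : ℝ) - s * n| ≤ B * r := hk.trans (by nlinarith)
  have hDr : D / r ≤ 1 / 2 := by
    rw [div_le_iff₀ hr0]; linarith
  have hDr0 : 0 ≤ D / r := by positivity
  have hρ : Real.exp (-(2 * (D / r))) ≤ 1 - D / r := one_sub_ge_exp _ hDr0 hDr
  have hρ0 : 0 < 1 - D / r := by linarith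
  obtain ⟨a1, a2⟩ := abs_le.mp hj1'
  obtain ⟨b1, b2⟩ := abs_le.mp hk'
  -- main comparison
  have hcmp : ∃ m : ℕ, (m : ℝ) ≤ 2 * B * r ∧ (1 - D / r) ^ m * (w s ^ n).coeff j₀ ≤ (w s ^ n).coeff k := by
    rcases le_total j₀ k with h | h
    · refine ⟨k - j₀, ?_, ?_⟩
      · rw [Nat.cast_sub h]; linarith
      · have hind : ∀ m : ℕ, j₀ + m ≤ k → (1 - D / r) ^ m * (w s ^ n).coeff j₀ ≤ (w s ^ n).coeff (j₀ + m) := by
          intro m
          induction m with
          | zero => intro _; simp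
          | succ m ih =>
            intro hm
            have h1 := ih (by omega)
            have hmk : ((j₀ + m : ℕ) : ℝ) ≤ k := by exact_mod_cast (by omega : j₀ + m ≤ k)
            have hmj : (j₀ : ℝ) ≤ ((j₀ + m : ℕ) : ℝ) := by exact_mod_cast (by omega : j₀ ≤ j₀ + m)
            have h2 := (ratio_step hδ hs0 hs1 hB1 n (j₀ + m) hn3 hn1 (by
              rw [abs_le]; constructor <;> linarith)).1
            calc (1 - D / r) ^ (m + 1) * (w s ^ n).coeff j₀
                = (1 - D / r) * ((1 - D / r) ^ m * (w s ^ n).coeff j₀) := by ring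
              _ ≤ (1 - D / r) * (w s ^ n).coeff (j₀ + m) := by gcongr
              _ ≤ _ := h2
        have := hind (k - j₀) (by omega)
        rwa [show j₀ + (k - j₀) = k by omega] at this
    · refine ⟨j₀ - k, ?_, ?_⟩
      · rw [Nat.cast_sub h]; linarith
      · have hind : ∀ m : ℕ, k + m ≤ j₀ → (1 - D / r) ^ m * (w s ^ n).coeff (k + m) ≤ (w s ^ n).coeff k := by
          intro m
          induction m with
          | zero => intro _; simp
          | succ m ih =>
            intro hm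
            have h1 := ih (by omega)
            have hmk : ((k + m : ℕ) : ℝ) ≤ j₀ := by exact_mod_cast (by omega : k + m ≤ j₀)
            have hmj : (k : ℝ) ≤ ((k + m : ℕ) : ℝ) := by exact_mod_cast (by omega : k ≤ k + m)
            have h2 := (ratio_step hδ hs0 hs1 hB1 n (k + m) hn3 hn1 (by
              rw [abs_le]; constructor <;> linarith)).2
            calc (1 - D / r) ^ (m + 1) * (w s ^ n).coeff (k + (m + 1))
                = (1 - D / r) ^ m * ((1 - D / r) * (w s ^ n).coeff (k + m + 1)) := by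
                  rw [← add_assoc]; ring
              _ ≤ (1 - D / r) ^ m * (w s ^ n).coeff (k + m) := by
                  apply mul_le_mul_of_nonneg_left h2
                  positivity
              _ ≤ _ := h1
        have := hind (j₀ - k) (by omega)
        rwa [show k + (j₀ - k) = j₀ by omega] at this
  obtain ⟨m, hm1, hm2⟩ := hcmp
  have hexp : Real.exp (-(4 * B * D)) ≤ (1 - D / r) ^ m := by
    calc Real.exp (-(4 * B * D)) ≤ Real.exp (m * (-(2 * (D / r)))) := by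
          apply Real.exp_le_exp.mpr
          have e1 : (m : ℝ) * (2 * (D / r)) ≤ 2 * B * r * (2 * (D / r)) := by gcongr
          have e2 : 2 * B * r * (2 * (D / r)) = 4 * B * D := by field_simp; norm_num
          linarith
      _ = Real.exp (-(2 * (D / r))) ^ m := by rw [← Real.exp_nat_mul]
      _ ≤ (1 - D / r) ^ m := pow_le_pow_left₀ (Real.exp_pos _).le hρ m
  calc Real.exp (-(4 * B * D)) / 4 / r = Real.exp (-(4 * B * D)) * (1 / (4 * r)) := by
        field_simp
    _ ≤ (1 - D / r) ^ m * (w s ^ n).coeff j₀ := by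
        apply mul_le_mul hexp hj2 (by positivity) (by positivity)
    _ ≤ _ := hm2

theorem coeff_le_eval (P : ℝ[X]) (hP : ∀ i, 0 ≤ P.coeff i) (x : ℝ) (hx : 0 < x) (M : ℕ) :
    P.coeff M * x ^ M ≤ P.eval x := by
  rw [eval_eq_sum_range' (n := P.natDegree + M + 1) (by omega)]
  exact Finset.single_le_sum (f := fun i => P.coeff i * x ^ i)
    (fun i _ => mul_nonneg (hP i) (by positivity)) (Finset.mem_range.mpr (by omega))

/-- exponential tails (used in `Reduction.lean`); Chernoff: the coefficient at `M` is at most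
`x ^ (-M)` times the value at `x`. -/
theorem tail {s : ℝ} (h0 : 0 < s) (h1 : s < 1) : ∃ δ c : ℝ, 0 < δ ∧ δ < 1 / 2 ∧ 0 < c ∧
    ∀ (a b M : ℕ) (sY : ℝ), 0 ≤ sY → sY ≤ 1 → b ≤ a → M ≤ a + b →
      ((M : ℝ) < δ * (a + b) ∨ (1 - δ) * (a + b) < (M : ℝ)) →
      (w s ^ a * w sY ^ b).coeff M ≤ Real.exp (-c * (a + b)) := by
  set ρ := max (1 - s / 2) ((1 + s) / 2) with hρ
  have hρ0 : 0 < ρ := lt_max_of_lt_left (by linarith)
  have hρ1 : ρ < 1 := max_lt (by linarith) (by linarith)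
  have hρa : 1 - s / 2 ≤ ρ := le_max_left _ _
  have hρb : (1 + s) / 2 ≤ ρ := le_max_right _ _
  set L := -Real.log ρ with hL
  have hL0 : 0 < L := by
    have := Real.log_neg hρ0 hρ1
    linarith
  have hl2 : 0 < Real.log 2 := Real.log_pos (by norm_num)
  set δ := min (1 / 4) (L / (4 * Real.log 2)) with hδ
  have hδ0 : 0 < δ := lt_min (by norm_num) (by positivity)
  have hδ1 : δ < 1 / 2 := lt_of_le_of_lt (min_le_left _ _) (by norm_num)
  have hδL : δ * Real.log 2 ≤ L / 4 := by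
    have : δ ≤ L / (4 * Real.log 2) := min_le_right _ _
    rw [le_div_iff₀ (by positivity)] at this
    linarith
  refine ⟨δ, L / 4, hδ0, hδ1, by positivity, ?_⟩
  intro a b M sY hY0 hY1 hba hM hcase
  have hP : ∀ i, 0 ≤ (w s ^ a * w sY ^ b).coeff i :=
    coeff_mul_nonneg _ _ (coeff_pow_nonneg _ (w_coeff_nonneg h0.le h1.le) _)
      (coeff_pow_nonneg _ (w_coeff_nonneg hY0 hY1) _)
  have hba' : (b : ℝ) ≤ a := by exact_mod_cast hba
  have hb0 : (0 : ℝ) ≤ b := Nat.cast_nonneg b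
  have hρpow : ρ ^ a ≤ Real.exp (-(L / 2) * (a + b)) := by
    rw [← Real.exp_log hρ0, ← Real.exp_nat_mul]
    apply Real.exp_le_exp.mpr
    have : Real.log ρ = -L := by rw [hL]; ring
    rw [this]
    nlinarith
  rcases hcase with h | h
  · have h2 := coeff_le_eval _ hP (1 / 2) (by norm_num) M
    rw [eval_mul, eval_pow, eval_pow, w_eval, w_eval] at h2
    have h3 : (1 - s + s * (1 / 2)) ^ a ≤ ρ ^ a := pow_le_pow_left₀ (by linarith) (by linarith) a
    have h4 : (1 - sY + sY * (1 / 2)) ^ b ≤ 1 := pow_le_one₀ (by linarith) (by linarith)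
    have h5 : (0 : ℝ) ≤ (1 - sY + sY * (1 / 2)) ^ b := pow_nonneg (by linarith) _
    have h6 : (w s ^ a * w sY ^ b).coeff M * (1 / 2) ^ M ≤ Real.exp (-(L / 2) * (a + b)) := by
      refine h2.trans ?_
      calc (1 - s + s * (1 / 2)) ^ a * (1 - sY + sY * (1 / 2)) ^ b ≤ ρ ^ a * 1 := by
            apply mul_le_mul h3 h4 h5 (by positivity)
        _ ≤ _ := by rw [mul_one]; exact hρpow
    have h7 : (1 / 2 : ℝ) ^ M = Real.exp (-(M * Real.log 2)) := by
      rw [Real.exp_neg, Real.exp_nat_mul, Real.exp_log (by norm_num), one_div, inv_pow]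
    rw [h7] at h6
    have h8 : (w s ^ a * w sY ^ b).coeff M ≤ Real.exp (M * Real.log 2) * Real.exp (-(L / 2) * (a + b)) := by
      calc (w s ^ a * w sY ^ b).coeff M = Real.exp (M * Real.log 2) * ((w s ^ a * w sY ^ b).coeff M * Real.exp (-(M * Real.log 2))) := by
            rw [Real.exp_neg]
            have : Real.exp (M * Real.log 2) ≠ 0 := (Real.exp_pos _).ne'
            field_simp
        _ ≤ _ := by gcongr
    refine h8.trans ?_
    rw [← Real.exp_add]
    apply Real.exp_le_exp.mpr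
    have h9 : (M : ℝ) * Real.log 2 ≤ (δ * (a + b)) * Real.log 2 := by gcongr
    have hab : (0 : ℝ) ≤ a + b := by positivity
    nlinarith [mul_le_mul_of_nonneg_right hδL hab]
  · have h2 := coeff_le_eval _ hP 2 (by norm_num) M
    rw [eval_mul, eval_pow, eval_pow, w_eval, w_eval] at h2
    have h3 : (1 - s + s * 2) ^ a ≤ (2 * ρ) ^ a := pow_le_pow_left₀ (by linarith) (by linarith) a
    have h4 : (1 - sY + sY * 2) ^ b ≤ 2 ^ b := pow_le_pow_left₀ (by linarith) (by linarith) b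
    have h5 : (0 : ℝ) ≤ (1 - sY + sY * 2) ^ b := pow_nonneg (by linarith) _
    have h6 : (w s ^ a * w sY ^ b).coeff M * 2 ^ M ≤
        Real.exp ((a + b) * Real.log 2) * Real.exp (-(L / 2) * (a + b)) := by
      refine h2.trans ?_
      calc (1 - s + s * 2) ^ a * (1 - sY + sY * 2) ^ b ≤ (2 * ρ) ^ a * 2 ^ b := by
            apply mul_le_mul h3 h4 h5 (by positivity)
        _ = (2 ^ a * 2 ^ b) * ρ ^ a := by rw [mul_pow]; ring
        _ = Real.exp ((a + b) * Real.log 2) * ρ ^ a := by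
            rw [add_mul, Real.exp_add, Real.exp_nat_mul, Real.exp_nat_mul, Real.exp_log (by norm_num)]
        _ ≤ _ := by gcongr
    have h7 : (2 : ℝ) ^ M = Real.exp (M * Real.log 2) := by
      rw [Real.exp_nat_mul, Real.exp_log (by norm_num)]
    rw [h7] at h6
    have h8 : (w s ^ a * w sY ^ b).coeff M ≤ Real.exp (-(M * Real.log 2)) * (Real.exp ((a + b) * Real.log 2) * Real.exp (-(L / 2) * (a + b))) := by
      calc (w s ^ a * w sY ^ b).coeff M = Real.exp (-(M * Real.log 2)) * ((w s ^ a * w sY ^ b).coeff M * Real.exp (M * Real.log 2)) := by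
            rw [Real.exp_neg]
            have : Real.exp (M * Real.log 2) ≠ 0 := (Real.exp_pos _).ne'
            field_simp
        _ ≤ _ := by gcongr
    refine h8.trans ?_
    rw [← Real.exp_add, ← Real.exp_add]
    apply Real.exp_le_exp.mpr
    have h9 : ((1 - δ) * (a + b)) * Real.log 2 ≤ (M : ℝ) * Real.log 2 := by gcongr
    have hab : (0 : ℝ) ≤ a + b := by positivity
    nlinarith [mul_le_mul_of_nonneg_right hδL hab]

end Vale.Agent.P321
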