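import Vale.Agent.P321.Words
import Vale.Agent.P321.Hyper

/-! M4: the block model. -/

namespace Vale.Agent.P321

open Polynomial in
theorem md_w_coeff_zero (s : ℝ) (Q : ℝ[X]) : (w s * Q).coeff 0 = (1 - s) * Q.coeff 0 := by
  rw [w, add_mul, coeff_add, coeff_C_mul, mul_assoc, coeff_C_mul, mul_coeff_zero,
    coeff_X_zero, zero_mul, mul_zero, add_zero]

open Polynomial in
theorem md_w_coeff_succ (s : ℝ) (Q : ℝ[X]) (M : ℕ) :
    (w s * Q).coeff (M + 1) = (1 - s) * Q.coeff (M + 1) + s * Q.coeff M := by
  rw [w, add_mul, coeff_add, coeff_C_mul, mul_assoc, coeff_C_mul, coeff_X_mul]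

theorem piX_nonneg {q : ℝ} (hq0 : 0 < q) (hq1 : q < 1) (x : Fin 3) : 0 ≤ piX q x := by
  have h1 : 0 < 1 - q := by linarith
  fin_cases x
  · simp only [piX]
    exact div_nonneg h1.le (by linarith)
  · simp only [piX]
    exact div_nonneg hq0.le (by linarith)
  · simp only [piX]
    exact div_nonneg hq0.le (by linarith)

theorem piX_sum {q : ℝ} (hq0 : 0 < q) (hq1 : q < 1) : ∑ x, piX q x = 1 := by
  have h : (1 + q) ≠ 0 := by linarith
  rw [Fin.sum_univ_three]
  simp only [piX, Matrix.cons_val_zero, Matrix.cons_val_one, Matrix.cons_val]
  field_simp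
  ring

theorem piX_psi {q : ℝ} (hq0 : 0 < q) (hq1 : q < 1) : ∑ x, piX q x * psi q x = 0 := by
  have h : (1 + q) ≠ 0 := by linarith
  rw [Fin.sum_univ_three]
  simp only [piX, psi, Matrix.cons_val_zero, Matrix.cons_val_one, Matrix.cons_val]
  field_simp
  ring

theorem piX_psi_sq {q : ℝ} (hq0 : 0 < q) (hq1 : q < 1) :
    ∑ x, piX q x * psi q x ^ 2 = 1 / q := by
  have h : (1 + q) ≠ 0 := by linarith
  rw [Fin.sum_univ_three]
  simp only [piX, psi, Matrix.cons_val_zero, Matrix.cons_val_one, Matrix.cons_val]
  field_simp
  ring

theorem abs_psi_le {q : ℝ} (hq0 : 0 < q) (hq1 : q < 1) (x : Fin 3) : |psi q x| ≤ 1 / q := by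
  have h1 : 1 ≤ 1 / q := by
    rw [le_div_iff₀ hq0]; linarith
  fin_cases x
  · simp only [psi]
    simpa using h1
  · simp only [psi]
    rw [show |(![-1, 1 / q, -1] : Fin 3 → ℝ) (⟨1, by norm_num⟩ : Fin 3)| = |1 / q| from rfl,
      abs_of_pos (by positivity)]
  · simp only [psi]
    rw [show |(![-1, 1 / q, -1] : Fin 3 → ℝ) (⟨2, by norm_num⟩ : Fin 3)| = |(-1 : ℝ)| from rfl]
    simpa using h1

theorem md_psi_ge {q : ℝ} (hq0 : 0 < q) (x : Fin 3) : 0 ≤ 1 + psi q x := by
  fin_cases x
  · simp [psi]
  · have : 0 < 1 / q := by positivity
    show 0 ≤ 1 + (1 / q)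
    linarith
  · show (0 : ℝ) ≤ 1 + (-1)
    norm_num

section chaos

variable {α : Type} (ψ : α → ℝ)

theorem md_chaos_add (σ : List α) : ∀ c d : List Bool → ℝ,
    chaos ψ (fun u => c u + d u) σ = chaos ψ c σ + chaos ψ d σ := by
  induction σ with
  | nil => intro c d; rfl
  | cons x σ ih =>
    intro c d
    simp only [chaos]
    rw [ih, ih]
    ring

theorem md_chaos_mul (σ : List α) (a : ℝ) : ∀ c : List Bool → ℝ,
    chaos ψ (fun u => a * c u) σ = a * chaos ψ c σ := by
  induction σ with
  | nil => intro c; rfl
  | cons x σ ih =>
    intro c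
    simp only [chaos]
    rw [ih, ih]
    ring

theorem md_chaos_zero (σ : List α) : chaos ψ (fun _ => 0) σ = 0 := by
  have := md_chaos_mul ψ σ 0 (fun _ => 0)
  simpa using this

theorem md_chaos_congr_length (σ : List α) : ∀ c d : List Bool → ℝ,
    (∀ u, u.length = σ.length → c u = d u) → chaos ψ c σ = chaos ψ d σ := by
  induction σ with
  | nil => intro c d h; exact h [] rfl
  | cons x σ ih =>
    intro c d h
    simp only [chaos]
    rw [ih (fun u => c (false :: u)) (fun u => d (false :: u)) (fun u hu => h _ (by simp [hu])),
      ih (fun u => c (true :: u)) (fun u => d (true :: u)) (fun u hu => h _ (by simp [hu]))]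

end chaos

theorem md_coef_nil_nil (s sY : ℝ) : coef s sY [] [] = 1 := by simp [coef]

theorem md_coef_nil_cons (s sY : ℝ) (x : Bool) (u : List Bool) : coef s sY [] (x :: u) = 0 := by
  simp [coef]

theorem md_coef_cons_nil (s sY : ℝ) (b : Bool) (B : List Bool) :
    coef s sY (b :: B) [] = (1 - (if b then sY else s)) * coef s sY B [] := by
  simp [coef]

theorem md_coef_cons_cons (s sY : ℝ) (b x : Bool) (B u : List Bool) :
    coef s sY (b :: B) (x :: u) = (1 - (if b then sY else s)) * coef s sY B (x :: u)
      + (if b then sY else if x then 0 else s) * coef s sY B u := by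
  simp [coef]

theorem md_chaos_coef_nil {α : Type} (ψ : α → ℝ) (s sY : ℝ) (b : Bool) (B : List Bool) :
    chaos ψ (coef s sY (b :: B)) [] =
      (1 - (if b then sY else s)) * chaos ψ (coef s sY B) [] := by
  simp only [chaos]
  rw [md_coef_cons_nil]

theorem md_chaos_coef_cons {α : Type} (ψ : α → ℝ) (s sY : ℝ) (b : Bool) (B : List Bool)
    (x : α) (σ : List α) :
    chaos ψ (coef s sY (b :: B)) (x :: σ) =
      (1 - (if b then sY else s)) * chaos ψ (coef s sY B) (x :: σ) +
      ((if b then sY else s) + ψ x * (if b then sY else 0)) * chaos ψ (coef s sY B) σ := by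
  simp only [chaos]
  have h1 : (fun u => coef s sY (b :: B) (false :: u)) =
      (fun u => (fun u => (1 - (if b then sY else s)) * coef s sY B (false :: u)) u +
        (fun u => (if b then sY else s) * coef s sY B u) u) := by
    funext u
    rw [md_coef_cons_cons]
    simp
  have h2 : (fun u => coef s sY (b :: B) (true :: u)) =
      (fun u => (fun u => (1 - (if b then sY else s)) * coef s sY B (true :: u)) u +
        (fun u => (if b then sY else 0) * coef s sY B u) u) := by
    funext u
    rw [md_coef_cons_cons]
    simp
  rw [h1, h2, md_chaos_add, md_chaos_add, md_chaos_mul, md_chaos_mul, md_chaos_mul, md_chaos_mul]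
  ring

theorem coef_eq_zero_of_length (s sY : ℝ) (B u : List Bool) (h : B.length < u.length) :
    coef s sY B u = 0 := by
  induction B generalizing u with
  | nil =>
    cases u with
    | nil => simp at h
    | cons x u => exact md_coef_nil_cons _ _ _ _
  | cons b B ih =>
    cases u with
    | nil => simp at h
    | cons x u =>
      simp only [List.length_cons] at h
      rw [md_coef_cons_cons, ih (x :: u) (by simp; omega), ih u (by omega)]
      ring

theorem md_chaos_coef_zero {α : Type} (ψ : α → ℝ) (s sY : ℝ) (B : List Bool) (σ : List α)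
    (h : B.length < σ.length) : chaos ψ (coef s sY B) σ = 0 := by
  rw [md_chaos_congr_length ψ σ (coef s sY B) (fun _ => 0)
    (fun u hu => coef_eq_zero_of_length s sY B u (by omega))]
  exact md_chaos_zero ψ σ

section Exs

variable {α : Type} [Fintype α] (π : α → ℝ)

theorem md_Ex_zero (f : List α → ℝ) : Ex π 0 f = f [] := by
  simp [Ex]

theorem md_Ex_succ (M : ℕ) (f : List α → ℝ) :
    Ex π (M + 1) f = ∑ x, π x * Ex π M (fun σ => f (x :: σ)) := by
  unfold Ex
  rw [← (Fin.consEquiv (fun _ : Fin (M + 1) => α)).sum_comp, Fintype.sum_prod_type]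
  apply Finset.sum_congr rfl
  intro x _
  rw [Finset.mul_sum]
  apply Finset.sum_congr rfl
  intro v _
  simp only [Fin.consEquiv_apply, Fin.prod_univ_succ, Fin.cons_zero, Fin.cons_succ,
    List.ofFn_succ]
  ring

theorem md_Ex_add (M : ℕ) (f g : List α → ℝ) :
    Ex π M (fun σ => f σ + g σ) = Ex π M f + Ex π M g := by
  unfold Ex
  rw [← Finset.sum_add_distrib]
  apply Finset.sum_congr rfl
  intro v _
  ring

theorem md_Ex_mul (M : ℕ) (a : ℝ) (f : List α → ℝ) :
    Ex π M (fun σ => a * f σ) = a * Ex π M f := by
  unfold Ex
  rw [Finset.mul_sum]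
  apply Finset.sum_congr rfl
  intro v _
  ring

theorem md_Ex_congr (M : ℕ) (f g : List α → ℝ) (h : ∀ σ : List α, σ.length = M → f σ = g σ) :
    Ex π M f = Ex π M g := by
  unfold Ex
  apply Finset.sum_congr rfl
  intro v _
  rw [h _ (by simp)]

end Exs

theorem md_flat_cons (x : Fin 3) (σ : List (Fin 3)) : flat (x :: σ) = symStr x ++ flat σ := by
  simp [flat]

theorem md_step {q s sY : ℝ} (b : Bool) (B : List Bool) (g : List Bool → ℝ) :
    (∑ M ∈ Finset.range ((b :: B).length + 1),
      Ex (piX q) M (fun σ => chaos (psi q) (coef s sY (b :: B)) σ * g (flat σ))) =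
    (1 - (if b then sY else s)) * (∑ M ∈ Finset.range (B.length + 1),
      Ex (piX q) M (fun σ => chaos (psi q) (coef s sY B) σ * g (flat σ))) +
    ∑ x, piX q x * (((if b then sY else s) + psi q x * (if b then sY else 0)) *
      (∑ M ∈ Finset.range (B.length + 1),
      Ex (piX q) M (fun σ => chaos (psi q) (coef s sY B) σ * g (symStr x ++ flat σ)))) := by
  set c := coef s sY B with hc
  set A : ℕ → ℝ := fun M => Ex (piX q) M (fun σ => chaos (psi q) c σ * g (flat σ)) with hA
  set p : ℝ := (if b then sY else s) with hp
  have hlast : A (B.length + 1) = 0 := by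
    have : A (B.length + 1) = Ex (piX q) (B.length + 1) (fun _ => 0 * 0) := by
      apply md_Ex_congr
      intro σ hσ
      rw [hc, md_chaos_coef_zero (psi q) s sY B σ (by omega)]
      ring
    rw [this, md_Ex_mul]
    ring
  have hzero : Ex (piX q) 0 (fun σ => chaos (psi q) (coef s sY (b :: B)) σ * g (flat σ)) =
      (1 - p) * A 0 := by
    simp only [hA]
    rw [md_Ex_zero, md_Ex_zero, md_chaos_coef_nil]
    ring
  have hsucc : ∀ M, Ex (piX q) (M + 1)
      (fun σ => chaos (psi q) (coef s sY (b :: B)) σ * g (flat σ)) =
      (1 - p) * A (M + 1) + ∑ x, piX q x * ((p + psi q x * (if b then sY else 0)) *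
        Ex (piX q) M (fun σ => chaos (psi q) c σ * g (symStr x ++ flat σ))) := by
    intro M
    simp only [hA]
    rw [md_Ex_succ, md_Ex_succ, Finset.mul_sum, ← Finset.sum_add_distrib]
    apply Finset.sum_congr rfl
    intro x _
    have e : (fun σ => chaos (psi q) (coef s sY (b :: B)) (x :: σ) * g (flat (x :: σ))) =
        (fun σ => (fun σ => (1 - p) * (chaos (psi q) c (x :: σ) * g (flat (x :: σ)))) σ +
          (fun σ => (p + psi q x * (if b then sY else 0)) *
            (chaos (psi q) c σ * g (symStr x ++ flat σ))) σ) := by
      funext σ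
      simp only [md_chaos_coef_cons, md_flat_cons, hp, hc]
      ring
    rw [e, md_Ex_add, md_Ex_mul, md_Ex_mul]
    ring
  have hlen : (b :: B).length + 1 = (B.length + 1) + 1 := by simp
  rw [hlen, Finset.sum_range_succ', hzero]
  simp_rw [hsucc]
  rw [Finset.sum_add_distrib, ← Finset.mul_sum]
  have h1 : (∑ M ∈ Finset.range (B.length + 1), A (M + 1)) + A 0 =
      ∑ M ∈ Finset.range (B.length + 1), A M := by
    rw [← Finset.sum_range_succ' A, Finset.sum_range_succ, hlast, add_zero]
  have h2 : (∑ M ∈ Finset.range (B.length + 1), ∑ x, piX q x *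
      ((p + psi q x * (if b then sY else 0)) *
        Ex (piX q) M (fun σ => chaos (psi q) c σ * g (symStr x ++ flat σ)))) =
      ∑ x, piX q x * ((p + psi q x * (if b then sY else 0)) *
      (∑ M ∈ Finset.range (B.length + 1),
      Ex (piX q) M (fun σ => chaos (psi q) c σ * g (symStr x ++ flat σ)))) := by
    rw [Finset.sum_comm]
    apply Finset.sum_congr rfl
    intro x _
    rw [Finset.mul_sum, Finset.mul_sum]
  rw [h2, ← h1]
  ring

/-- law of a trace of a block string -/
theorem model_law {q : ℝ} (hq0 : 0 < q) (hq1 : q < 1) (B : List Bool) (g : List Bool → ℝ) :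
    Etr q (str B) g = ∑ M ∈ Finset.range (B.length + 1),
      Ex (piX q) M (fun σ => chaos (psi q) (coef (1 - q ^ 2) (1 - q) B) σ * g (flat σ)) := by
  induction B generalizing g with
  | nil =>
    simp only [str, Etr, List.length_nil, zero_add, Finset.sum_range_one]
    rw [md_Ex_zero]
    simp [chaos, coef, flat]
  | cons b B ih =>
    rw [md_step]
    have hq : (1 + q) ≠ 0 := by linarith
    rw [Fin.sum_univ_three]
    rw [← ih g]
    rw [← ih (fun t => g (symStr 0 ++ t)), ← ih (fun t => g (symStr 1 ++ t)),
      ← ih (fun t => g (symStr 2 ++ t))]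
    have s0 : symStr 0 = [false, true] := rfl
    have s1 : symStr 1 = [false] := rfl
    have s2 : symStr 2 = [true] := rfl
    have p0 : piX q 0 = (1 - q) / (1 + q) := rfl
    have p1 : piX q 1 = q / (1 + q) := rfl
    have p2 : piX q 2 = q / (1 + q) := rfl
    have y0 : psi q 0 = -1 := rfl
    have y1 : psi q 1 = 1 / q := rfl
    have y2 : psi q 2 = -1 := rfl
    rw [s0, s1, s2, p0, p1, p2, y0, y1, y2]
    cases b with
    | false =>
      simp only [str, Etr, Bool.false_eq_true, if_false, List.cons_append, List.nil_append]
      field_simp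
      ring
    | true =>
      simp only [str, Etr, if_true, List.cons_append, List.nil_append]
      field_simp
      ring

theorem chaos_coef_nonneg {q : ℝ} (hq0 : 0 < q) (hq1 : q < 1) {s sY : ℝ} (hs0 : 0 ≤ s)
    (hs1 : s ≤ 1) (hY0 : 0 ≤ sY) (hY1 : sY ≤ 1) (B : List Bool) (σ : List (Fin 3)) :
    0 ≤ chaos (psi q) (coef s sY B) σ := by
  induction B generalizing σ with
  | nil =>
    cases σ with
    | nil => simp [chaos, coef]
    | cons x σ =>
      rw [md_chaos_coef_zero (psi q) s sY [] (x :: σ) (by simp)]
  | cons b B ih =>
    have hp : 0 ≤ 1 - (if b then sY else s) := by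
      cases b <;> simp <;> assumption
    cases σ with
    | nil =>
      rw [md_chaos_coef_nil]
      exact mul_nonneg hp (ih [])
    | cons x σ =>
      rw [md_chaos_coef_cons]
      apply add_nonneg (mul_nonneg hp (ih _))
      apply mul_nonneg _ (ih _)
      cases b with
      | false => simpa using hs0
      | true =>
        simp only [if_true]
        have := md_psi_ge hq0 x
        nlinarith

theorem md_tilt_aux {s sY s' sY' D DY t : ℝ} (h1 : D * (1 - s') = 1 - s) (h2 : D * s' = t * s)
    (h3 : DY * (1 - sY') = 1 - sY) (h4 : DY * sY' = t * sY) (B u : List Bool) :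
    t ^ u.length * coef s sY B u =
      D ^ B.count false * DY ^ B.count true * coef s' sY' B u := by
  induction B generalizing u with
  | nil =>
    cases u with
    | nil => simp [coef]
    | cons x u => simp [coef]
  | cons b B ih =>
    cases u with
    | nil =>
      rw [md_coef_cons_nil, md_coef_cons_nil]
      have := ih []
      simp only [List.length_nil, pow_zero, one_mul] at this ⊢
      rw [this]
      cases b with
      | false =>
        simp only [Bool.false_eq_true, if_false, List.count_cons_self, pow_succ]
        rw [List.count_cons_of_ne (by decide), ← h1]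
        ring
      | true =>
        simp only [if_true, List.count_cons_self, pow_succ]
        rw [List.count_cons_of_ne (by decide), ← h3]
        ring
    | cons x u =>
      rw [md_coef_cons_cons, md_coef_cons_cons]
      have e1 := ih (x :: u)
      have e2 := ih u
      simp only [List.length_cons, pow_succ] at e1 ⊢
      cases b with
      | false =>
        simp only [Bool.false_eq_true, if_false, List.count_cons_self, pow_succ]
        rw [List.count_cons_of_ne (by decide)]
        cases x with
        | false =>
          simp only [Bool.false_eq_true, if_false]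
          have goal1 : t ^ u.length * t * ((1 - s) * coef s sY B (false :: u) +
              s * coef s sY B u) =
              (1 - s) * (t ^ u.length * t * coef s sY B (false :: u)) +
              (t * s) * (t ^ u.length * coef s sY B u) := by ring
          rw [goal1, e1, e2, ← h1, ← h2]
          ring
        | true =>
          simp only [if_true]
          have goal1 : t ^ u.length * t * ((1 - s) * coef s sY B (true :: u) +
              0 * coef s sY B u) =
              (1 - s) * (t ^ u.length * t * coef s sY B (true :: u)) := by ring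
          rw [goal1, e1, ← h1]
          ring
      | true =>
        simp only [if_true, List.count_cons_self, pow_succ]
        rw [List.count_cons_of_ne (by decide)]
        have goal1 : t ^ u.length * t * ((1 - sY) * coef s sY B (x :: u) +
            sY * coef s sY B u) =
            (1 - sY) * (t ^ u.length * t * coef s sY B (x :: u)) +
            (t * sY) * (t ^ u.length * coef s sY B u) := by ring
        rw [goal1, e1, e2, ← h3, ← h4]
        ring

/-- change of the survival probabilities by an exponential tilt -/
theorem coef_tilt {s sY t : ℝ} (hs0 : 0 ≤ s) (hs1 : s < 1) (hY0 : 0 ≤ sY) (hY1 : sY < 1)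
    (ht : 0 < t) (B u : List Bool) :
    t ^ u.length * coef s sY B u =
      (1 - s + t * s) ^ B.count false * (1 - sY + t * sY) ^ B.count true *
        coef (t * s / (1 - s + t * s)) (t * sY / (1 - sY + t * sY)) B u := by
  have hD : 0 < 1 - s + t * s := by
    have := mul_nonneg ht.le hs0
    linarith
  have hDY : 0 < 1 - sY + t * sY := by
    have := mul_nonneg ht.le hY0
    linarith
  apply md_tilt_aux
  · rw [mul_sub, mul_div_cancel₀ _ hD.ne']; ring
  · rw [mul_div_cancel₀ _ hD.ne']
  · rw [mul_sub, mul_div_cancel₀ _ hDY.ne']; ring
  · rw [mul_div_cancel₀ _ hDY.ne']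

/-- the coefficients of the unmarked words -/
theorem coef_plain (s sY : ℝ) (B : List Bool) (M : ℕ) :
    coef s sY B (List.replicate M false) =
      (w s ^ B.count false * w sY ^ B.count true).coeff M := by
  induction B generalizing M with
  | nil =>
    cases M with
    | zero => simp [coef]
    | succ M =>
      rw [List.replicate_succ, md_coef_nil_cons]
      simp [Polynomial.coeff_one]
  | cons b B ih =>
    cases b with
    | false =>
      have e : w s ^ (false :: B).count false * w sY ^ (false :: B).count true =
          w s * (w s ^ B.count false * w sY ^ B.count true) := by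
        rw [List.count_cons_self, List.count_cons_of_ne (by decide), pow_succ]
        ring
      rw [e]
      cases M with
      | zero =>
        rw [md_w_coeff_zero, ← ih 0]
        simp only [List.replicate_zero]
        rw [md_coef_cons_nil]
        simp
      | succ M =>
        rw [md_w_coeff_succ, ← ih (M + 1), ← ih M, List.replicate_succ, md_coef_cons_cons]
        simp
    | true =>
      have e : w s ^ (true :: B).count false * w sY ^ (true :: B).count true =
          w sY * (w s ^ B.count false * w sY ^ B.count true) := by
        rw [List.count_cons_self, List.count_cons_of_ne (by decide), pow_succ]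
        ring
      rw [e]
      cases M with
      | zero =>
        rw [md_w_coeff_zero, ← ih 0]
        simp only [List.replicate_zero]
        rw [md_coef_cons_nil]
        simp
      | succ M =>
        rw [md_w_coeff_succ, ← ih (M + 1), ← ih M, List.replicate_succ, md_coef_cons_cons]
        simp

theorem str_length (B : List Bool) : (str B).length = 2 * B.count false + B.count true := by
  induction B with
  | nil => simp [str]
  | cons b B ih =>
    cases b with
    | false =>
      simp only [str, List.length_cons, ih]
      rw [List.count_cons_self, List.count_cons_of_ne (by decide)]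
      ring
    | true =>
      simp only [str, List.length_cons, ih]
      rw [List.count_cons_self, List.count_cons_of_ne (by decide)]
      ring

theorem md_str_ne (B L : List Bool) : str B ≠ true :: L := by
  cases B with
  | nil => simp [str]
  | cons b B => cases b <;> simp [str]

theorem str_injective : Function.Injective str := by
  intro B
  induction B with
  | nil =>
    intro C h
    cases C with
    | nil => rfl
    | cons c C => cases c <;> simp [str] at h
  | cons b B ih =>
    intro C h
    cases C with
    | nil => cases b <;> simp [str] at h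
    | cons c C =>
      cases b <;> cases c
      · simp only [str, List.cons.injEq, true_and] at h
        rw [ih h]
      · simp only [str, List.cons.injEq, true_and] at h
        exact absurd h.symm (md_str_ne C _)
      · simp only [str, List.cons.injEq, true_and] at h
        exact absurd h (md_str_ne B _)
      · simp only [str, List.cons.injEq, true_and] at h
        rw [ih h]

end Vale.Agent.P321
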