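import Vale.Agent.P321.TwoPoint
import Vale.Agent.P321.Hyper
import Vale.Agent.P321.Model
import Vale.Agent.P321.Kern

/-! Assembly of M1, M3, M4 and `tail`: the interface used by the core estimate.

Proof: `lower_T` with `Ω = Σ M : Fin (L+1), (Fin M → Fin 3)`, `P ⟨M, v⟩ = (∏ π (v i)) * chaos ψ
(coef B) (ofFn v)` (from `model_law`), so `1 - ∑ √(P P') = 1/2 ∑_M Ex M (√f - √f')²`.
For `M` outside `[δ L, (1-δ) L]` bound `Ex M (√f-√f')² ≤ Ex M (f + f') = 2 P0(M)` and use `tail`
(with `coef_plain`).  For `M` inside, tilt with `t` such that the plain survival probability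
becomes `M / L` (`coef_tilt`: both sides of `hellinger_chaos` scale by the same factor), and sum
`P0(M)` over `M` (total mass `1`). -/

namespace Vale.Agent.P321

theorem chaos_congr {α : Type} (ψ : α → ℝ) (σ : List α) (c c' : List Bool → ℝ)
    (h : ∀ u, u.length = σ.length → c u = c' u) : chaos ψ c σ = chaos ψ c' σ := by
  induction σ generalizing c c' with
  | nil => exact h [] rfl
  | cons x σ ih =>
    rw [chaos, chaos]
    rw [ih (fun u => c (false :: u)) (fun u => c' (false :: u))
      (fun u hu => h _ (by simp [hu])), ih (fun u => c (true :: u)) (fun u => c' (true :: u))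
      (fun u hu => h _ (by simp [hu]))]

theorem chaos_smul {α : Type} (ψ : α → ℝ) (σ : List α) (a : ℝ) (c : List Bool → ℝ) :
    chaos ψ (fun u => a * c u) σ = a * chaos ψ c σ := by
  induction σ generalizing c with
  | nil => rfl
  | cons x σ ih =>
    rw [chaos, chaos]
    rw [ih (fun u => c (false :: u)), ih (fun u => c (true :: u))]
    ring

theorem Ex_congr {α : Type} [Fintype α] (π : α → ℝ) (M : ℕ) (f g : List α → ℝ)
    (h : ∀ σ : List α, σ.length = M → f σ = g σ) : Ex π M f = Ex π M g := by
  unfold Ex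
  apply Finset.sum_congr rfl
  intro v _
  rw [h _ (List.length_ofFn)]

theorem Ex_mono {α : Type} [Fintype α] (π : α → ℝ) (hπ : ∀ x, 0 ≤ π x) (M : ℕ)
    (f g : List α → ℝ) (h : ∀ σ : List α, σ.length = M → f σ ≤ g σ) : Ex π M f ≤ Ex π M g := by
  unfold Ex
  apply Finset.sum_le_sum
  intro v _
  have := h (List.ofFn v) (List.length_ofFn)
  have h2 : 0 ≤ ∏ i, π (v i) := Finset.prod_nonneg (fun i _ => hπ _)
  exact mul_le_mul_of_nonneg_left this h2

theorem Ex_smul {α : Type} [Fintype α] (π : α → ℝ) (M : ℕ) (a : ℝ) (f : List α → ℝ) :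
    Ex π M (fun σ => a * f σ) = a * Ex π M f := by
  unfold Ex
  rw [Finset.mul_sum]
  apply Finset.sum_congr rfl
  intro v _
  ring

theorem Ex_add {α : Type} [Fintype α] (π : α → ℝ) (M : ℕ) (f g : List α → ℝ) :
    Ex π M (fun σ => f σ + g σ) = Ex π M f + Ex π M g := by
  unfold Ex
  rw [← Finset.sum_add_distrib]
  apply Finset.sum_congr rfl
  intro v _
  ring

theorem Etr_one (q : ℝ) (l : List Bool) : Etr q l (fun _ => 1) = 1 := by
  induction l with
  | nil => rfl
  | cons a l ih =>
    rw [Etr, ih]
    ring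

/-- index type of the block model -/
abbrev Idx (L : ℕ) : Type := Σ M : Fin (L + 1), (Fin M → Fin 3)

/-- probabilities of the block model -/
noncomputable def PB (q : ℝ) (B : List Bool) (L : ℕ) (w : Idx L) : ℝ :=
  (∏ i, piX q (w.2 i)) * chaos (psi q) (coef (1 - q ^ 2) (1 - q) B) (List.ofFn w.2)

theorem sum_Idx (L : ℕ) (f : Idx L → ℝ) :
    ∑ w, f w = ∑ M ∈ Finset.range (L + 1), if h : M < L + 1 then
      ∑ v : Fin M → Fin 3, f ⟨⟨M, h⟩, v⟩ else 0 := by
  rw [Fintype.sum_sigma, Finset.sum_range]
  apply Finset.sum_congr rfl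
  intro M _
  rw [dif_pos M.isLt]

theorem model_law' {q : ℝ} (hq0 : 0 < q) (hq1 : q < 1) (B : List Bool) (g : List Bool → ℝ) :
    Etr q (str B) g = ∑ w : Idx B.length, PB q B B.length w * g (flat (List.ofFn w.2)) := by
  rw [model_law hq0 hq1, sum_Idx]
  apply Finset.sum_congr rfl
  intro M hM
  rw [Finset.mem_range] at hM
  rw [dif_pos hM]
  unfold Ex PB
  apply Finset.sum_congr rfl
  intro v _
  ring

theorem reduction {q : ℝ} (hq0 : 0 < q) (hq1 : q < 1) (p : ℕ) (hp : 1 ≤ p) :
    ∃ δ c : ℝ, 0 < δ ∧ δ < 1 / 2 ∧ 0 < c ∧ ∀ (B B' : List Bool),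
      B.length = B'.length → B.count true = B'.count true → B ≠ B' →
      B.count true ≤ B.count false → ∀ η : ℝ, 0 ≤ η →
      (∀ M : ℕ, δ * B.length ≤ (M : ℝ) → (M : ℝ) ≤ (1 - δ) * B.length → ∀ s sY P0 : ℝ,
        s = (M : ℝ) / B.length → sY = tiltY q s →
        P0 = coef s sY B (List.replicate M false) →
        0 < P0 ∧
        5 * nsq (1 / q) M (fun u => coef s sY B u - coef s sY B' u) / P0 ^ 2 +
          ((16 / 9) * (nsq (4 ^ p / q ^ 2) M (coef s sY B) - P0 ^ 2) / P0 ^ 2) ^ p ≤ η) →
      ∀ n : ℕ, (str B).length ≤ n →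
        1 / 18 ≤ (T q n : ℝ) * (η + 2 * (B.length + 1) * Real.exp (-c * B.length)) := by
  have hs00 : 0 < 1 - q ^ 2 := by nlinarith
  have hs01 : 1 - q ^ 2 < 1 := by nlinarith
  obtain ⟨δ, c, hδ0, hδ1, hc, htail⟩ := tail hs00 hs01
  refine ⟨δ, c, hδ0, hδ1, hc, ?_⟩
  intro B B' hlen hct hne hcle η hη hcore n hn
  set L : ℕ := B.length with hL
  have hcount : ∀ D : List Bool, D.count false + D.count true = D.length := by
    intro D
    induction D with
    | nil => rfl
    | cons a D ih =>
      cases a <;> simp <;> omega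
  have hcf : B.count false = B'.count false := by
    have h1 := hcount B
    have h2 := hcount B'
    omega
  have hLpos : 0 < L := by
    rcases Nat.eq_zero_or_pos L with h | h
    · exfalso
      apply hne
      have h1 : B = [] := List.length_eq_zero_iff.mp (by omega)
      have h2 : B' = [] := List.length_eq_zero_iff.mp (by omega)
      rw [h1, h2]
    · exact h
  have hLr : (0 : ℝ) < L := by exact_mod_cast hLpos
  have hstrlen : (str B).length = (str B').length := by
    rw [str_length, str_length, hct, hcf]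
  have hstrne : str B ≠ str B' := fun h => hne (str_injective h)
  -- nonnegativity
  have hf0 : ∀ (D : List Bool) (σ : List (Fin 3)),
      0 ≤ chaos (psi q) (coef (1 - q ^ 2) (1 - q) D) σ := fun D σ =>
    chaos_coef_nonneg hq0 hq1 hs00.le hs01.le (by linarith) (by linarith) D σ
  have hPB0 : ∀ (D : List Bool) (w : Idx L), 0 ≤ PB q D L w := fun D w =>
    mul_nonneg (Finset.prod_nonneg (fun i _ => piX_nonneg hq0 hq1 _)) (hf0 D _)
  have hlaw : ∀ g : List Bool → ℝ, Etr q (str B) g = ∑ w : Idx L, PB q B L w * g (flat (List.ofFn w.2)) :=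
    fun g => model_law' hq0 hq1 B g
  have hlaw' : ∀ g : List Bool → ℝ,
      Etr q (str B') g = ∑ w : Idx L, PB q B' L w * g (flat (List.ofFn w.2)) := by
    intro g
    have := model_law' hq0 hq1 B' g
    rw [← hlen] at this
    exact this
  have key := lower_T hq0 hq1 (str B) (str B') hstrlen hstrne (PB q B L) (PB q B' L) (hPB0 B)
    (hPB0 B') (fun w => flat (List.ofFn w.2)) hlaw hlaw' hn
  refine le_trans key ?_
  have hTnn : (0 : ℝ) ≤ (T q n : ℝ) := Nat.cast_nonneg _
  apply mul_le_mul_of_nonneg_left _ hTnn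
  -- total masses
  have hsumB : ∑ w : Idx L, PB q B L w = 1 := by
    have := hlaw (fun _ => 1)
    rw [Etr_one] at this
    simpa using this.symm
  have hsumB' : ∑ w : Idx L, PB q B' L w = 1 := by
    have := hlaw' (fun _ => 1)
    rw [Etr_one] at this
    simpa using this.symm
  set f : List (Fin 3) → ℝ := chaos (psi q) (coef (1 - q ^ 2) (1 - q) B) with hf
  set f' : List (Fin 3) → ℝ := chaos (psi q) (coef (1 - q ^ 2) (1 - q) B') with hf'
  have hhell : 1 - ∑ w : Idx L, √(PB q B L w * PB q B' L w)
      = (1 / 2) * ∑ w : Idx L, (√(PB q B L w) - √(PB q B' L w)) ^ 2 := by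
    have e : ∀ w : Idx L, (√(PB q B L w) - √(PB q B' L w)) ^ 2
        = PB q B L w + PB q B' L w - 2 * √(PB q B L w * PB q B' L w) := by
      intro w
      rw [Real.sqrt_mul (hPB0 B w)]
      have h5 := Real.sq_sqrt (hPB0 B w)
      have h6 := Real.sq_sqrt (hPB0 B' w)
      nlinarith
    simp_rw [e]
    rw [Finset.sum_sub_distrib, Finset.sum_add_distrib, hsumB, hsumB', ← Finset.mul_sum]
    ring
  have hslice : ∑ w : Idx L, (√(PB q B L w) - √(PB q B' L w)) ^ 2
      = ∑ M ∈ Finset.range (L + 1), Ex (piX q) M (fun σ => (√(f σ) - √(f' σ)) ^ 2) := by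
    rw [sum_Idx]
    apply Finset.sum_congr rfl
    intro M hM
    rw [Finset.mem_range] at hM
    rw [dif_pos hM]
    unfold Ex
    apply Finset.sum_congr rfl
    intro v _
    unfold PB
    simp only
    have hπ : 0 ≤ ∏ i, piX q (v i) := Finset.prod_nonneg (fun i _ => piX_nonneg hq0 hq1 _)
    rw [Real.sqrt_mul hπ, Real.sqrt_mul hπ, ← mul_sub, mul_pow, Real.sq_sqrt hπ]
  -- mass of a slice
  set P0 : ℕ → ℝ := fun M => coef (1 - q ^ 2) (1 - q) B (List.replicate M false) with hP0
  have hmass : ∀ M, Ex (piX q) M f = P0 M := fun M =>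
    Ex_chaos (piX q) (psi q) (piX_sum hq0 hq1) (piX_psi hq0 hq1) M _
  have hmass' : ∀ M, Ex (piX q) M f' = P0 M := by
    intro M
    have := Ex_chaos (piX q) (psi q) (piX_sum hq0 hq1) (piX_psi hq0 hq1) M
      (coef (1 - q ^ 2) (1 - q) B')
    rw [coef_plain, ← hct, ← hcf, ← coef_plain] at this
    exact this
  have hP0nn : ∀ M, 0 ≤ P0 M := by
    intro M
    rw [← hmass]
    unfold Ex
    exact Finset.sum_nonneg (fun v _ => mul_nonneg
      (Finset.prod_nonneg (fun i _ => piX_nonneg hq0 hq1 _)) (hf0 B _))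
  have hP0sum : ∑ M ∈ Finset.range (L + 1), P0 M = 1 := by
    have := model_law hq0 hq1 B (fun _ => 1)
    rw [Etr_one] at this
    rw [this]
    apply Finset.sum_congr rfl
    intro M _
    rw [← hmass M]
    simp only [mul_one]
    rfl
  -- bound of one slice
  have hbound : ∀ M ∈ Finset.range (L + 1), Ex (piX q) M (fun σ => (√(f σ) - √(f' σ)) ^ 2)
      ≤ P0 M * η + 2 * Real.exp (-c * L) := by
    intro M hM
    rw [Finset.mem_range] at hM
    by_cases hin : δ * L ≤ (M : ℝ) ∧ (M : ℝ) ≤ (1 - δ) * L
    · -- inside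
      obtain ⟨hin1, hin2⟩ := hin
      set s : ℝ := (M : ℝ) / L with hs
      set sY : ℝ := tiltY q s with hsY
      obtain ⟨hp0, hcore'⟩ := hcore M hin1 hin2 s sY _ rfl rfl rfl
      set p0 : ℝ := coef s sY B (List.replicate M false) with hp0def
      have hMpos : (0 : ℝ) < M := lt_of_lt_of_le (by positivity) hin1
      have hs0 : 0 < s := div_pos hMpos hLr
      have hs1 : s < 1 := by
        rw [hs, div_lt_one hLr]
        nlinarith
      have h1s : 0 < 1 - s := by linarith
      have hq1' : 0 < 1 + q := by linarith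
      have hqq : 0 < q / (1 + q) := by positivity
      have hden : 0 < 1 - s + q / (1 + q) * s := by positivity
      have hsY0 : 0 ≤ sY := by
        rw [hsY, tiltY]
        positivity
      have hsY1 : sY ≤ 1 := by
        rw [hsY, tiltY, div_le_one hden]
        linarith
      -- tilt parameter
      set t : ℝ := s * q ^ 2 / ((1 - q ^ 2) * (1 - s)) with ht
      have ht0 : 0 < t := by positivity
      have htilt1 : t * (1 - q ^ 2) / (1 - (1 - q ^ 2) + t * (1 - q ^ 2)) = s := by
        have hs00' : 1 - q ^ 2 ≠ 0 := hs00.ne'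
        have hq' : q ≠ 0 := hq0.ne'
        have h1s' : 1 - s ≠ 0 := h1s.ne'
        have e0 : t * (1 - q ^ 2) = s * q ^ 2 / (1 - s) := by
          rw [ht]
          field_simp
        have e1 : 1 - (1 - q ^ 2) + s * q ^ 2 / (1 - s) = q ^ 2 / (1 - s) := by
          field_simp
          ring
        rw [e0, e1]
        field_simp
      have htilt2 : t * (1 - q) / (1 - (1 - q) + t * (1 - q)) = sY := by
        rw [ht, hsY, tiltY]
        have e1 : (1 - q ^ 2) = (1 - q) * (1 + q) := by ring
        rw [e1]
        have h1q : (1 - q) ≠ 0 := by linarith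
        have e2 : s * q ^ 2 / ((1 - q) * (1 + q) * (1 - s)) * (1 - q) = s * q ^ 2 / ((1 + q) * (1 - s)) := by
          field_simp
        rw [e2]
        have e3 : 1 - (1 - q) + s * q ^ 2 / ((1 + q) * (1 - s))
            = q * ((1 + q) * (1 - s) + s * q) / ((1 + q) * (1 - s)) := by
          field_simp
          ring
        rw [e3]
        have h4 : 0 < (1 + q) * (1 - s) + s * q := by positivity
        have e4 : 1 - s + q / (1 + q) * s = ((1 + q) * (1 - s) + s * q) / (1 + q) := by
          field_simp
        rw [e4]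
        field_simp
      set C : ℝ := (1 - (1 - q ^ 2) + t * (1 - q ^ 2)) ^ B.count false *
        (1 - (1 - q) + t * (1 - q)) ^ B.count true with hC
      have hC0 : 0 < C := by
        have h1 : 0 < 1 - (1 - q ^ 2) + t * (1 - q ^ 2) := by
          have := mul_pos ht0 hs00
          have : 0 < q ^ 2 := by positivity
          linarith
        have h2 : 0 < 1 - (1 - q) + t * (1 - q) := by
          have := mul_pos ht0 (by linarith : 0 < 1 - q)
          linarith
        positivity
      set a : ℝ := C / t ^ M with ha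
      have ha0 : 0 < a := by positivity
      have htB : ∀ u : List Bool, u.length = M →
          coef (1 - q ^ 2) (1 - q) B u = a * coef s sY B u := by
        intro u hu
        have h := coef_tilt hs00.le hs01 (by linarith : (0 : ℝ) ≤ 1 - q) (by linarith) ht0 B u
        rw [htilt1, htilt2, hu, ← hC] at h
        rw [ha, div_mul_eq_mul_div, eq_div_iff (by positivity), ← h]
        ring
      have htB' : ∀ u : List Bool, u.length = M →
          coef (1 - q ^ 2) (1 - q) B' u = a * coef s sY B' u := by
        intro u hu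
        have h := coef_tilt hs00.le hs01 (by linarith : (0 : ℝ) ≤ 1 - q) (by linarith) ht0 B' u
        rw [htilt1, htilt2, hu, ← hct, ← hcf, ← hC] at h
        rw [ha, div_mul_eq_mul_div, eq_div_iff (by positivity), ← h]
        ring
      have hfs : ∀ σ : List (Fin 3), σ.length = M → f σ = a * chaos (psi q) (coef s sY B) σ := by
        intro σ hσ
        rw [hf, ← chaos_smul]
        apply chaos_congr
        intro u hu
        exact htB u (by omega)
      have hfs' : ∀ σ : List (Fin 3), σ.length = M → f' σ = a * chaos (psi q) (coef s sY B') σ := by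
        intro σ hσ
        rw [hf', ← chaos_smul]
        apply chaos_congr
        intro u hu
        exact htB' u (by omega)
      have hP0a : P0 M = a * p0 := by
        rw [hP0, hp0def]
        exact htB _ (List.length_replicate)
      have hEx : Ex (piX q) M (fun σ => (√(f σ) - √(f' σ)) ^ 2)
          = a * Ex (piX q) M (fun σ => (√(chaos (psi q) (coef s sY B) σ)
              - √(chaos (psi q) (coef s sY B') σ)) ^ 2) := by
        rw [← Ex_smul]
        apply Ex_congr
        intro σ hσ
        rw [hfs σ hσ, hfs' σ hσ, Real.sqrt_mul ha0.le, Real.sqrt_mul ha0.le, ← mul_sub, mul_pow,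
          Real.sq_sqrt ha0.le]
      rw [hEx]
      have hh := hellinger_chaos (piX q) (psi q) (piX_nonneg hq0 hq1) (piX_sum hq0 hq1)
        (piX_psi hq0 hq1) (1 / q) (abs_psi_le hq0 hq1) p hp M (coef s sY B) (coef s sY B')
        (fun σ => chaos_coef_nonneg hq0 hq1 hs0.le hs1.le hsY0 hsY1 B σ)
        (fun σ => chaos_coef_nonneg hq0 hq1 hs0.le hs1.le hsY0 hsY1 B' σ) p0 hp0 rfl
      rw [piX_psi_sq hq0 hq1] at hh
      have e5 : (4 : ℝ) ^ p * (1 / q) ^ 2 = 4 ^ p / q ^ 2 := by
        rw [one_div, inv_pow]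
        rfl
      rw [e5] at hh
      have hh2 : Ex (piX q) M (fun σ => (√(chaos (psi q) (coef s sY B) σ)
              - √(chaos (psi q) (coef s sY B') σ)) ^ 2) ≤ p0 * η := by
        refine le_trans hh ?_
        refine le_trans (le_of_eq ?_) (mul_le_mul_of_nonneg_left hcore' hp0.le)
        rw [mul_add]
        congr 1
        field_simp
      calc a * Ex (piX q) M (fun σ => (√(chaos (psi q) (coef s sY B) σ)
              - √(chaos (psi q) (coef s sY B') σ)) ^ 2) ≤ a * (p0 * η) :=
            mul_le_mul_of_nonneg_left hh2 ha0.le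
        _ = P0 M * η := by rw [hP0a]; ring
        _ ≤ P0 M * η + 2 * Real.exp (-c * L) := by
            have := Real.exp_pos (-c * L)
            linarith
    · -- outside
      have hout : (M : ℝ) < δ * L ∨ (1 - δ) * L < (M : ℝ) := by
        by_contra hcon
        push Not at hcon
        exact hin ⟨hcon.1, hcon.2⟩
      have hLc : ((B.count false : ℕ) : ℝ) + ((B.count true : ℕ) : ℝ) = L := by
        have := hcount B
        rw [← hL] at this
        exact_mod_cast this
      have hP0le : P0 M ≤ Real.exp (-c * L) := by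
        have h := htail (B.count false) (B.count true) M (1 - q) (by linarith) (by linarith) hcle
          (by rw [hcount B]; omega) (by rw [hLc]; exact hout)
        rw [hLc] at h
        rw [hP0]
        simp only
        rw [coef_plain]
        exact h
      have h1 : Ex (piX q) M (fun σ => (√(f σ) - √(f' σ)) ^ 2)
          ≤ Ex (piX q) M (fun σ => f σ + f' σ) := by
        apply Ex_mono _ (piX_nonneg hq0 hq1)
        intro σ _
        have h5 := Real.sq_sqrt (hf0 B σ)
        have h6 := Real.sq_sqrt (hf0 B' σ)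
        have h7 := mul_nonneg (Real.sqrt_nonneg (f σ)) (Real.sqrt_nonneg (f' σ))
        nlinarith
      rw [Ex_add, hmass, hmass'] at h1
      have := mul_nonneg (hP0nn M) hη
      linarith
  rw [hhell, hslice]
  have hfinal := Finset.sum_le_sum hbound
  rw [Finset.sum_add_distrib, ← Finset.sum_mul, hP0sum, Finset.sum_const, Finset.card_range] at hfinal
  have hexp := Real.exp_pos (-c * L)
  have h3 : ((L + 1) • (2 * Real.exp (-c * L)) : ℝ) = 2 * (L + 1) * Real.exp (-c * L) := by
    rw [nsmul_eq_mul]
    push_cast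
    ring
  rw [h3] at hfinal
  have h4 : 0 ≤ 2 * ((L : ℝ) + 1) * Real.exp (-c * L) := by positivity
  linarith

end Vale.Agent.P321
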