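import Vale.Agent.P321.FockDefs
import Vale.Agent.P321.Kern

namespace Vale.Agent.P321

open Polynomial

/-! ### the right shift and weighted norms -/

theorem sl_nsq_congr (κ : ℝ) (M : ℕ) : ∀ (c c' : List Bool → ℝ),
    (∀ u, u.length = M → c u = c' u) → nsq κ M c = nsq κ M c' := by
  induction M with
  | zero => intro c c' h; simp only [nsq]; rw [h [] rfl]
  | succ M ih =>
    intro c c' h
    simp only [nsq]
    rw [ih _ (fun u => c' (false :: u)) (fun u hu => h _ (by simp [hu])),
      ih _ (fun u => c' (true :: u)) (fun u hu => h _ (by simp [hu]))]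

theorem sl_nsq_nonneg {κ : ℝ} (hκ : 0 ≤ κ) (M : ℕ) : ∀ c : List Bool → ℝ, 0 ≤ nsq κ M c := by
  induction M with
  | zero => intro c; simp only [nsq]; positivity
  | succ M ih =>
    intro c
    simp only [nsq]
    have h1 := ih (fun u => c (false :: u))
    have h2 := mul_nonneg hκ (ih (fun u => c (true :: u)))
    linarith

theorem sl_nsq_zero (κ : ℝ) (M : ℕ) : nsq κ M (fun _ => 0) = 0 := by
  induction M with
  | zero => simp [nsq]
  | succ M ih => simp [nsq, ih]

/-- right multiplication by an unmarked letter -/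
def sl_R : (List Bool → ℝ) → List Bool → ℝ
  | _, [] => 0
  | c, x :: u => (if x = false ∧ u = [] then c [] else 0) + sl_R (fun v => c (x :: v)) u

theorem sl_R_add (u : List Bool) : ∀ c c' : List Bool → ℝ,
    sl_R (c + c') u = sl_R c u + sl_R c' u := by
  induction u with
  | nil => intro c c'; simp [sl_R]
  | cons x u ih =>
    intro c c'
    simp only [sl_R]
    have h := ih (fun v => c (x :: v)) (fun v => c' (x :: v))
    have h2 : (fun v => (c + c') (x :: v)) = (fun v => c (x :: v)) + (fun v => c' (x :: v)) := rfl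
    rw [h2, h]
    split_ifs
    · rw [Pi.add_apply]; ring
    · ring

theorem sl_R_smul (u : List Bool) : ∀ (a : ℝ) (c : List Bool → ℝ),
    sl_R (a • c) u = a * sl_R c u := by
  induction u with
  | nil => intro a c; simp [sl_R]
  | cons x u ih =>
    intro a c
    simp only [sl_R]
    have h := ih a (fun v => c (x :: v))
    have h2 : (fun v => (a • c) (x :: v)) = a • (fun v => c (x :: v)) := rfl
    rw [h2, h]
    split_ifs
    · rw [Pi.smul_apply, smul_eq_mul]; ring
    · ring

def sl_RL : Module.End ℝ (List Bool → ℝ) where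
  toFun := sl_R
  map_add' c c' := by funext u; exact sl_R_add u c c'
  map_smul' a c := by funext u; exact sl_R_smul u a c

theorem sl_RL_apply (c : List Bool → ℝ) : sl_RL c = sl_R c := rfl

theorem sl_nsq_R_zero (κ : ℝ) (c : List Bool → ℝ) : nsq κ 0 (sl_R c) = 0 := by
  simp [nsq, sl_R]

theorem sl_nsq_R_succ (κ : ℝ) (M : ℕ) : ∀ c : List Bool → ℝ,
    nsq κ (M + 1) (sl_R c) = nsq κ M c := by
  induction M with
  | zero => intro c; simp [nsq, sl_R]
  | succ M ih =>
    intro c
    rw [nsq]
    rw [sl_nsq_congr κ (M + 1) (fun u => sl_R c (false :: u)) (sl_R (fun v => c (false :: v))) ?_,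
      sl_nsq_congr κ (M + 1) (fun u => sl_R c (true :: u)) (sl_R (fun v => c (true :: v))) ?_,
      ih, ih]
    · rfl
    · intro u hu
      simp [sl_R]
    · intro u hu
      have : u ≠ [] := by rintro rfl; simp at hu
      simp [sl_R, this]

theorem sl_nsq_pow (κ : ℝ) (j : ℕ) : ∀ (M : ℕ) (c : List Bool → ℝ),
    nsq κ M ((sl_RL ^ j) c) = if j ≤ M then nsq κ (M - j) c else 0 := by
  induction j with
  | zero => intro M c; simp
  | succ j ih =>
    intro M c
    have h : (sl_RL ^ (j + 1)) c = sl_R ((sl_RL ^ j) c) := by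
      rw [pow_succ', Module.End.mul_apply]; rfl
    rw [h]
    cases M with
    | zero => rw [sl_nsq_R_zero]; simp
    | succ M =>
      rw [sl_nsq_R_succ, ih]
      by_cases hj : j ≤ M
      · rw [if_pos hj, if_pos (by omega)]
        congr 1
        omega
      · rw [if_neg hj, if_neg (by omega)]

theorem sl_nsq_sum {κ : ℝ} (hκ : 0 ≤ κ) (t : Finset ℕ) (b : ℕ → ℝ) (M : ℕ) :
    ∀ f : ℕ → List Bool → ℝ, nsq κ M (fun u => ∑ j ∈ t, b j * f j u) ≤
      (∑ j ∈ t, b j ^ 2) * ∑ j ∈ t, nsq κ M (f j) := by
  induction M with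
  | zero =>
    intro f
    simp only [nsq]
    exact Finset.sum_mul_sq_le_sq_mul_sq t b (fun j => f j [])
  | succ M ih =>
    intro f
    simp only [nsq]
    have h1 := ih (fun j u => f j (false :: u))
    have h2 := mul_le_mul_of_nonneg_left (ih (fun j u => f j (true :: u))) hκ
    rw [Finset.sum_add_distrib, ← Finset.mul_sum, mul_add]
    have h3 : κ * ((∑ j ∈ t, b j ^ 2) * ∑ j ∈ t, nsq κ M (fun u => f j (true :: u))) =
      (∑ j ∈ t, b j ^ 2) * (κ * ∑ j ∈ t, nsq κ M (fun u => f j (true :: u))) := by ring
    rw [h3] at h2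
    exact add_le_add h1 h2

theorem sl_ip_self (P : ℝ[X]) :
    ip P P = ∑ j ∈ Finset.range (P.natDegree + 1), P.coeff j ^ 2 := by
  unfold ip
  rw [Polynomial.sum_over_range]
  · exact Finset.sum_congr rfl fun j _ => by ring
  · intro n; simp

theorem sl_nsq_aeval {κ : ℝ} (hκ : 0 ≤ κ) (P : ℝ[X]) (c : List Bool → ℝ) (M : ℕ) :
    nsq κ M (aeval sl_RL P c) ≤ ip P P * ∑ k ∈ Finset.range (M + 1), nsq κ k c := by
  have h1 : aeval sl_RL P c = fun u => ∑ j ∈ Finset.range (P.natDegree + 1),
      P.coeff j * ((sl_RL ^ j) c) u := by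
    rw [aeval_eq_sum_range]
    funext u
    simp only [LinearMap.sum_apply, LinearMap.smul_apply, Finset.sum_apply, Pi.smul_apply,
      smul_eq_mul]
  rw [h1, sl_ip_self]
  refine (sl_nsq_sum hκ _ _ M _).trans ?_
  apply mul_le_mul_of_nonneg_left _ (Finset.sum_nonneg fun j _ => sq_nonneg _)
  simp only [sl_nsq_pow]
  rw [← Finset.sum_filter]
  calc ∑ j ∈ (Finset.range (P.natDegree + 1)).filter (fun j => j ≤ M), nsq κ (M - j) c
      ≤ ∑ j ∈ Finset.range (M + 1), nsq κ (M - j) c := by
        apply Finset.sum_le_sum_of_subset_of_nonneg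
        · intro j hj
          rw [Finset.mem_filter] at hj
          rw [Finset.mem_range]
          omega
        · intro j _ _
          exact sl_nsq_nonneg hκ _ _
    _ = ∑ k ∈ Finset.range (M + 1), nsq κ k c := by
        rw [← Finset.sum_range_reflect (fun k => nsq κ k c)]
        apply Finset.sum_congr rfl
        intro j hj
        rw [Finset.mem_range] at hj
        congr 1

/-! ### appending plain blocks -/

theorem sl_coef_append (s sY : ℝ) (B : List Bool) : ∀ u : List Bool,
    coef s sY (B ++ [false]) u = (1 - s) * coef s sY B u + s * sl_R (coef s sY B) u := by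
  induction B with
  | nil =>
    intro u
    rcases u with _ | ⟨x, u⟩
    · simp [coef, sl_R]
    · rcases u with _ | ⟨y, u⟩
      · cases x <;> simp [coef, sl_R]
      · have h : ∀ (v : List Bool) (c : List Bool → ℝ), (∀ v, c v = 0) → sl_R c v = 0 := by
          intro v
          induction v with
          | nil => intro c _; rfl
          | cons z v ih =>
            intro c hc
            simp only [sl_R]
            rw [ih _ (fun v => hc _), hc]
            simp
        simp only [List.nil_append, coef, sl_R]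
        cases x <;> simp [h _ _ (fun v => rfl)]
  | cons b B ih =>
    intro u
    rcases u with _ | ⟨x, u⟩
    · simp only [List.cons_append, coef, ih, sl_R]
      ring
    · have h : (fun v => coef s sY (b :: B) (x :: v)) =
          (1 - (if b then sY else s)) • (fun v => coef s sY B (x :: v)) +
            (if b then sY else if x then 0 else s) • coef s sY B := rfl
      have h2 : sl_R (coef s sY (b :: B)) (x :: u) =
          (if x = false ∧ u = [] then coef s sY (b :: B) [] else 0) +
            sl_R (fun v => coef s sY (b :: B) (x :: v)) u := rfl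
      rw [h2, h, sl_R_add, sl_R_smul, sl_R_smul]
      simp only [List.cons_append, coef, ih, sl_R]
      split_ifs <;> ring

theorem sl_coef_replicate (s sY : ℝ) (B : List Bool) (n : ℕ) :
    coef s sY (B ++ List.replicate n false) = aeval sl_RL (w s ^ n) (coef s sY B) := by
  induction n with
  | zero => simp
  | succ n ih =>
    rw [List.replicate_succ', ← List.append_assoc]
    have h1 : coef s sY (B ++ List.replicate n false ++ [false]) =
        (aeval sl_RL (w s)) (coef s sY (B ++ List.replicate n false)) := by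
      funext u
      rw [sl_coef_append]
      unfold w
      simp only [map_add, map_mul, aeval_C, aeval_X, LinearMap.add_apply, Module.End.mul_apply,
        Module.algebraMap_end_apply, Pi.add_apply, Pi.smul_apply, smul_eq_mul, sl_RL_apply]
    rw [h1, ih, pow_succ', map_mul, Module.End.mul_apply]

/-! ### marked words -/

open Classical in
noncomputable def sl_mk (c : List Bool → ℝ) : List Bool → ℝ :=
  fun u => if true ∈ u then c u else 0

theorem sl_nsq_mk (κ : ℝ) (M : ℕ) : ∀ c : List Bool → ℝ,
    nsq κ M c = nsq κ M (sl_mk c) + c (List.replicate M false) ^ 2 := by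
  induction M with
  | zero => intro c; simp [nsq, sl_mk]
  | succ M ih =>
    intro c
    simp only [nsq]
    have h1 : (fun u => sl_mk c (false :: u)) = sl_mk (fun u => c (false :: u)) := by
      funext u; simp [sl_mk]
    have h2 : (fun u => sl_mk c (true :: u)) = (fun u => c (true :: u)) := by
      funext u; simp [sl_mk]
    rw [h1, h2, ih (fun u => c (false :: u)), List.replicate_succ]
    ring

theorem sl_mk_R (u : List Bool) : ∀ c : List Bool → ℝ, sl_mk (sl_R c) u = sl_R (sl_mk c) u := by
  induction u with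
  | nil => intro c; simp [sl_mk, sl_R]
  | cons x u ih =>
    intro c
    cases x
    · have h1 : (fun u => sl_mk c (false :: u)) = sl_mk (fun u => c (false :: u)) := by
        funext u; simp [sl_mk]
      have h2 : sl_R (sl_mk c) (false :: u) = (if false = false ∧ u = [] then sl_mk c [] else 0) +
        sl_R (fun v => sl_mk c (false :: v)) u := rfl
      rw [h2, h1, ← ih]
      by_cases hu : true ∈ u
      · have : u ≠ [] := by rintro rfl; simp at hu
        simp [sl_mk, hu, sl_R, this]
      · simp [sl_mk, hu]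
    · have h1 : (fun u => sl_mk c (true :: u)) = (fun u => c (true :: u)) := by
        funext u; simp [sl_mk]
      have h2 : sl_R (sl_mk c) (true :: u) = (if true = false ∧ u = [] then sl_mk c [] else 0) +
        sl_R (fun v => sl_mk c (true :: v)) u := rfl
      rw [h2, h1]
      simp [sl_mk, sl_R]

theorem sl_mk_add (c c' : List Bool → ℝ) : sl_mk (c + c') = sl_mk c + sl_mk c' := by
  funext u; simp only [sl_mk, Pi.add_apply]; split_ifs <;> simp

theorem sl_mk_smul (a : ℝ) (c : List Bool → ℝ) : sl_mk (a • c) = a • sl_mk c := by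
  funext u; simp only [sl_mk, Pi.smul_apply]; split_ifs <;> simp

noncomputable def sl_mkL : Module.End ℝ (List Bool → ℝ) where
  toFun := sl_mk
  map_add' := sl_mk_add
  map_smul' := sl_mk_smul

theorem sl_mkL_apply (c : List Bool → ℝ) : sl_mkL c = sl_mk c := rfl

theorem sl_mk_aeval (P : ℝ[X]) (c : List Bool → ℝ) :
    sl_mk (aeval sl_RL P c) = aeval sl_RL P (sl_mk c) := by
  have hc : Commute sl_mkL sl_RL := by
    apply LinearMap.ext
    intro c
    funext u
    exact sl_mk_R u c
  have h1 : Commute sl_mkL (aeval sl_RL P) := by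
    induction P using Polynomial.induction_on' with
    | add p q hp hq => rw [map_add]; exact hp.add_right hq
    | monomial n a =>
      rw [aeval_monomial]
      have h0 : Commute sl_mkL (algebraMap ℝ (Module.End ℝ (List Bool → ℝ)) a) :=
        (Algebra.commutes a sl_mkL).symm
      exact h0.mul_right (hc.pow_right n)
  exact congrArg (fun f : Module.End ℝ (List Bool → ℝ) => f c) h1.eq

/-! ### the Fock space -/

def sl_V : Type := List Bool →₀ ℝ

noncomputable instance : AddCommGroup sl_V := inferInstanceAs (AddCommGroup (List Bool →₀ ℝ))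

noncomputable instance : Module ℝ sl_V := inferInstanceAs (Module ℝ (List Bool →₀ ℝ))

noncomputable def sl_ip (x y : List Bool →₀ ℝ) : ℝ := x.sum fun u a => a * y u

theorem sl_ip_add (x y z : List Bool →₀ ℝ) : sl_ip (x + y) z = sl_ip x z + sl_ip y z := by
  unfold sl_ip
  rw [Finsupp.sum_add_index']
  · intro a; simp
  · intro a b c; ring

theorem sl_ip_smul (r : ℝ) (x y : List Bool →₀ ℝ) : sl_ip (r • x) y = r * sl_ip x y := by
  unfold sl_ip
  rw [Finsupp.sum_smul_index (by intro a; simp), Finsupp.mul_sum]
  apply Finsupp.sum_congr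
  intro u _
  ring

theorem sl_ip_eq (x y : List Bool →₀ ℝ) (t : Finset (List Bool)) (hx : x.support ⊆ t) :
    sl_ip x y = ∑ u ∈ t, x u * y u := by
  unfold sl_ip
  rw [Finsupp.sum_of_support_subset x hx]
  intro i _; simp

theorem sl_ip_comm (x y : List Bool →₀ ℝ) : sl_ip x y = sl_ip y x := by
  classical
  rw [sl_ip_eq x y (x.support ∪ y.support) Finset.subset_union_left,
    sl_ip_eq y x (x.support ∪ y.support) Finset.subset_union_right]
  exact Finset.sum_congr rfl fun u _ => mul_comm _ _

theorem sl_ip_self' (x : List Bool →₀ ℝ) : sl_ip x x = ∑ u ∈ x.support, x u ^ 2 := by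
  rw [sl_ip_eq x x x.support subset_rfl]
  exact Finset.sum_congr rfl fun u _ => (sq _).symm

theorem sl_ip_nonneg (x : List Bool →₀ ℝ) : 0 ≤ sl_ip x x := by
  rw [sl_ip_self']
  exact Finset.sum_nonneg fun u _ => sq_nonneg _

theorem sl_ip_def (x : List Bool →₀ ℝ) (h : sl_ip x x = 0) : x = 0 := by
  rw [sl_ip_self', Finset.sum_eq_zero_iff_of_nonneg (fun u _ => sq_nonneg _)] at h
  ext u
  by_contra hu
  have := h u (Finsupp.mem_support_iff.2 hu)
  exact hu (by simpa using this)

@[instance_reducible] noncomputable def sl_core : InnerProductSpace.Core ℝ sl_V where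
  inner := sl_ip
  conj_inner_symm x y := sl_ip_comm y x
  re_inner_nonneg x := sl_ip_nonneg x
  add_left x y z := sl_ip_add x y z
  smul_left x y r := sl_ip_smul r x y
  definite x h := sl_ip_def x h

noncomputable instance sl_instN : NormedAddCommGroup sl_V := sl_core.toNormedAddCommGroup

noncomputable instance sl_instI : InnerProductSpace ℝ sl_V := InnerProductSpace.ofCore sl_core.toCore

open scoped RealInnerProductSpace

theorem sl_inner (x y : sl_V) : ⟪x, y⟫ = sl_ip x y := rfl

noncomputable def sl_cons (b : Bool) : Module.End ℝ sl_V :=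
  Finsupp.lmapDomain ℝ ℝ (fun u : List Bool => b :: u)

theorem sl_cons_inj (b : Bool) : Function.Injective (fun u : List Bool => b :: u) :=
  fun _ _ h => (List.cons.inj h).2

def sl_app (x : sl_V) (u : List Bool) : ℝ := (show List Bool →₀ ℝ from x) u

theorem sl_cons_app (b : Bool) (x : sl_V) (u : List Bool) : sl_app (sl_cons b x) (b :: u) =
    sl_app x u := Finsupp.mapDomain_apply (sl_cons_inj b) x u

theorem sl_cons_app' (b c : Bool) (h : c ≠ b) (x : sl_V) (u : List Bool) :
    sl_app (sl_cons b x) (c :: u) = 0 := by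
  apply Finsupp.mapDomain_of_notMem_range
  rintro ⟨v, hv⟩
  exact h (List.cons.inj hv).1.symm

theorem sl_cons_nil (b : Bool) (x : sl_V) : sl_app (sl_cons b x) [] = 0 := by
  apply Finsupp.mapDomain_of_notMem_range
  rintro ⟨v, hv⟩
  simp at hv

theorem sl_inner_cons (b : Bool) (x y : sl_V) : ⟪sl_cons b x, y⟫ =
    Finsupp.sum (show List Bool →₀ ℝ from x) (fun u a => a * sl_app y (b :: u)) := by
  rw [sl_inner]
  unfold sl_ip sl_cons
  exact Finsupp.sum_mapDomain_index_inj (sl_cons_inj b)

noncomputable def sl_Om : sl_V := (Finsupp.single [] 1 : List Bool →₀ ℝ)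

theorem sl_Om_app (u : List Bool) : sl_app sl_Om u = if u = [] then 1 else 0 := by
  show (Finsupp.single [] (1 : ℝ) : List Bool →₀ ℝ) u = _
  rw [Finsupp.single_apply]
  simp only [eq_comm]

theorem sl_inner_Om (y : sl_V) : ⟪sl_Om, y⟫ = sl_app y [] := by
  rw [sl_inner]
  show Finsupp.sum (Finsupp.single [] (1 : ℝ) : List Bool →₀ ℝ)
    (fun u a => a * sl_app y u) = _
  rw [Finsupp.sum_single_index (by simp), one_mul]

noncomputable def sl_F {κ : ℝ} (hκ : 0 ≤ κ) (sY : ℝ) : Fock (κ * sY ^ 2) sl_V where
  Z := sl_cons false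
  ζ := (√κ * sY) • sl_cons true
  Ω := sl_Om
  inner_Z x y := by
    rw [sl_inner_cons]
    simp only [sl_cons_app]
    rfl
  inner_ζ x y := by
    rw [LinearMap.smul_apply, LinearMap.smul_apply, inner_smul_left, inner_smul_right,
      sl_inner_cons]
    simp only [sl_cons_app]
    have h : ⟪x, y⟫ = Finsupp.sum (show List Bool →₀ ℝ from x) (fun u a => a * sl_app y u) := rfl
    rw [← h]
    simp only [RCLike.conj_to_real]
    have h2 := Real.mul_self_sqrt hκ
    calc √κ * sY * (√κ * sY * ⟪x, y⟫) = (√κ * √κ) * sY ^ 2 * ⟪x, y⟫ := by ring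
      _ = _ := by rw [h2]
  inner_Zζ x y := by
    rw [LinearMap.smul_apply, inner_smul_right, sl_inner_cons]
    have h : Finsupp.sum (show List Bool →₀ ℝ from x)
        (fun u a => a * sl_app (sl_cons true y) (false :: u)) = 0 :=
      Finset.sum_eq_zero fun u _ => by
        show _ * sl_app (sl_cons true y) (false :: u) = 0
        rw [sl_cons_app' true false (by decide), mul_zero]
    rw [h, mul_zero]
  inner_ΩΩ := by
    rw [sl_inner_Om, sl_Om_app, if_pos rfl]
  inner_ΩZ x := by
    rw [sl_inner_Om]
    exact sl_cons_nil false x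

theorem sl_app_add (x y : sl_V) (u : List Bool) : sl_app (x + y) u = sl_app x u + sl_app y u :=
  rfl

theorem sl_app_sub (x y : sl_V) (u : List Bool) : sl_app (x - y) u = sl_app x u - sl_app y u :=
  rfl

theorem sl_app_smul (a : ℝ) (x : sl_V) (u : List Bool) : sl_app (a • x) u = a * sl_app x u := rfl

theorem sl_norm_sq (x : sl_V) : ‖x‖ ^ 2 =
    ∑ u ∈ (show List Bool →₀ ℝ from x).support, sl_app x u ^ 2 := by
  rw [← real_inner_self_eq_norm_sq, sl_inner]
  exact sl_ip_self' x

theorem sl_op_w {κ : ℝ} (hκ : 0 ≤ κ) (s sY : ℝ) (x : sl_V) :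
    (sl_F hκ sY).op (w s) x = (1 - s) • x + s • sl_cons false x := by
  unfold Fock.op w
  simp only [map_add, map_mul, aeval_C, aeval_X, LinearMap.add_apply, Module.End.mul_apply,
        Module.algebraMap_end_apply]
  rfl

theorem sl_blks {κ : ℝ} (hκ : 0 ≤ κ) (s sY : ℝ) (B : List Bool) : ∀ u : List Bool,
    sl_app ((sl_F hκ sY).blks s sY B (sl_F hκ sY).Ω) u =
      coef s sY B u * √κ ^ (u.count true) := by
  induction B with
  | nil =>
    intro u
    show sl_app sl_Om u = _
    rw [sl_Om_app]
    cases u <;> simp [coef]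
  | cons b B ih =>
    intro u
    have h1 : (sl_F hκ sY).blks s sY (b :: B) (sl_F hκ sY).Ω =
        (sl_F hκ sY).blk s sY b ((sl_F hκ sY).blks s sY B (sl_F hκ sY).Ω) := by
      unfold Fock.blks
      rw [List.map_cons, List.prod_cons, Module.End.mul_apply]
    rw [h1]
    unfold Fock.blk
    cases b
    · simp only [Bool.false_eq_true, if_false]
      rw [sl_op_w, sl_app_add, sl_app_smul, sl_app_smul, ih]
      rcases u with _ | ⟨x, u⟩
      · rw [sl_cons_nil]
        simp [coef]
      · cases x
        · rw [sl_cons_app, ih]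
          simp [coef]
          ring
        · rw [sl_cons_app' false true (by decide)]
          simp [coef]
          ring
    · simp only [if_true]
      have h2 : (sl_F hκ sY).ζ = (√κ * sY) • sl_cons true := rfl
      rw [LinearMap.add_apply, sl_op_w, sl_app_add, sl_app_add, sl_app_smul, sl_app_smul, ih, h2,
        LinearMap.smul_apply, sl_app_smul]
      rcases u with _ | ⟨x, u⟩
      · rw [sl_cons_nil, sl_cons_nil]
        simp [coef]
      · cases x
        · rw [sl_cons_app, sl_cons_app' true false (by decide), ih]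
          simp [coef]
          ring
        · rw [sl_cons_app' false true (by decide), sl_cons_app, ih]
          simp [coef, pow_succ]
          ring

theorem sl_op_mark {κ : ℝ} (hκ : 0 ≤ κ) (sY : ℝ) (P : ℝ[X]) (u : List Bool) (hu : true ∈ u) :
    sl_app ((sl_F hκ sY).op P (sl_F hκ sY).Ω) u = 0 := by
  have hpow : ∀ (n : ℕ) (u : List Bool), true ∈ u →
      sl_app (((sl_F hκ sY).Z ^ n) sl_Om) u = 0 := by
    intro n
    induction n with
    | zero =>
      intro u hu
      show sl_app sl_Om u = 0
      rw [sl_Om_app, if_neg]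
      rintro rfl
      simp at hu
    | succ n ih =>
      intro u hu
      rw [pow_succ', Module.End.mul_apply]
      rcases u with _ | ⟨x, u⟩
      · simp at hu
      · cases x
        · have h1 := sl_cons_app false (((sl_F hκ sY).Z ^ n) sl_Om) u
          have h2 : true ∈ u := by simpa using hu
          exact h1.trans (ih u h2)
        · exact sl_cons_app' false true (by decide) _ u
  show sl_app ((aeval (sl_F hκ sY).Z P) sl_Om) u = 0
  rw [aeval_eq_sum_range, LinearMap.sum_apply]
  have hlin : ∀ (t : Finset ℕ) (f : ℕ → sl_V), sl_app (∑ i ∈ t, f i) u = ∑ i ∈ t, sl_app (f i) u := by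
    intro t f
    exact Finsupp.finsetSum_apply t f u
  rw [hlin]
  apply Finset.sum_eq_zero
  intro i _
  rw [LinearMap.smul_apply, sl_app_smul, hpow i u hu, mul_zero]

/-! ### words of given length -/

def sl_words : ℕ → Finset (List Bool)
  | 0 => {[]}
  | M + 1 => (sl_words M).image (fun u => false :: u) ∪ (sl_words M).image (fun u => true :: u)

theorem sl_mem_words (M : ℕ) : ∀ u : List Bool, u ∈ sl_words M ↔ u.length = M := by
  induction M with
  | zero => intro u; simp [sl_words]
  | succ M ih =>
    intro u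
    rcases u with _ | ⟨x, u⟩
    · simp [sl_words]
    · cases x <;> simp [sl_words, ih]

theorem sl_nsq_words (κ : ℝ) (M : ℕ) : ∀ c : List Bool → ℝ,
    nsq κ M c = ∑ u ∈ sl_words M, κ ^ (u.count true) * c u ^ 2 := by
  induction M with
  | zero => intro c; simp [nsq, sl_words]
  | succ M ih =>
    intro c
    simp only [nsq, sl_words]
    rw [Finset.sum_union, Finset.sum_image (fun _ _ _ _ h => (List.cons.inj h).2),
      Finset.sum_image (fun _ _ _ _ h => (List.cons.inj h).2), ih, ih, Finset.mul_sum]
    · refine congrArg₂ _ ?_ ?_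
      · apply Finset.sum_congr rfl
        intro u _
        simp
      · apply Finset.sum_congr rfl
        intro u _
        rw [List.count_cons_self, pow_succ]
        ring
    · rw [Finset.disjoint_left]
      intro u hu hu'
      rw [Finset.mem_image] at hu hu'
      obtain ⟨v, _, rfl⟩ := hu
      obtain ⟨v', _, h⟩ := hu'
      simp at h

theorem sl_sum_nsq (κ : ℝ) (c : List Bool → ℝ) (x : sl_V)
    (h : ∀ u, κ ^ (u.count true) * c u ^ 2 ≤ sl_app x u ^ 2) (M : ℕ) :
    ∑ k ∈ Finset.range (M + 1), nsq κ k c ≤ ‖x‖ ^ 2 := by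
  classical
  rw [sl_norm_sq]
  have h1 : ∀ k, nsq κ k c ≤
      ∑ u ∈ (show List Bool →₀ ℝ from x).support.filter (fun u => u.length = k),
        sl_app x u ^ 2 := by
    intro k
    rw [sl_nsq_words]
    calc ∑ u ∈ sl_words k, κ ^ (u.count true) * c u ^ 2 ≤ ∑ u ∈ sl_words k, sl_app x u ^ 2 :=
          Finset.sum_le_sum fun u _ => h u
      _ = ∑ u ∈ (sl_words k).filter (fun u => sl_app x u ≠ 0), sl_app x u ^ 2 := by
          rw [Finset.sum_filter_of_ne]
          intro u _ hu h0
          apply hu
          rw [h0]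
          simp
      _ = _ := by
          apply Finset.sum_congr _ (fun _ _ => rfl)
          ext u
          rw [Finset.mem_filter, Finset.mem_filter, sl_mem_words, Finsupp.mem_support_iff]
          exact and_comm
  refine (Finset.sum_le_sum fun k _ => h1 k).trans ?_
  rw [← Finset.sum_biUnion]
  · apply Finset.sum_le_sum_of_subset_of_nonneg
    · intro u hu
      rw [Finset.mem_biUnion] at hu
      obtain ⟨k, _, hk⟩ := hu
      exact (Finset.mem_filter.1 hk).1
    · intro u _ _
      exact sq_nonneg _
  · intro k _ l _ hkl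
    rw [Function.onFun, Finset.disjoint_left]
    intro u hu hu'
    exact hkl ((Finset.mem_filter.1 hu).2.symm.trans (Finset.mem_filter.1 hu').2)

theorem slice {κ sY : ℝ} (hκ : 0 ≤ κ) (hY : 0 ≤ sY) :
    ∃ (V : Type) (_ : NormedAddCommGroup V) (_ : InnerProductSpace ℝ V)
      (F : Fock (κ * sY ^ 2) V),
      (∀ (s : ℝ) (B B' : List Bool) (n M : ℕ),
        nsq κ M (fun u => coef s sY (B ++ List.replicate n false) u -
            coef s sY (B' ++ List.replicate n false) u) ≤
          ip (w s ^ n) (w s ^ n) * ‖F.blks s sY B F.Ω - F.blks s sY B' F.Ω‖ ^ 2) ∧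
      (∀ (s : ℝ) (B : List Bool) (n M : ℕ),
        nsq κ M (coef s sY (B ++ List.replicate n false)) -
            (coef s sY (B ++ List.replicate n false) (List.replicate M false)) ^ 2 ≤
          ip (w s ^ n) (w s ^ n) *
            ‖F.blks s sY B F.Ω -
              F.op (w s ^ B.count false * w sY ^ B.count true) F.Ω‖ ^ 2) := by
  have hk : ∀ (j : ℕ), (√κ ^ j) ^ 2 = κ ^ j := by
    intro j
    rw [← pow_mul, mul_comm, pow_mul, Real.sq_sqrt hκ]
  have hip : ∀ P : ℝ[X], 0 ≤ ip P P := fun P => by
    rw [sl_ip_self]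
    exact Finset.sum_nonneg fun j _ => sq_nonneg _
  refine ⟨sl_V, sl_instN, sl_instI, sl_F hκ sY, ?_, ?_⟩
  · intro s B B' n M
    have h1 : (fun u => coef s sY (B ++ List.replicate n false) u -
        coef s sY (B' ++ List.replicate n false) u) =
        aeval sl_RL (w s ^ n) (coef s sY B - coef s sY B') := by
      rw [map_sub, ← sl_coef_replicate, ← sl_coef_replicate]
      rfl
    rw [h1]
    refine (sl_nsq_aeval hκ _ _ M).trans ?_
    apply mul_le_mul_of_nonneg_left _ (hip _)
    apply sl_sum_nsq
    intro u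
    rw [sl_app_sub, sl_blks, sl_blks, ← sub_mul, mul_pow, hk, mul_comm]
    exact le_rfl
  · intro s B n M
    rw [sl_nsq_mk, add_sub_cancel_right, sl_coef_replicate, sl_mk_aeval]
    refine (sl_nsq_aeval hκ _ _ M).trans ?_
    apply mul_le_mul_of_nonneg_left _ (hip _)
    apply sl_sum_nsq
    intro u
    by_cases hu : true ∈ u
    · rw [sl_app_sub, sl_blks, sl_op_mark hκ sY _ u hu, sub_zero, mul_pow, hk, mul_comm]
      simp [sl_mk, hu]
    · have : sl_mk (coef s sY B) u = 0 := by simp [sl_mk, hu]
      rw [this]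
      simp only [ne_eq, OfNat.ofNat_ne_zero, not_false_eq_true, zero_pow, mul_zero]
      exact sq_nonneg _

end Vale.Agent.P321
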