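import Vale.Agent.P321.Core
import Vale.Agent.P321.KernBounds
import Vale.Agent.P321.Slice
import Vale.Agent.P321.Reduction

namespace Vale.Agent.P321

open Polynomial

/-! ### counting -/

theorem fa_len (l : List Bool) : l.length = l.count false + l.count true := by
  induction l with
  | nil => rfl
  | cons b l ih =>
    rw [List.length_cons, ih]
    cases b <;> simp <;> omega

theorem fa_per_true {h : ℕ} (b : Bool) : (per h b).count true = 1 := by
  unfold per
  cases b <;> simp [List.count_replicate]

theorem fa_per_false {h : ℕ} (hh : 1 ≤ h) (b : Bool) : (per h b).count false = 2 * h := by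
  unfold per
  cases b
  · simp [List.count_replicate]; omega
  · simp [List.count_replicate]; omega

theorem fa_pat_len (m : ℕ) : ∀ b, (pat m b).length = 2 ^ m := by
  induction m with
  | zero => intro b; rfl
  | succ m ih =>
    intro b
    simp only [pat, List.length_append, ih]
    rw [pow_succ]; omega

theorem fa_flat_true {h : ℕ} (l : List Bool) : (l.flatMap (per h)).count true = l.length := by
  induction l with
  | nil => rfl
  | cons b l ih =>
    rw [List.flatMap_cons, List.count_append, ih, fa_per_true, List.length_cons]; omega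

theorem fa_flat_false {h : ℕ} (hh : 1 ≤ h) (l : List Bool) :
    (l.flatMap (per h)).count false = l.length * (2 * h) := by
  induction l with
  | nil => simp
  | cons b l ih =>
    rw [List.flatMap_cons, List.count_append, ih, fa_per_false hh, List.length_cons]; ring

theorem fa_comb_true (h R m : ℕ) (b : Bool) : (comb h R m b).count true = 2 * R + 2 ^ m := by
  unfold comb
  rw [fa_flat_true]
  simp [fa_pat_len]; omega

theorem fa_comb_false {h : ℕ} (hh : 1 ≤ h) (R m : ℕ) (b : Bool) :
    (comb h R m b).count false = (2 * R + 2 ^ m) * (2 * h) := by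
  unfold comb
  rw [fa_flat_false hh]
  congr 1
  simp [fa_pat_len]; omega

/-- the final strings -/
def BB (N h R m : ℕ) (b : Bool) : List Bool := core N h R m b ++ List.replicate N false

theorem fa_BB_true (N h R m : ℕ) (b : Bool) : (BB N h R m b).count true = 2 * R + 2 ^ m := by
  unfold BB core
  rw [List.count_append, List.count_append, List.count_append, fa_comb_true]
  simp [List.count_replicate]

theorem fa_BB_false {h : ℕ} (hh : 1 ≤ h) (N R m : ℕ) (b : Bool) :
    (BB N h R m b).count false = 5 * N + (2 * R + 2 ^ m) * (2 * h) := by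
  unfold BB core
  rw [List.count_append, List.count_append, List.count_append, fa_comb_false hh]
  simp [List.count_replicate]
  ring

theorem fa_pat_cons (m : ℕ) : ∀ b, ∃ l, pat m b = b :: l := by
  induction m with
  | zero => intro b; exact ⟨[], rfl⟩
  | succ m ih =>
    intro b
    obtain ⟨l, hl⟩ := ih b
    exact ⟨l ++ pat m (!b), by simp only [pat, hl, List.cons_append]⟩

theorem fa_BB_ne {h : ℕ} (hh : 1 ≤ h) (N R m : ℕ) : BB N h R m true ≠ BB N h R m false := by
  intro heq
  unfold BB core comb at heq
  obtain ⟨l1, hl1⟩ := fa_pat_cons m true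
  obtain ⟨l2, hl2⟩ := fa_pat_cons m false
  rw [hl1, hl2] at heq
  simp only [List.flatMap_append, List.append_assoc, List.flatMap_cons] at heq
  have h1 := List.append_cancel_left heq
  have h2 := List.append_cancel_left h1
  -- compare element h
  have h3 : ∀ (t : List Bool), ((per h true) ++ t)[h]? = some false := by
    intro t
    unfold per
    rw [List.getElem?_append_left (by simp; omega)]
    simp only [if_true]
    rw [List.getElem?_append_left (by simp)]
    simp
  have h4 : ∀ (t : List Bool), ((per h false) ++ t)[h]? = some true := by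
    intro t
    unfold per
    rw [List.getElem?_append_left (by simp)]
    simp only [Bool.false_eq_true, if_false]
    rw [List.getElem?_append_right (by simp)]
    simp
  have h5 := congrArg (fun l => l[h]?) h2
  rw [h3, h4] at h5
  exact absurd h5 (by simp)

/-! ### lower bound for the mass `P0` -/

theorem fa_P0 {δ : ℝ} (hδ : 0 < δ) : ∃ c : ℝ, 0 < c ∧ ∃ n₀ : ℕ, ∀ (a D M : ℕ) (s sY : ℝ),
    n₀ ≤ a → δ ≤ s → s ≤ 1 - δ → 0 ≤ sY → sY ≤ 1 → (D : ℝ) ≤ √(a : ℝ) → D ≤ M →
    (M : ℝ) = s * (a + D) → c / √(a : ℝ) ≤ (w s ^ a * w sY ^ D).coeff M := by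
  obtain ⟨c, hc, n₀, hw⟩ := w_pow_coeff_ge hδ 1
  refine ⟨c, hc, n₀, ?_⟩
  intro a D M s sY ha hs0 hs1 hY0 hY1 hDa hDM hM
  have hQ : ∀ i, 0 ≤ (w sY ^ D).coeff i := coeff_pow_nonneg _ (w_coeff_nonneg hY0 hY1) _
  rw [mul_comm, coeff_mul,
    Finset.Nat.sum_antidiagonal_eq_sum_range_succ
      (fun i j => (w sY ^ D).coeff i * (w s ^ a).coeff j)]
  have hdeg : (w sY ^ D).natDegree < D + 1 := by
    have h1 : (w sY).natDegree ≤ 1 := by
      unfold w
      refine (natDegree_add_le _ _).trans ?_
      rw [natDegree_C]
      refine max_le (by norm_num) ?_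
      exact (natDegree_C_mul_le _ _).trans natDegree_X_le
    have h2 := natDegree_pow_le (p := w sY) (n := D)
    have h3 : D * (w sY).natDegree ≤ D * 1 := Nat.mul_le_mul_left _ h1
    omega
  have hsum : ∑ i ∈ Finset.range (D + 1), (w sY ^ D).coeff i = 1 := by
    have h1 := l1_w_pow hY0 hY1 D
    rw [l1_eq_sum _ (D + 1) hdeg] at h1
    rw [← h1]
    apply Finset.sum_congr rfl
    intro i _
    rw [abs_of_nonneg (hQ i)]
  have hsub : Finset.range (D + 1) ⊆ Finset.range M.succ := by
    intro i hi
    rw [Finset.mem_range] at hi ⊢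
    omega
  have hPa : ∀ i, 0 ≤ (w s ^ a).coeff i :=
    coeff_pow_nonneg _ (w_coeff_nonneg (by linarith) (by linarith)) _
  refine le_trans ?_ (Finset.sum_le_sum_of_subset_of_nonneg hsub
    (fun i _ _ => mul_nonneg (hQ i) (hPa _)))
  have hterm : ∀ i ∈ Finset.range (D + 1), (w sY ^ D).coeff i * (c / √(a : ℝ)) ≤
      (w sY ^ D).coeff i * (w s ^ a).coeff (M - i) := by
    intro i hi
    rw [Finset.mem_range] at hi
    apply mul_le_mul_of_nonneg_left _ (hQ i)
    apply hw a ha s hs0 hs1
    have hiM : i ≤ M := by omega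
    rw [Nat.cast_sub hiM, one_mul]
    refine le_trans ?_ hDa
    have hiD : (i : ℝ) ≤ D := by exact_mod_cast (by omega : i ≤ D)
    have hi0 : (0 : ℝ) ≤ i := Nat.cast_nonneg i
    have hD0 : (0 : ℝ) ≤ D := Nat.cast_nonneg D
    have h1 : (M : ℝ) - i - s * a = s * D - i := by rw [hM]; ring
    rw [h1, abs_le]
    constructor
    · nlinarith [mul_nonneg (by linarith : 0 ≤ s) hD0]
    · nlinarith
  refine le_trans ?_ (Finset.sum_le_sum hterm)
  rw [← Finset.sum_mul, hsum, one_mul]

end Vale.Agent.P321
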