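import Vale.Agent.P321.FinalMid

namespace Vale.Agent.P321

open Polynomial

theorem tiltY_bounds {q s : ℝ} (hq0 : 0 < q) (hs0 : 0 < s) (hs1 : s < 1) :
    0 ≤ tiltY q s ∧ tiltY q s ≤ s := by
  unfold tiltY
  have hr0 : 0 < q / (1 + q) := by positivity
  have hr1 : q / (1 + q) ≤ 1 := by rw [div_le_one (by linarith)]; linarith
  set r := q / (1 + q) with hr
  have h1 : 0 < 1 - s := by linarith
  have h2 : 0 < 1 - s + r * s := by positivity
  refine ⟨by positivity, ?_⟩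
  rw [div_le_iff₀ h2]
  have h3 : r * (1 - s) ≤ 1 * (1 - s) := mul_le_mul_of_nonneg_right hr1 h1.le
  nlinarith

/-- numeric bound for the final combination -/
theorem ff_num {k : ℕ} {X A P0 cw E1 E2 K1 K2 nsd nsh : ℝ} (hX : 1 ≤ X) (hA : 1 ≤ A)
    (hcw : 0 < cw) (hP0 : cw / (4 * A ^ 2) ≤ P0) (hE1 : 0 ≤ E1) (hE2 : 0 ≤ E2)
    (hnsd : nsd ≤ E1 * (X ^ 11 / A ^ 11))
    (hnsh0 : 0 ≤ nsh) (hnsh : nsh ≤ E2 / (A ^ 4 * X ^ 2)) (hAk : A = X ^ k)
    (hK1 : K1 = 5 * E1 * 16 / cw ^ 2) (hK2 : K2 = (16 / 9) * E2 * 16 / cw ^ 2) :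
    5 * nsd / P0 ^ 2 + ((16 / 9) * nsh / P0 ^ 2) ^ (4 * k) ≤ (K1 + K2 ^ (4 * k)) * (X ^ 11 / A ^ 7) := by
  have hX0 : 0 < X := by linarith
  have hA0 : 0 < A := by linarith
  have hP : 0 < P0 := lt_of_lt_of_le (by positivity) hP0
  have hP2 : cw ^ 2 / (16 * A ^ 4) ≤ P0 ^ 2 := by
    have := pow_le_pow_left₀ (by positivity) hP0 2
    refine le_trans (le_of_eq ?_) this
    rw [div_pow]
    ring
  have hP2' : 0 < cw ^ 2 / (16 * A ^ 4) := by positivity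
  have h1 : 5 * nsd / P0 ^ 2 ≤ K1 * (X ^ 11 / A ^ 7) := by
    calc 5 * nsd / P0 ^ 2 ≤ 5 * (E1 * (X ^ 11 / A ^ 11)) / P0 ^ 2 := by gcongr
      _ ≤ 5 * (E1 * (X ^ 11 / A ^ 11)) / (cw ^ 2 / (16 * A ^ 4)) := by gcongr
      _ = K1 * (X ^ 11 / A ^ 7) := by
          rw [hK1]
          field_simp
  have h2 : (16 / 9) * nsh / P0 ^ 2 ≤ K2 / X ^ 2 := by
    calc (16 / 9) * nsh / P0 ^ 2 ≤ (16 / 9) * (E2 / (A ^ 4 * X ^ 2)) / P0 ^ 2 := by gcongr
      _ ≤ (16 / 9) * (E2 / (A ^ 4 * X ^ 2)) / (cw ^ 2 / (16 * A ^ 4)) := by gcongr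
      _ = K2 / X ^ 2 := by
          rw [hK2]
          field_simp
  have hK20 : 0 ≤ K2 := by rw [hK2]; positivity
  have h3 : ((16 / 9) * nsh / P0 ^ 2) ^ (4 * k) ≤ K2 ^ (4 * k) * (X ^ 11 / A ^ 7) := by
    have h30 : 0 ≤ (16 / 9) * nsh / P0 ^ 2 := by positivity
    refine (pow_le_pow_left₀ h30 h2 (4 * k)).trans ?_
    rw [div_pow, ← pow_mul]
    have e1 : X ^ (2 * (4 * k)) = A ^ 8 := by
      rw [hAk, ← pow_mul]; congr 1; ring
    rw [e1, div_eq_mul_one_div]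
    apply mul_le_mul_of_nonneg_left _ (by positivity)
    rw [div_le_div_iff₀ (by positivity) (by positivity)]
    have e2 : (1 : ℝ) ≤ X ^ 11 := one_le_pow₀ hX
    have e3 : A ^ 7 ≤ A ^ 8 := pow_le_pow_right₀ hA (by norm_num)
    exact mul_le_mul e2 e3 (by positivity) (by positivity)
  calc _ ≤ K1 * (X ^ 11 / A ^ 7) + K2 ^ (4 * k) * (X ^ 11 / A ^ 7) := add_le_add h1 h3
    _ = _ := by ring

/-- the hypothesis of `reduction` at scale `u` -/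
theorem Sc.eta {k u : ℕ} {X A : ℝ} {h R N D a : ℕ} (S : Sc k u X A h R N D a) (hk : 5 ≤ k)
    {q κ C Cf cw s sY P0 : ℝ} {M : ℕ}
    (hq0 : 0 < q) (hκ0 : 0 ≤ κ) (hκq : 1 / q ≤ κ) (hC : 1 ≤ C) (hCf : 0 ≤ Cf) (hcw : 0 < cw)
    (hchain : ∀ {κ' : ℝ} {V : Type} [NormedAddCommGroup V] [InnerProductSpace ℝ V]
      (F : Fock κ' V) {s sY : ℝ} {h R L N : ℕ} {lam mu nu2 : ℝ}, 0 ≤ κ' → κ' ≤ κ →
      KB s sY h L N k C lam mu nu2 → 64 * (κ' * C) * √(((L : ℝ) + 1) / h) ≤ 1 →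
      aa h R ^ 2 ≤ aa h 0 ^ 3 → 2 * R + 2 ^ k ≤ L →
      ‖F.blks s sY (core N h R k true) F.Ω - F.blks s sY (core N h R k false) F.Ω‖ ^ 2 ≤
        Cf * lam * nu2 * aa h 0 ^ 3 * (mu ^ (2 * k) + aa h R + aa h 0 ^ 2))
    (hX : 128 * (κ * C) ≤ X) (hY0 : 0 ≤ sY) (hY1 : sY ≤ 1)
    (hKB : KB s sY (u ^ (2 * k - 2)) (3 * u ^ (2 * k - 6)) (u ^ (4 * k)) k C
        (C * (u : ℝ) ^ 4 / (u : ℝ) ^ (2 * k)) (C / (u : ℝ) ^ 2) (C / (u : ℝ) ^ (2 * k)))
    (hP0def : P0 = coef s sY (BB N h R k true) (List.replicate M false))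
    (hP0low : cw / (4 * A ^ 2) ≤ P0) :
    5 * nsq (1 / q) M (fun u => coef s sY (BB N h R k true) u - coef s sY (BB N h R k false) u) /
        P0 ^ 2 +
      ((16 / 9) * (nsq κ M (coef s sY (BB N h R k true)) - P0 ^ 2) / P0 ^ 2) ^ (4 * k) ≤
    (5 * (Cf * C ^ 3 * (C ^ (2 * k) + 2)) * 16 / cw ^ 2 +
      ((16 / 9) * (12 * κ * C ^ 3) * 16 / cw ^ 2) ^ (4 * k)) * (X ^ 11 / A ^ 7) := by
  have hX0 := S.X0
  have hX1 := S.X1
  have hA0 := S.A0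
  have hA1 := S.A1
  have hC0 : 0 ≤ C := by linarith
  have hK := hKB
  rw [← S.hh, ← S.hR, ← S.hN, ← S.hXdef] at hK
  obtain ⟨V, _, _, F, hF1, hF2⟩ := slice hκ0 hY0
  have hsY2 : sY ^ 2 ≤ 1 := pow_le_one₀ hY0 hY1
  have hκs0 : 0 ≤ κ * sY ^ 2 := by positivity
  have hκs1 : κ * sY ^ 2 ≤ κ := by
    calc κ * sY ^ 2 ≤ κ * 1 := mul_le_mul_of_nonneg_left hsY2 hκ0
      _ = κ := mul_one _
  have hsm : 64 * (κ * sY ^ 2 * C) * √((((3 * R : ℕ) : ℝ) + 1) / h) ≤ 1 := by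
    have e1 := fn_small k u hk S.hu1
    rw [← S.hh, ← S.hR, ← S.hXdef] at e1
    have e3 : 64 * (κ * sY ^ 2 * C) ≤ 64 * (κ * C) := by
      apply mul_le_mul_of_nonneg_left _ (by norm_num)
      exact mul_le_mul_of_nonneg_right hκs1 hC0
    calc 64 * (κ * sY ^ 2 * C) * √((((3 * R : ℕ) : ℝ) + 1) / h) ≤ 64 * (κ * C) * (2 / X ^ 2) :=
          mul_le_mul e3 e1 (Real.sqrt_nonneg _) (by positivity)
      _ = (128 * (κ * C)) / X ^ 2 := by ring
      _ ≤ X / X ^ 2 := div_le_div_of_nonneg_right hX (by positivity)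
      _ = 1 / X := by field_simp
      _ ≤ 1 := by rw [div_le_one hX0]; exact hX1
  have haR2 : aa h R ^ 2 ≤ aa h 0 ^ 3 := by rw [S.hh, S.hR]; exact fn_aaR2 k u hk S.hu1
  have hL : 2 * R + 2 ^ k ≤ 3 * R := by have := S.h2k; omega
  have hcd := hchain F hκs0 hκs1 hK hsm haR2 hL
  have hch := chain_hid F hκs0 hK hsm hL true
  have hip : 0 ≤ ip (w s ^ N) (w s ^ N) := by
    rw [ip_eq_sum _ _ _ (Nat.lt_succ_self _)]
    exact Finset.sum_nonneg (fun i _ => mul_self_nonneg _)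
  -- difference
  have hnsd : nsq (1 / q) M (fun u => coef s sY (BB N h R k true) u - coef s sY (BB N h R k false) u) ≤
      (Cf * C ^ 3 * (C ^ (2 * k) + 2)) * (X ^ 11 / A ^ 11) := by
    refine (nsq_mono (by positivity) hκq M _).trans ?_
    refine (hF1 s (core N h R k true) (core N h R k false) N M).trans ?_
    refine (mul_le_mul hK.hnu hcd (sq_nonneg _) (by positivity)).trans ?_
    exact fn_diff k X A C Cf (aa h 0) (aa h R) hX1 hA1 hC hCf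
      (by rw [S.hh, S.hA, S.hXdef]; exact fn_aa0 k u hk S.hu1) (by unfold aa; positivity)
      (by rw [S.hh, S.hR, S.hA, S.hXdef]; exact fn_aaR k u hk S.hu1) S.hA
  have hnsh0 : 0 ≤ nsq κ M (coef s sY (BB N h R k true)) - P0 ^ 2 := by
    have := fn_nsq_ge hκ0 M (coef s sY (BB N h R k true))
    rw [← hP0def] at this
    linarith
  have hnsh : nsq κ M (coef s sY (BB N h R k true)) - P0 ^ 2 ≤ (12 * κ * C ^ 3) / (A ^ 4 * X ^ 2) := by
    have e1 := hF2 s (core N h R k true) N M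
    have e2 : coef s sY (core N h R k true ++ List.replicate N false) (List.replicate M false) = P0 :=
      hP0def.symm
    rw [e2] at e1
    refine e1.trans ?_
    refine (mul_le_mul hK.hnu hch (sq_nonneg _) (by positivity)).trans ?_
    have hXk : X ^ (2 * k) = A ^ 2 := by rw [S.hA, ← pow_mul, mul_comm]
    rw [hXk]
    push_cast
    rw [S.hRr]
    have e3 : 4 * (κ * sY ^ 2) ≤ 4 * κ := mul_le_mul_of_nonneg_left hκs1 (by norm_num)
    calc C / A ^ 2 * (4 * (κ * sY ^ 2) * (C * X ^ 4 / A ^ 2) * (3 * (A ^ 2 / X ^ 6)) * (C / A ^ 2))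
        ≤ C / A ^ 2 * (4 * κ * (C * X ^ 4 / A ^ 2) * (3 * (A ^ 2 / X ^ 6)) * (C / A ^ 2)) := by
          apply mul_le_mul_of_nonneg_left _ (by positivity)
          apply mul_le_mul_of_nonneg_right _ (by positivity)
          apply mul_le_mul_of_nonneg_right _ (by positivity)
          exact mul_le_mul_of_nonneg_right e3 (by positivity)
      _ = (12 * κ * C ^ 3) / (A ^ 4 * X ^ 2) := by
          field_simp
          ring
  exact ff_num (k := k) hX1 hA1 hcw hP0low (by positivity) (by positivity) hnsd hnsh0 hnsh S.hA rfl rfl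

end Vale.Agent.P321
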