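import Vale.Agent.P321.FinalNum

namespace Vale.Agent.P321

open Polynomial

/-- sizes at scale `u` -/
structure Sc (k u : ℕ) (X A : ℝ) (h R N D a : ℕ) : Prop where
  hXdef : X = (u : ℝ)
  hu1 : 1 ≤ u
  hX4 : 4 ≤ X
  hA : A = X ^ k
  hAX : X ^ 5 ≤ A
  hh : h = u ^ (2 * k - 2)
  hR : R = u ^ (2 * k - 6)
  hN : N = u ^ (4 * k)
  hh1 : 1 ≤ h
  hhr : (h : ℝ) = A ^ 2 / X ^ 2
  hRr : (R : ℝ) = A ^ 2 / X ^ 6
  hNr : (N : ℝ) = A ^ 4
  h2k : 2 ^ k ≤ R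
  hD : D = 2 * R + 2 ^ k
  ha : a = 5 * N + D * (2 * h)
  hXA : X ≤ A

theorem sc_mk (k u : ℕ) (hk : 5 ≤ k) (hu4 : 4 ≤ u) :
    ∃ (X A : ℝ) (h R N D a : ℕ), Sc k u X A h R N D a := by
  obtain ⟨X, hXdef⟩ : ∃ X : ℝ, X = (u : ℝ) := ⟨_, rfl⟩
  have hu1 : 1 ≤ u := by omega
  have hX4 : 4 ≤ X := by rw [hXdef]; exact_mod_cast hu4
  have hX1 : 1 ≤ X := by linarith
  obtain ⟨A, hA⟩ : ∃ A : ℝ, A = X ^ k := ⟨_, rfl⟩
  have hAX : X ^ 5 ≤ A := by rw [hA, hXdef]; exact fn_A k u hk hu1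
  have hX5 : X ≤ X ^ 5 := by
    calc X = X ^ 1 := (pow_one X).symm
      _ ≤ X ^ 5 := pow_le_pow_right₀ hX1 (by norm_num)
  obtain ⟨h, hh⟩ : ∃ h : ℕ, h = u ^ (2 * k - 2) := ⟨_, rfl⟩
  obtain ⟨R, hR⟩ : ∃ R : ℕ, R = u ^ (2 * k - 6) := ⟨_, rfl⟩
  obtain ⟨N, hN⟩ : ∃ N : ℕ, N = u ^ (4 * k) := ⟨_, rfl⟩
  have h2k : 2 ^ k ≤ R := by
    rw [hR]
    calc 2 ^ k ≤ 2 ^ (2 * (k - 1)) := Nat.pow_le_pow_right (by norm_num) (by omega)
      _ = 4 ^ (k - 1) := by rw [pow_mul]; norm_num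
      _ ≤ u ^ (k - 1) := Nat.pow_le_pow_left hu4 _
      _ ≤ u ^ (2 * k - 6) := Nat.pow_le_pow_right hu1 (by omega)
  exact ⟨X, A, h, R, N, 2 * R + 2 ^ k, 5 * N + (2 * R + 2 ^ k) * (2 * h),
    { hXdef := hXdef, hu1 := hu1, hX4 := hX4, hA := hA, hAX := hAX, hh := hh, hR := hR, hN := hN
      hh1 := by rw [hh]; exact Nat.one_le_pow _ _ (by omega)
      hhr := by rw [hh, hA, hXdef]; exact fn_h k u hk hu1
      hRr := by rw [hR, hA, hXdef]; exact fn_R k u hk hu1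
      hNr := by rw [hN, hA, hXdef]; exact fn_N k u
      h2k := h2k, hD := rfl, ha := rfl, hXA := hX5.trans hAX }⟩

section

variable {k u : ℕ} {X A : ℝ} {h R N D a : ℕ}

theorem Sc.X1 (S : Sc k u X A h R N D a) : 1 ≤ X := by linarith [S.hX4]
theorem Sc.X0 (S : Sc k u X A h R N D a) : 0 < X := by linarith [S.hX4]
theorem Sc.A1 (S : Sc k u X A h R N D a) : 1 ≤ A := by linarith [S.hX4, S.hXA]
theorem Sc.A0 (S : Sc k u X A h R N D a) : 0 < A := by linarith [S.hX4, S.hXA]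
theorem Sc.N0 (S : Sc k u X A h R N D a) : (0 : ℝ) < N := by
  have := S.A0; rw [S.hNr]; positivity

theorem Sc.DR (S : Sc k u X A h R N D a) : D ≤ 3 * R := by
  have h1 := S.hD; have h2 := S.h2k; omega

theorem Sc.DRr (S : Sc k u X A h R N D a) : (D : ℝ) ≤ 3 * R := by exact_mod_cast S.DR

theorem Sc.Rh (S : Sc k u X A h R N D a) : (R : ℝ) * h ≤ N := by
  have hX0 := S.X0
  have hA0 := S.A0
  rw [S.hRr, S.hhr, S.hNr]
  have e1 : A ^ 2 / X ^ 6 * (A ^ 2 / X ^ 2) = A ^ 4 / X ^ 8 := by field_simp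
  rw [e1]
  apply div_le_self (by positivity)
  exact one_le_pow₀ S.X1

theorem Sc.ar (S : Sc k u X A h R N D a) : (a : ℝ) ≤ 11 * N := by
  rw [S.ha]
  push_cast
  have hh0 : (0 : ℝ) ≤ h := Nat.cast_nonneg h
  have h1 : (D : ℝ) * (2 * h) ≤ (3 * R) * (2 * h) :=
    mul_le_mul_of_nonneg_right S.DRr (by positivity)
  have h2 := S.Rh
  linarith

theorem Sc.ar5 (S : Sc k u X A h R N D a) : 5 * (N : ℝ) ≤ a := by
  rw [S.ha]
  push_cast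
  have : (0 : ℝ) ≤ (D : ℝ) * (2 * h) := by positivity
  linarith

theorem Sc.DA (S : Sc k u X A h R N D a) : (D : ℝ) ≤ A ^ 2 := by
  have hX0 := S.X0
  have hX1 := S.X1
  have hX4 := S.hX4
  refine S.DRr.trans ?_
  rw [S.hRr]
  have e1 : 3 * (A ^ 2 / X ^ 6) = (3 / X ^ 6) * A ^ 2 := by ring
  rw [e1]
  have e2 : 3 / X ^ 6 ≤ 1 := by
    rw [div_le_one (by positivity)]
    calc (3 : ℝ) ≤ X := by linarith
      _ = X ^ 1 := (pow_one X).symm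
      _ ≤ X ^ 6 := pow_le_pow_right₀ hX1 (by norm_num)
  nlinarith [sq_nonneg A]

theorem Sc.A2N (S : Sc k u X A h R N D a) : A ^ 2 ≤ N := by
  rw [S.hNr]; exact pow_le_pow_right₀ S.A1 (by norm_num)

theorem Sc.ct (S : Sc k u X A h R N D a) (b : Bool) : (BB N h R k b).count true = D := by
  rw [fa_BB_true, S.hD]

theorem Sc.cf (S : Sc k u X A h R N D a) (b : Bool) : (BB N h R k b).count false = a := by
  rw [fa_BB_false S.hh1, S.ha, S.hD]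

theorem Sc.len (S : Sc k u X A h R N D a) (b : Bool) : (BB N h R k b).length = a + D := by
  rw [fa_len, S.ct, S.cf]

theorem Sc.Da (S : Sc k u X A h R N D a) : D ≤ a := by
  have h1 := S.DA
  have h2 := S.A2N
  have h3 := S.ar5
  have h4 := S.N0
  have : (D : ℝ) ≤ a := by linarith
  exact_mod_cast this

theorem Sc.sqa (S : Sc k u X A h R N D a) : √(a : ℝ) ≤ 4 * A ^ 2 := by
  have hA0 := S.A0
  rw [Real.sqrt_le_left (by positivity)]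
  refine S.ar.trans ?_
  rw [S.hNr]
  have : (4 * A ^ 2) ^ 2 = 16 * A ^ 4 := by ring
  rw [this]
  have : 0 < A ^ 4 := by positivity
  linarith

theorem Sc.sqa' (S : Sc k u X A h R N D a) : A ^ 2 ≤ √(a : ℝ) := by
  apply Real.le_sqrt_of_sq_le
  have h1 : (A ^ 2) ^ 2 = (N : ℝ) := by rw [S.hNr]; ring
  rw [h1]
  have := S.ar5
  have := S.N0
  linarith

theorem Sc.P0low (S : Sc k u X A h R N D a) {δ cw : ℝ} {n₀ : ℕ} (hδ0 : 0 < δ) (hcw : 0 < cw)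
    (hP0 : ∀ (a D M : ℕ) (s sY : ℝ),
      n₀ ≤ a → δ ≤ s → s ≤ 1 - δ → 0 ≤ sY → sY ≤ 1 → (D : ℝ) ≤ √(a : ℝ) → D ≤ M →
      (M : ℝ) = s * (a + D) → cw / √(a : ℝ) ≤ (w s ^ a * w sY ^ D).coeff M)
    (hn : n₀ ≤ u) (hδu : 1 / δ ≤ (u : ℝ)) {M : ℕ} {s sY : ℝ} (hs0 : δ ≤ s) (hs1 : s ≤ 1 - δ)
    (hY0 : 0 ≤ sY) (hY1 : sY ≤ 1) (hMs : (M : ℝ) = s * ((a : ℝ) + D)) :
    cw / (4 * A ^ 2) ≤ coef s sY (BB N h R k true) (List.replicate M false) := by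
  have hA0 := S.A0
  have hA1 := S.A1
  have hX0 := S.X0
  have har5 := S.ar5
  rw [coef_plain, S.ct, S.cf]
  have hsqa0 : 0 < √(a : ℝ) := lt_of_lt_of_le (by positivity) S.sqa'
  have e1 : cw / (4 * A ^ 2) ≤ cw / √(a : ℝ) :=
    div_le_div_of_nonneg_left hcw.le hsqa0 S.sqa
  refine e1.trans ?_
  have hAN : X ≤ (N : ℝ) := by
    rw [S.hNr]
    calc X ≤ A := S.hXA
      _ = A ^ 1 := (pow_one A).symm
      _ ≤ A ^ 4 := pow_le_pow_right₀ hA1 (by norm_num)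
  have hna : n₀ ≤ a := by
    have e3 : (n₀ : ℝ) ≤ u := by exact_mod_cast hn
    have e4 : (u : ℝ) ≤ N := by rw [← S.hXdef]; exact hAN
    have e5 := S.N0
    have e2 : (n₀ : ℝ) ≤ a := by linarith
    exact_mod_cast e2
  have hDM : D ≤ M := by
    have e3 : 1 ≤ δ * A ^ 2 := by
      have e4 : 1 / δ ≤ X := by rw [S.hXdef]; exact hδu
      rw [div_le_iff₀ hδ0] at e4
      have e5 : X ≤ A ^ 2 := by
        calc X ≤ A := S.hXA
          _ = A ^ 1 := (pow_one A).symm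
          _ ≤ A ^ 2 := pow_le_pow_right₀ hA1 (by norm_num)
      calc (1 : ℝ) ≤ X * δ := e4
        _ ≤ A ^ 2 * δ := mul_le_mul_of_nonneg_right e5 hδ0.le
        _ = δ * A ^ 2 := mul_comm _ _
    have e6 : A ^ 2 ≤ δ * (N : ℝ) := by
      rw [S.hNr]
      calc A ^ 2 = 1 * A ^ 2 := (one_mul _).symm
        _ ≤ (δ * A ^ 2) * A ^ 2 := mul_le_mul_of_nonneg_right e3 (by positivity)
        _ = δ * A ^ 4 := by ring
    have e7 : δ * (N : ℝ) ≤ s * ((a : ℝ) + D) := by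
      have e8 : (0 : ℝ) ≤ D := Nat.cast_nonneg D
      have e9 := S.N0
      apply mul_le_mul hs0 (by linarith) e9.le (by linarith)
    have e10 := S.DA
    have e2 : (D : ℝ) ≤ M := by
      rw [hMs]; linarith
    exact_mod_cast e2
  exact hP0 a D M s sY hna hs0 hs1 hY0 hY1 (S.DA.trans S.sqa') hDM hMs

end

end Vale.Agent.P321
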