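import Vale.Agent.P321.FinalAux

namespace Vale.Agent.P321

open Polynomial

theorem fn_h (k u : ℕ) (hk : 5 ≤ k) (hu : 1 ≤ u) :
    ((u ^ (2 * k - 2) : ℕ) : ℝ) = ((u : ℝ) ^ k) ^ 2 / (u : ℝ) ^ 2 := by
  have h1 : (0 : ℝ) < u := by exact_mod_cast hu
  rw [eq_div_iff (by positivity), Nat.cast_pow, ← pow_add, ← pow_mul]
  congr 1
  omega

theorem fn_R (k u : ℕ) (hk : 5 ≤ k) (hu : 1 ≤ u) :
    ((u ^ (2 * k - 6) : ℕ) : ℝ) = ((u : ℝ) ^ k) ^ 2 / (u : ℝ) ^ 6 := by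
  have h1 : (0 : ℝ) < u := by exact_mod_cast hu
  rw [eq_div_iff (by positivity), Nat.cast_pow, ← pow_add, ← pow_mul]
  congr 1
  omega

theorem fn_N (k u : ℕ) : ((u ^ (4 * k) : ℕ) : ℝ) = ((u : ℝ) ^ k) ^ 4 := by
  rw [Nat.cast_pow, ← pow_mul, mul_comm]

theorem fn_A (k u : ℕ) (hk : 5 ≤ k) (hu : 1 ≤ u) : (u : ℝ) ^ 5 ≤ (u : ℝ) ^ k := by
  have h1 : (1 : ℝ) ≤ u := by exact_mod_cast hu
  exact pow_le_pow_right₀ h1 hk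

theorem fn_aa0 (k u : ℕ) (hk : 5 ≤ k) (hu : 1 ≤ u) :
    aa (u ^ (2 * k - 2)) 0 = (u : ℝ) / (u : ℝ) ^ k := by
  have h1 : (0 : ℝ) < u := by exact_mod_cast hu
  unfold aa
  rw [fn_h k u hk hu]
  have h2 : (((0 : ℕ) : ℝ) + 1) * (((u : ℝ) ^ k) ^ 2 / (u : ℝ) ^ 2) = ((u : ℝ) ^ k / u) ^ 2 := by
    rw [div_pow]; push_cast; ring
  rw [h2, Real.sqrt_sq (by positivity), one_div, inv_div]

theorem fn_aaR (k u : ℕ) (hk : 5 ≤ k) (hu : 1 ≤ u) :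
    aa (u ^ (2 * k - 2)) (u ^ (2 * k - 6)) ≤ (u : ℝ) ^ 4 / ((u : ℝ) ^ k) ^ 2 := by
  have h1 : (0 : ℝ) < u := by exact_mod_cast hu
  unfold aa
  rw [fn_h k u hk hu, fn_R k u hk hu]
  have h2 : (((u : ℝ) ^ k) ^ 2 / (u : ℝ) ^ 4) ^ 2 ≤
      (((u : ℝ) ^ k) ^ 2 / (u : ℝ) ^ 6 + 1) * (((u : ℝ) ^ k) ^ 2 / (u : ℝ) ^ 2) := by
    have h3 : (((u : ℝ) ^ k) ^ 2 / (u : ℝ) ^ 4) ^ 2 =
        (((u : ℝ) ^ k) ^ 2 / (u : ℝ) ^ 6) * (((u : ℝ) ^ k) ^ 2 / (u : ℝ) ^ 2) := by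
      field_simp
    rw [h3, add_mul]
    have : 0 ≤ 1 * (((u : ℝ) ^ k) ^ 2 / (u : ℝ) ^ 2) := by positivity
    linarith
  have h4 : ((u : ℝ) ^ k) ^ 2 / (u : ℝ) ^ 4 ≤
      √((((u : ℝ) ^ k) ^ 2 / (u : ℝ) ^ 6 + 1) * (((u : ℝ) ^ k) ^ 2 / (u : ℝ) ^ 2)) :=
    Real.le_sqrt_of_sq_le h2
  have h5 : (0 : ℝ) < ((u : ℝ) ^ k) ^ 2 / (u : ℝ) ^ 4 := by positivity
  calc _ ≤ 1 / (((u : ℝ) ^ k) ^ 2 / (u : ℝ) ^ 4) := one_div_le_one_div_of_le h5 h4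
    _ = _ := by rw [one_div, inv_div]

theorem fn_aaR2 (k u : ℕ) (hk : 5 ≤ k) (hu : 1 ≤ u) :
    aa (u ^ (2 * k - 2)) (u ^ (2 * k - 6)) ^ 2 ≤ aa (u ^ (2 * k - 2)) 0 ^ 3 := by
  have h1 : (0 : ℝ) < u := by exact_mod_cast hu
  have h2 := fn_aaR k u hk hu
  have h3 : 0 ≤ aa (u ^ (2 * k - 2)) (u ^ (2 * k - 6)) := by unfold aa; positivity
  refine (pow_le_pow_left₀ h3 h2 2).trans ?_
  rw [fn_aa0 k u hk hu]
  have h4 := fn_A k u hk hu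
  set A : ℝ := (u : ℝ) ^ k with hA
  have hA0 : 0 < A := by positivity
  rw [div_pow, div_pow, div_le_div_iff₀ (by positivity) (by positivity)]
  calc ((u : ℝ) ^ 4) ^ 2 * A ^ 3 = ((u : ℝ) ^ 3 * A ^ 3) * (u : ℝ) ^ 5 := by ring
    _ ≤ ((u : ℝ) ^ 3 * A ^ 3) * A := by gcongr
    _ = (u : ℝ) ^ 3 * (A ^ 2) ^ 2 := by ring

theorem fn_small (k u : ℕ) (hk : 5 ≤ k) (hu : 1 ≤ u) :
    √((((3 * u ^ (2 * k - 6) : ℕ) : ℝ) + 1) / ((u ^ (2 * k - 2) : ℕ) : ℝ)) ≤ 2 / (u : ℝ) ^ 2 := by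
  have h1 : (0 : ℝ) < u := by exact_mod_cast hu
  have h1' : (1 : ℝ) ≤ u := by exact_mod_cast hu
  rw [Real.sqrt_le_left (by positivity)]
  have h4 := fn_A k u hk hu
  rw [Nat.cast_mul, fn_h k u hk hu, fn_R k u hk hu]
  set A : ℝ := (u : ℝ) ^ k with hA
  have hA0 : 0 < A := by positivity
  have h5 : (1 : ℝ) ≤ A ^ 2 / (u : ℝ) ^ 6 := by
    rw [le_div_iff₀ (by positivity), one_mul]
    calc (u : ℝ) ^ 6 ≤ (u : ℝ) ^ 10 := pow_le_pow_right₀ h1' (by norm_num)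
      _ = ((u : ℝ) ^ 5) ^ 2 := by ring
      _ ≤ A ^ 2 := by gcongr
  rw [div_le_iff₀ (by positivity), div_pow]
  have h6 : (2 : ℝ) ^ 2 / ((u : ℝ) ^ 2) ^ 2 * (A ^ 2 / (u : ℝ) ^ 2) = 4 * (A ^ 2 / (u : ℝ) ^ 6) := by
    field_simp
    norm_num
  rw [h6]
  push_cast
  linarith

/-- numeric bound for the difference part -/
theorem fn_diff (k : ℕ) (X A C Cf a0 aR : ℝ) (hX : 1 ≤ X) (hA : 1 ≤ A) (hC : 1 ≤ C) (hCf : 0 ≤ Cf)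
    (ha0 : a0 = X / A) (haR0 : 0 ≤ aR) (haR : aR ≤ X ^ 4 / A ^ 2) (hAk : A = X ^ k) :
    (C / X ^ (2 * k)) * (Cf * (C * X ^ 4 / X ^ (2 * k)) * (C / X ^ (2 * k)) * a0 ^ 3 *
      ((C / X ^ 2) ^ (2 * k) + aR + a0 ^ 2)) ≤ Cf * C ^ 3 * (C ^ (2 * k) + 2) * (X ^ 11 / A ^ 11) := by
  have hX0 : 0 < X := by linarith
  have hA0 : 0 < A := by linarith
  have hXk : X ^ (2 * k) = A ^ 2 := by rw [hAk, ← pow_mul, mul_comm]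
  have hX4 : (C / X ^ 2) ^ (2 * k) = C ^ (2 * k) / A ^ 4 := by
    rw [div_pow, ← pow_mul, hAk, ← pow_mul]
    congr 2
    ring
  rw [hXk, hX4, ha0]
  have hsum : C ^ (2 * k) / A ^ 4 + aR + (X / A) ^ 2 ≤ (C ^ (2 * k) + 2) * (X ^ 4 / A ^ 2) := by
    have h1 : C ^ (2 * k) / A ^ 4 ≤ C ^ (2 * k) * (X ^ 4 / A ^ 2) := by
      rw [mul_div_assoc', div_le_div_iff₀ (by positivity) (by positivity)]
      have h2 : A ^ 2 ≤ X ^ 4 * A ^ 4 := by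
        have e1 : (1 : ℝ) ≤ X ^ 4 := one_le_pow₀ hX
        have e2 : A ^ 2 ≤ A ^ 4 := pow_le_pow_right₀ hA (by norm_num)
        calc A ^ 2 = 1 * A ^ 2 := (one_mul _).symm
          _ ≤ X ^ 4 * A ^ 4 := mul_le_mul e1 e2 (by positivity) (by positivity)
      calc C ^ (2 * k) * A ^ 2 ≤ C ^ (2 * k) * (X ^ 4 * A ^ 4) := by gcongr
        _ = C ^ (2 * k) * X ^ 4 * A ^ 4 := by ring
    have h3 : (X / A) ^ 2 ≤ X ^ 4 / A ^ 2 := by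
      rw [div_pow]
      apply div_le_div_of_nonneg_right _ (by positivity)
      exact pow_le_pow_right₀ hX (by norm_num)
    linarith
  calc C / A ^ 2 * (Cf * (C * X ^ 4 / A ^ 2) * (C / A ^ 2) * (X / A) ^ 3 *
        (C ^ (2 * k) / A ^ 4 + aR + (X / A) ^ 2))
      ≤ C / A ^ 2 * (Cf * (C * X ^ 4 / A ^ 2) * (C / A ^ 2) * (X / A) ^ 3 *
        ((C ^ (2 * k) + 2) * (X ^ 4 / A ^ 2))) := by gcongr
    _ = _ := by
        field_simp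

/-- the plain term is one of the terms of `nsq` -/
theorem fn_nsq_ge {κ : ℝ} (hκ : 0 ≤ κ) (M : ℕ) : ∀ c : List Bool → ℝ,
    c (List.replicate M false) ^ 2 ≤ nsq κ M c := by
  induction M with
  | zero => intro c; simp [nsq]
  | succ M ih =>
    intro c
    simp only [nsq]
    have h1 := ih (fun u => c (false :: u))
    have h2 := mul_nonneg hκ (nsq_nonneg hκ M (fun u => c (true :: u)))
    have h3 : List.replicate (M + 1) false = false :: List.replicate M false := List.replicate_succ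
    rw [h3]
    linarith

end Vale.Agent.P321
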