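import Vale.Agent.P321.FockDefs
import Vale.Agent.P321.Kern

namespace Vale.Agent.P321

open scoped RealInnerProductSpace
open Polynomial

section

variable {κ : ℝ} {V : Type} [NormedAddCommGroup V] [InnerProductSpace ℝ V] (F : Fock κ V)

theorem Fock.op_mul (P Q : ℝ[X]) : F.op (P * Q) = F.op P * F.op Q := by
  simp [Fock.op]

theorem Fock.op_mul_apply (P Q : ℝ[X]) (v : V) : F.op (P * Q) v = F.op P (F.op Q v) := by
  simp [Fock.op_mul]

theorem Fock.op_add (P Q : ℝ[X]) : F.op (P + Q) = F.op P + F.op Q := by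
  simp [Fock.op]

theorem Fock.op_sub (P Q : ℝ[X]) : F.op (P - Q) = F.op P - F.op Q := by
  simp [Fock.op]

theorem Fock.op_one : F.op 1 = 1 := by
  simp [Fock.op]

theorem Fock.op_pow (P : ℝ[X]) (n : ℕ) : F.op (P ^ n) = F.op P ^ n := by
  simp [Fock.op]

theorem Fock.op_comm (P Q : ℝ[X]) : F.op P * F.op Q = F.op Q * F.op P := by
  rw [← Fock.op_mul, ← Fock.op_mul, mul_comm]

theorem Fock.norm_Z (x : V) : ‖F.Z x‖ = ‖x‖ := by
  have h := F.inner_Z x x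
  rw [real_inner_self_eq_norm_sq, real_inner_self_eq_norm_sq] at h
  exact (pow_left_inj₀ (norm_nonneg _) (norm_nonneg _) two_ne_zero).1 h

theorem Fock.inner_Zpow (n : ℕ) (x y : V) : ⟪(F.Z ^ n) x, (F.Z ^ n) y⟫ = ⟪x, y⟫ := by
  induction n with
  | zero => simp
  | succ n ih =>
    rw [pow_succ', Module.End.mul_apply, Module.End.mul_apply, F.inner_Z, ih]

theorem Fock.norm_Zpow (n : ℕ) (x : V) : ‖(F.Z ^ n) x‖ = ‖x‖ := by
  induction n with
  | zero => simp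
  | succ n ih => rw [pow_succ', Module.End.mul_apply, F.norm_Z, ih]

theorem Fock.op_eq_sum (P : ℝ[X]) (n : ℕ) (hn : P.natDegree < n) (v : V) :
    F.op P v = ∑ i ∈ Finset.range n, P.coeff i • (F.Z ^ i) v := by
  rw [Fock.op, aeval_eq_sum_range' hn]
  simp

theorem Fock.norm_op_le (P : ℝ[X]) (v : V) : ‖F.op P v‖ ≤ l1 P * ‖v‖ := by
  rw [F.op_eq_sum P (P.natDegree + 1) (Nat.lt_succ_self _)]
  have : l1 P = ∑ i ∈ Finset.range (P.natDegree + 1), |P.coeff i| := by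
    rw [l1, Polynomial.sum_over_range]
    simp
  rw [this, Finset.sum_mul]
  refine (norm_sum_le _ _).trans (le_of_eq (Finset.sum_congr rfl fun i _ => ?_))
  rw [norm_smul, F.norm_Zpow, Real.norm_eq_abs]

theorem Fock.inner_Zζ_pow (a b : ℕ) (u v : V) :
    ⟪(F.Z ^ a) (F.ζ u), (F.Z ^ b) (F.ζ v)⟫ = if a = b then κ * ⟪u, v⟫ else 0 := by
  rcases lt_trichotomy a b with h | h | h
  · obtain ⟨c, rfl⟩ := Nat.exists_eq_add_of_lt h
    have e : (F.Z ^ (a + c + 1)) (F.ζ v) = (F.Z ^ a) (F.Z ((F.Z ^ c) (F.ζ v))) := by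
      rw [add_assoc, pow_add, Module.End.mul_apply, pow_succ', Module.End.mul_apply]
    rw [e, F.inner_Zpow, real_inner_comm, F.inner_Zζ, if_neg (by omega)]
  · subst h
    rw [F.inner_Zpow, F.inner_ζ, if_pos rfl]
  · obtain ⟨c, rfl⟩ := Nat.exists_eq_add_of_lt h
    have e : (F.Z ^ (b + c + 1)) (F.ζ u) = (F.Z ^ b) (F.Z ((F.Z ^ c) (F.ζ u))) := by
      rw [add_assoc, pow_add, Module.End.mul_apply, pow_succ', Module.End.mul_apply]
    rw [e, F.inner_Zpow, F.inner_Zζ, if_neg (by omega)]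

theorem Fock.inner_Ω_pow (a b : ℕ) :
    ⟪(F.Z ^ a) F.Ω, (F.Z ^ b) F.Ω⟫ = if a = b then (1 : ℝ) else 0 := by
  rcases lt_trichotomy a b with h | h | h
  · obtain ⟨c, rfl⟩ := Nat.exists_eq_add_of_lt h
    have e : (F.Z ^ (a + c + 1)) F.Ω = (F.Z ^ a) (F.Z ((F.Z ^ c) F.Ω)) := by
      rw [add_assoc, pow_add, Module.End.mul_apply, pow_succ', Module.End.mul_apply]
    rw [e, F.inner_Zpow, F.inner_ΩZ, if_neg (by omega)]
  · subst h
    rw [F.inner_Zpow, F.inner_ΩΩ, if_pos rfl]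
  · obtain ⟨c, rfl⟩ := Nat.exists_eq_add_of_lt h
    have e : (F.Z ^ (b + c + 1)) F.Ω = (F.Z ^ b) (F.Z ((F.Z ^ c) F.Ω)) := by
      rw [add_assoc, pow_add, Module.End.mul_apply, pow_succ', Module.End.mul_apply]
    rw [e, F.inner_Zpow, real_inner_comm, F.inner_ΩZ, if_neg (by omega)]

theorem Fock.inner_op_ζ (P Q : ℝ[X]) (u v : V) :
    ⟪F.op P (F.ζ u), F.op Q (F.ζ v)⟫ = κ * ip P Q * ⟪u, v⟫ := by
  set n := max (P.natDegree + 1) (Q.natDegree + 1) with hn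
  have hP : P.natDegree < n := by omega
  have hQ : Q.natDegree < n := by omega
  rw [F.op_eq_sum P n hP, F.op_eq_sum Q n hQ, ip_eq_sum P Q n hP, sum_inner]
  simp_rw [inner_sum, real_inner_smul_left, real_inner_smul_right, F.inner_Zζ_pow]
  rw [Finset.mul_sum, Finset.sum_mul]
  refine Finset.sum_congr rfl fun i hi => ?_
  rw [Finset.sum_eq_single i]
  · rw [if_pos rfl]; ring
  · intro j _ hj
    rw [if_neg (Ne.symm hj)]; ring
  · intro h; exact absurd hi h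

theorem Fock.norm_op_Ω (P : ℝ[X]) : ‖F.op P F.Ω‖ ^ 2 = ip P P := by
  set n := P.natDegree + 1 with hn
  have hP : P.natDegree < n := by omega
  rw [← real_inner_self_eq_norm_sq, F.op_eq_sum P n hP, ip_eq_sum P P n hP, sum_inner]
  simp_rw [inner_sum, real_inner_smul_left, real_inner_smul_right, F.inner_Ω_pow]
  refine Finset.sum_congr rfl fun i hi => ?_
  rw [Finset.sum_eq_single i]
  · rw [if_pos rfl]; ring
  · intro j _ hj
    rw [if_neg (Ne.symm hj)]; ring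
  · intro h; exact absurd hi h

theorem Fock.norm_op_ζ_sq (P : ℝ[X]) (v : V) :
    ‖F.op P (F.ζ v)‖ ^ 2 = κ * ip P P * ‖v‖ ^ 2 := by
  rw [← real_inner_self_eq_norm_sq, F.inner_op_ζ, real_inner_self_eq_norm_sq]

/-- Schur test -/
theorem Fock.norm_sum_sq_le (hκ : 0 ≤ κ) (n : ℕ) (P : ℕ → ℝ[X]) (v : ℕ → V) (β : ℕ → ℝ)
    (hβ : ∀ i < n, ∑ j ∈ Finset.range n, |ip (P i) (P j)| ≤ β i) :
    ‖∑ i ∈ Finset.range n, F.op (P i) (F.ζ (v i))‖ ^ 2 ≤
      κ * ∑ i ∈ Finset.range n, β i * ‖v i‖ ^ 2 := by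
  rw [← real_inner_self_eq_norm_sq, sum_inner]
  simp_rw [inner_sum, F.inner_op_ζ]
  have key : ∀ i ∈ Finset.range n, ∀ j ∈ Finset.range n,
      κ * ip (P i) (P j) * ⟪v i, v j⟫ ≤
        κ * (|ip (P i) (P j)| * (‖v i‖ ^ 2 / 2) + |ip (P j) (P i)| * (‖v j‖ ^ 2 / 2)) := by
    intro i _ j _
    rw [mul_assoc]
    refine mul_le_mul_of_nonneg_left ?_ hκ
    rw [ip_comm (P j) (P i), ← mul_add]
    calc ip (P i) (P j) * ⟪v i, v j⟫ ≤ |ip (P i) (P j) * ⟪v i, v j⟫| := le_abs_self _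
      _ = |ip (P i) (P j)| * |⟪v i, v j⟫| := abs_mul _ _
      _ ≤ |ip (P i) (P j)| * (‖v i‖ ^ 2 / 2 + ‖v j‖ ^ 2 / 2) := by
        refine mul_le_mul_of_nonneg_left ?_ (abs_nonneg _)
        refine (abs_real_inner_le_norm _ _).trans ?_
        nlinarith [sq_nonneg (‖v i‖ - ‖v j‖)]
  calc ∑ i ∈ Finset.range n, ∑ j ∈ Finset.range n, κ * ip (P i) (P j) * ⟪v i, v j⟫
      ≤ ∑ i ∈ Finset.range n, ∑ j ∈ Finset.range n,
        κ * (|ip (P i) (P j)| * (‖v i‖ ^ 2 / 2) + |ip (P j) (P i)| * (‖v j‖ ^ 2 / 2)) :=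
        Finset.sum_le_sum fun i hi => Finset.sum_le_sum fun j hj => key i hi j hj
    _ = κ * (∑ i ∈ Finset.range n, (∑ j ∈ Finset.range n, |ip (P i) (P j)|) * (‖v i‖ ^ 2 / 2) +
          ∑ j ∈ Finset.range n, (∑ i ∈ Finset.range n, |ip (P j) (P i)|) * (‖v j‖ ^ 2 / 2)) := by
        simp_rw [← Finset.mul_sum, Finset.sum_add_distrib, Finset.sum_mul]
        congr 2
        rw [Finset.sum_comm]
    _ = κ * ∑ i ∈ Finset.range n, (∑ j ∈ Finset.range n, |ip (P i) (P j)|) * ‖v i‖ ^ 2 := by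
        rw [← Finset.sum_add_distrib]
        congr 1
        refine Finset.sum_congr rfl fun i _ => ?_
        ring
    _ ≤ κ * ∑ i ∈ Finset.range n, β i * ‖v i‖ ^ 2 := by
        refine mul_le_mul_of_nonneg_left ?_ hκ
        refine Finset.sum_le_sum fun i hi => ?_
        exact mul_le_mul_of_nonneg_right (hβ i (Finset.mem_range.1 hi)) (sq_nonneg _)

end

end Vale.Agent.P321
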