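import Vale.Agent.P321.Words

/-!
Definitions for the core estimate: an abstract Fock space `V` with a letter operator `Z`
(isometry), a mark operator `ζ` (`√κ` times an isometry), and a vacuum `Ω`; and the kernel
bounds `KB` which are verified in `KernBounds.lean` and used in `Chain.lean`.
-/

namespace Vale.Agent.P321

open scoped RealInnerProductSpace
open Polynomial

structure Fock (κ : ℝ) (V : Type) [NormedAddCommGroup V] [InnerProductSpace ℝ V] where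
  Z : Module.End ℝ V
  ζ : Module.End ℝ V
  Ω : V
  inner_Z : ∀ x y : V, ⟪Z x, Z y⟫ = ⟪x, y⟫
  inner_ζ : ∀ x y : V, ⟪ζ x, ζ y⟫ = κ * ⟪x, y⟫
  inner_Zζ : ∀ x y : V, ⟪Z x, ζ y⟫ = 0
  inner_ΩΩ : ⟪Ω, Ω⟫ = 1
  inner_ΩZ : ∀ x : V, ⟪Ω, Z x⟫ = 0

section

variable {κ : ℝ} {V : Type} [NormedAddCommGroup V] [InnerProductSpace ℝ V]

/-- polynomials in `Z` -/
noncomputable def Fock.op (F : Fock κ V) (P : ℝ[X]) : Module.End ℝ V := aeval F.Z P

/-- operator of one block: `w s` for a plain block, `w sY + ζ` for a defect block -/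
noncomputable def Fock.blk (F : Fock κ V) (s sY : ℝ) (b : Bool) : Module.End ℝ V :=
  if b then F.op (w sY) + F.ζ else F.op (w s)

/-- operator of a block string -/
noncomputable def Fock.blks (F : Fock κ V) (s sY : ℝ) (B : List Bool) : Module.End ℝ V :=
  (B.map (F.blk s sY)).prod

/-- operator of one period -/
noncomputable def Fock.Wd (F : Fock κ V) (s sY : ℝ) (h : ℕ) (b : Bool) : Module.End ℝ V :=
  F.op (w s ^ (if b then h + 1 else h)) * (F.op (w sY) + F.ζ) *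
    F.op (w s ^ (if b then h - 1 else h))

/-- operator of a list of periods -/
noncomputable def Fock.TT (F : Fock κ V) (s sY : ℝ) (h : ℕ) (l : List Bool) :
    Module.End ℝ V := (l.map (F.Wd s sY h)).prod

/-- effect of shifting one defect by one block -/
noncomputable def Fock.Del (F : Fock κ V) (s sY : ℝ) (h : ℕ) : Module.End ℝ V :=
  F.Wd s sY h true - F.Wd s sY h false

end

/-- generating polynomial of one period without marks -/
noncomputable def W0 (s sY : ℝ) (h : ℕ) : ℝ[X] := w s ^ (2 * h) * w sY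

/-- `((i+1) h)^(-1/2)` -/
noncomputable def aa (h i : ℕ) : ℝ := 1 / √(((i : ℝ) + 1) * h)

/-- Schur-type kernel bound for the family `Q * W0^i * w^(h + ε i)`, `i ≤ L` -/
def KBound (s sY : ℝ) (h L : ℕ) (Q : ℝ[X]) (β : ℕ → ℝ) : Prop :=
  ∀ ε : ℕ → ℕ, (∀ i, ε i ≤ 1) → ∀ i ≤ L,
    ∑ j ∈ Finset.range (L + 1),
      |ip (Q * W0 s sY h ^ i * w s ^ (h + ε i)) (Q * W0 s sY h ^ j * w s ^ (h + ε j))| ≤ β i

/-- all kernel bounds used by the core estimate -/
structure KB (s sY : ℝ) (h L N m : ℕ) (C lam mu nu2 : ℝ) : Prop where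
  hs0 : 0 ≤ s
  hs1 : s ≤ 1
  hY0 : 0 ≤ sY
  hY1 : sY ≤ 1
  hh : 1 ≤ h
  hC : 1 ≤ C
  hlam : 0 ≤ lam
  hmu0 : 0 ≤ mu
  hmu1 : mu ≤ 1
  k0 : KBound s sY h L 1 (fun i => C * aa h i)
  k1 : KBound s sY h L (w s - 1) (fun i => C * aa h i ^ 3)
  k1' : KBound s sY h L ((w s - 1) * w s ^ (h - 1)) (fun i => C * aa h i ^ 3)
  d1 : ∀ r ≤ L, l1 ((w s - 1) * w s ^ (h - 1) * W0 s sY h ^ r) ^ 2 ≤ C * aa h r ^ 2
  kN : KBound s sY h L (w s ^ N) (fun _ => lam)
  kN1 : ∀ r ≤ L, ip ((w s - 1) * w s ^ N * W0 s sY h ^ r * w s ^ h)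
    ((w s - 1) * w s ^ N * W0 s sY h ^ r * w s ^ h) ≤ lam * aa h 0 ^ 3
  hmu : ∀ i ≤ m, l1 (w s ^ N * (W0 s sY h - 1) ^ i) ≤ mu ^ i
  hnu : ip (w s ^ N) (w s ^ N) ≤ nu2

end Vale.Agent.P321
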