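import Vale.Agent.P321.FockDefs
import Vale.Agent.P321.Kern

namespace Vale.Agent.P321

open Polynomial

theorem ip_abs_le (P Q P' Q' : ℝ[X]) (hP : ∀ i, |P.coeff i| ≤ P'.coeff i)
    (hQ : ∀ i, |Q.coeff i| ≤ Q'.coeff i) : |ip P Q| ≤ ip P' Q' := by
  set n := P.natDegree + P'.natDegree + 1 with hn
  rw [ip_eq_sum P Q n (by omega), ip_eq_sum P' Q' n (by omega)]
  refine (Finset.abs_sum_le_sum_abs _ _).trans ?_
  apply Finset.sum_le_sum
  intro i _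
  rw [abs_mul]
  exact mul_le_mul (hP i) (hQ i) (abs_nonneg _) ((abs_nonneg _).trans (hP i))

theorem w_sub_one (s : ℝ) : w s - 1 = C s * (X - 1) := by
  unfold w
  rw [C_sub, C_1]
  ring

/-- one factor of the kernel family -/
noncomputable def ker (s sY : ℝ) (g i : ℕ) : ℝ[X] := w s ^ g * w sY ^ i

theorem ker_coeff_nonneg {s sY : ℝ} (h0 : 0 ≤ s) (h1 : s ≤ 1) (hY0 : 0 ≤ sY) (hY1 : sY ≤ 1)
    (g i j : ℕ) : 0 ≤ (ker s sY g i).coeff j :=
  coeff_mul_nonneg _ _ (coeff_pow_nonneg _ (w_coeff_nonneg h0 h1) g)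
    (coeff_pow_nonneg _ (w_coeff_nonneg hY0 hY1) i) j

theorem sqrt_lower {δ s : ℝ} (hδ : 0 < δ) (hs0 : δ ≤ s) (hs1 : s ≤ 1 - δ) (g : ℕ) :
    δ * √((g : ℝ) + 1) ≤ √(((g : ℝ) + 1) * s * (1 - s)) := by
  apply Real.le_sqrt_of_sq_le
  rw [mul_pow, Real.sq_sqrt (by positivity)]
  have h1 : δ ^ 2 ≤ s * (1 - s) := by nlinarith
  nlinarith [show (0 : ℝ) ≤ g from Nat.cast_nonneg g]

/-- `A g = 1 / (δ √(g+1))` -/
noncomputable def AA (δ : ℝ) (g : ℕ) : ℝ := 1 / (δ * √((g : ℝ) + 1))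

theorem AA_pos {δ : ℝ} (hδ : 0 < δ) (g : ℕ) : 0 < AA δ g := by
  unfold AA
  positivity

theorem inv_sqrt_le_AA {δ s : ℝ} (hδ : 0 < δ) (hs0 : δ ≤ s) (hs1 : s ≤ 1 - δ) (g : ℕ) :
    1 / √(((g : ℝ) + 1) * s * (1 - s)) ≤ AA δ g := by
  unfold AA
  exact one_div_le_one_div_of_le (by positivity) (sqrt_lower hδ hs0 hs1 g)

theorem sup_pow {δ s : ℝ} (hδ : 0 < δ) (hs0 : δ ≤ s) (hs1 : s ≤ 1 - δ) (g j : ℕ) :
    |(w s ^ g).coeff j| ≤ AA δ g / 2 := by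
  have h0 : 0 < s := by linarith
  have h1 : s < 1 := by linarith
  rw [abs_of_nonneg (coeff_pow_nonneg _ (w_coeff_nonneg h0.le h1.le) g j)]
  refine (w_pow_coeff_le h0 h1 g j).trans ?_
  have := inv_sqrt_le_AA hδ hs0 hs1 g
  have e : 1 / (2 * √(((g : ℝ) + 1) * s * (1 - s))) = (1 / √(((g : ℝ) + 1) * s * (1 - s))) / 2 := by
    rw [div_div, mul_comm]
  rw [e]
  linarith

theorem l1_pow_sub {δ s : ℝ} (hδ : 0 < δ) (hs0 : δ ≤ s) (hs1 : s ≤ 1 - δ) (g : ℕ) :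
    l1 (w s ^ g * (X - 1)) ≤ AA δ g :=
  (l1_w_pow_mul_sub (by linarith) (by linarith) g).trans (inv_sqrt_le_AA hδ hs0 hs1 g)

theorem l1_wm {δ s : ℝ} (hδ : 0 < δ) (hs0 : δ ≤ s) (hs1 : s ≤ 1 - δ) (g : ℕ) :
    l1 ((w s - 1) * w s ^ g) ≤ AA δ g := by
  have e : (w s - 1) * w s ^ g = C s * (w s ^ g * (X - 1)) := by
    rw [w_sub_one]
    ring
  rw [e, l1_C_mul, abs_of_pos (by linarith)]
  have h1 := l1_pow_sub hδ hs0 hs1 g
  have h2 := l1_nonneg (w s ^ g * (X - 1))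
  nlinarith

theorem l1_ker {s sY : ℝ} (h0 : 0 ≤ s) (h1 : s ≤ 1) (hY0 : 0 ≤ sY) (hY1 : sY ≤ 1)
    (g i : ℕ) : l1 (ker s sY g i) ≤ 1 := by
  unfold ker
  refine (l1_mul_le _ _).trans ?_
  rw [l1_w_pow h0 h1, l1_w_pow hY0 hY1]
  norm_num

theorem l1_wm_ker {δ s sY : ℝ} (hδ : 0 < δ) (hs0 : δ ≤ s) (hs1 : s ≤ 1 - δ) (hY0 : 0 ≤ sY)
    (hY1 : sY ≤ 1) (g i : ℕ) : l1 ((w s - 1) * ker s sY g i) ≤ AA δ g := by
  have e : (w s - 1) * ker s sY g i = ((w s - 1) * w s ^ g) * w sY ^ i := by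
    unfold ker
    ring
  rw [e]
  refine (l1_mul_le _ _).trans ?_
  rw [l1_w_pow hY0 hY1, mul_one]
  exact l1_wm hδ hs0 hs1 g

theorem sup_ker {δ s sY : ℝ} (hδ : 0 < δ) (hs0 : δ ≤ s) (hs1 : s ≤ 1 - δ) (hY0 : 0 ≤ sY)
    (hY1 : sY ≤ 1) (g i j : ℕ) : |(ker s sY g i).coeff j| ≤ AA δ g / 2 := by
  unfold ker
  have := coeff_mul_le_sup (w s ^ g) (w sY ^ i) (AA δ g / 2) (fun j => sup_pow hδ hs0 hs1 g j) j
  rwa [l1_w_pow hY0 hY1, mul_one] at this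

theorem AA_mul_le {δ : ℝ} (hδ : 0 < δ) (g : ℕ) :
    AA δ (g / 2) * AA δ (g - g / 2) ≤ 2 * AA δ g ^ 2 := by
  unfold AA
  have hg : (g - g / 2 : ℕ) + g / 2 = g := by omega
  set a : ℝ := ((g / 2 : ℕ) : ℝ) with ha
  set b : ℝ := ((g - g / 2 : ℕ) : ℝ) with hb
  have hab : b + a = g := by
    rw [ha, hb]
    exact_mod_cast hg
  have ha0 : 0 ≤ a := Nat.cast_nonneg _
  have hb0 : 0 ≤ b := Nat.cast_nonneg _
  have hab2 : b ≤ a + 1 := by
    rw [ha, hb]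
    have : (g - g / 2 : ℕ) ≤ g / 2 + 1 := by omega
    exact_mod_cast this
  have hab3 : a ≤ b := by
    rw [ha, hb]
    have : g / 2 ≤ (g - g / 2 : ℕ) := by omega
    exact_mod_cast this
  rw [div_mul_div_comm, one_mul, div_pow, one_pow, mul_pow, Real.sq_sqrt (by positivity)]
  have e : δ * √(a + 1) * (δ * √(b + 1)) = δ ^ 2 * √((a + 1) * (b + 1)) := by
    rw [Real.sqrt_mul (by positivity)]
    ring
  rw [e, mul_one_div]
  rw [div_le_div_iff₀ (by positivity) (by positivity)]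
  have h1 : ((g : ℝ) + 1) / 2 ≤ √((a + 1) * (b + 1)) := by
    apply Real.le_sqrt_of_sq_le
    rw [← hab]
    nlinarith
  have hδ2 : 0 < δ ^ 2 := by positivity
  nlinarith

theorem sup_wm_ker {δ s sY : ℝ} (hδ : 0 < δ) (hs0 : δ ≤ s) (hs1 : s ≤ 1 - δ) (hY0 : 0 ≤ sY)
    (hY1 : sY ≤ 1) (g i j : ℕ) : |((w s - 1) * ker s sY g i).coeff j| ≤ AA δ g ^ 2 := by
  have hg : g - g / 2 + g / 2 = g := by omega
  have e : (w s - 1) * ker s sY g i = w s ^ (g - g / 2) * ((w s - 1) * ker s sY (g / 2) i) := by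
    unfold ker
    conv_lhs => rw [← hg]
    rw [pow_add]
    ring
  rw [e]
  have h1 := coeff_mul_le_sup (w s ^ (g - g / 2)) ((w s - 1) * ker s sY (g / 2) i)
    (AA δ (g - g / 2) / 2) (fun j => sup_pow hδ hs0 hs1 _ j) j
  have h2 := l1_wm_ker hδ hs0 hs1 hY0 hY1 (g / 2) i
  have h3 := AA_mul_le hδ g
  have h4 := AA_pos hδ (g - g / 2)
  nlinarith

/-- diagonal estimate without derivative -/
theorem diag0 {δ s sY : ℝ} (hδ : 0 < δ) (hs0 : δ ≤ s) (hs1 : s ≤ 1 - δ) (hY0 : 0 ≤ sY)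
    (hY1 : sY ≤ 1) (g i g' i' : ℕ) : |ip (ker s sY g i) (ker s sY g' i')| ≤ AA δ g / 2 := by
  refine (ip_le_sup _ _ (AA δ g / 2) (fun j => sup_ker hδ hs0 hs1 hY0 hY1 g i j)).trans ?_
  have := l1_ker (s := s) (sY := sY) (by linarith) (by linarith) hY0 hY1 g' i'
  have h4 := AA_pos hδ g
  nlinarith

/-- diagonal estimate with derivative -/
theorem diag1 {δ s sY : ℝ} (hδ : 0 < δ) (hs0 : δ ≤ s) (hs1 : s ≤ 1 - δ) (hY0 : 0 ≤ sY)
    (hY1 : sY ≤ 1) (g i : ℕ) :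
    |ip ((w s - 1) * ker s sY g i) ((w s - 1) * ker s sY g i)| ≤ AA δ g ^ 3 := by
  refine (ip_le_sup _ _ (AA δ g ^ 2) (fun j => sup_wm_ker hδ hs0 hs1 hY0 hY1 g i j)).trans ?_
  have := l1_wm_ker hδ hs0 hs1 hY0 hY1 g i
  have h4 : 0 < AA δ g ^ 2 := by
    have := AA_pos hδ g
    positivity
  calc AA δ g ^ 2 * l1 ((w s - 1) * ker s sY g i) ≤ AA δ g ^ 2 * AA δ g := by gcongr
    _ = AA δ g ^ 3 := by ring

theorem eval_ker_le {s sY : ℝ} (h0 : 0 ≤ s) (h1 : s ≤ 1) (hY0 : 0 ≤ sY) (hY1 : sY ≤ 1)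
    (g i : ℕ) (x : ℝ) (hx : |x| ≤ 1) :
    (ker s sY g i).eval (Real.exp x) ≤ Real.exp ((s * g + sY * i) * (x + x ^ 2)) := by
  unfold ker
  rw [eval_mul, eval_pow, eval_pow]
  have hn1 : 0 ≤ (w s).eval (Real.exp x) := by
    rw [w_eval]
    have := Real.exp_pos x
    nlinarith
  have hn2 : 0 ≤ (w sY).eval (Real.exp x) := by
    rw [w_eval]
    have := Real.exp_pos x
    nlinarith
  have e : Real.exp ((s * g + sY * i) * (x + x ^ 2)) =
      Real.exp (s * (x + x ^ 2)) ^ g * Real.exp (sY * (x + x ^ 2)) ^ i := by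
    rw [← Real.exp_nat_mul, ← Real.exp_nat_mul, ← Real.exp_add]
    congr 1
    ring
  rw [e]
  apply mul_le_mul
  · exact pow_le_pow_left₀ hn1 (eval_w_exp_le h0 x hx) g
  · exact pow_le_pow_left₀ hn2 (eval_w_exp_le hY0 x hx) i
  · positivity
  · positivity

theorem eval_ker_nonneg {s sY : ℝ} (h0 : 0 ≤ s) (h1 : s ≤ 1) (hY0 : 0 ≤ sY) (hY1 : sY ≤ 1)
    (g i : ℕ) (x : ℝ) : 0 ≤ (ker s sY g i).eval (Real.exp x) := by
  unfold ker
  rw [eval_mul, eval_pow, eval_pow]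
  have hn1 : 0 ≤ (w s).eval (Real.exp x) := by
    rw [w_eval]
    have := Real.exp_pos x
    nlinarith
  have hn2 : 0 ≤ (w sY).eval (Real.exp x) := by
    rw [w_eval]
    have := Real.exp_pos x
    nlinarith
  positivity

/-- the exponential estimate behind all off-diagonal bounds -/
theorem eval_pair {s sY : ℝ} (h0 : 0 ≤ s) (h1 : s ≤ 1) (hY0 : 0 ≤ sY) (hY1 : sY ≤ 1)
    (g i g' i' : ℕ) (D S : ℝ) (hD : 0 ≤ D)
    (hDle : D ≤ |(s * g + sY * i) - (s * g' + sY * i')|)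
    (hS : (s * g + sY * i) + (s * g' + sY * i') ≤ S) (hS0 : 0 < S) :
    ∃ x : ℝ, |x| ≤ 1 / 2 ∧
      (ker s sY g i).eval (Real.exp x) * (ker s sY g' i').eval (Real.exp x)⁻¹
        ≤ Real.exp (-(D ^ 2 / (4 * S))) := by
  set G : ℝ := s * g + sY * i with hG
  set G' : ℝ := s * g' + sY * i' with hG'
  have hG0 : 0 ≤ G := by positivity
  have hG'0 : 0 ≤ G' := by positivity
  have hDS : D ≤ S := by
    refine hDle.trans (le_trans ?_ hS)
    rw [abs_le]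
    constructor <;> linarith
  have hmain : ∀ x : ℝ, |x| = D / (2 * S) → x * (G - G') = -(D / (2 * S) * |G - G'|) →
      (ker s sY g i).eval (Real.exp x) * (ker s sY g' i').eval (Real.exp x)⁻¹
        ≤ Real.exp (-(D ^ 2 / (4 * S))) := by
    intro x hx1 hx2
    have hxle : |x| ≤ 1 := by
      rw [hx1, div_le_one (by positivity)]
      linarith
    have hb1 := eval_ker_le h0 h1 hY0 hY1 g i x hxle
    have hb2 := eval_ker_le h0 h1 hY0 hY1 g' i' (-x) (by rwa [abs_neg])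
    rw [← Real.exp_neg]
    have hn2 := eval_ker_nonneg h0 h1 hY0 hY1 g' i' (-x)
    refine (mul_le_mul hb1 hb2 hn2 (Real.exp_pos _).le).trans ?_
    rw [← Real.exp_add, Real.exp_le_exp]
    have hx3 : x ^ 2 = (D / (2 * S)) ^ 2 := by rw [← hx1, sq_abs]
    have e : G * (x + x ^ 2) + G' * (-x + (-x) ^ 2) = x * (G - G') + x ^ 2 * (G + G') := by ring
    rw [← hG, ← hG', e, hx2, hx3]
    have h3 : (D / (2 * S)) ^ 2 * (G + G') ≤ (D / (2 * S)) ^ 2 * S := by gcongr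
    have h4 : D / (2 * S) * D ≤ D / (2 * S) * |G - G'| := by gcongr
    have e2 : (D / (2 * S)) ^ 2 * S = D ^ 2 / (4 * S) := by
      field_simp
      ring
    have e3 : D / (2 * S) * D = 2 * (D ^ 2 / (4 * S)) := by
      field_simp
      ring
    linarith
  have hhalf : D / (2 * S) ≤ 1 / 2 := by
    rw [div_le_div_iff₀ (by positivity) (by norm_num)]
    linarith
  have hq0 : 0 ≤ D / (2 * S) := by positivity
  rcases le_total 0 (G - G') with h | h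
  · refine ⟨-(D / (2 * S)), ?_, hmain _ ?_ ?_⟩
    · rw [abs_neg, abs_of_nonneg hq0]
      exact hhalf
    · rw [abs_neg, abs_of_nonneg hq0]
    · rw [abs_of_nonneg h]
      ring
  · refine ⟨D / (2 * S), ?_, hmain _ ?_ ?_⟩
    · rw [abs_of_nonneg hq0]
      exact hhalf
    · rw [abs_of_nonneg hq0]
    · rw [abs_of_nonpos h]
      ring

theorem off0 {s sY : ℝ} (h0 : 0 ≤ s) (h1 : s ≤ 1) (hY0 : 0 ≤ sY) (hY1 : sY ≤ 1)
    (g i g' i' : ℕ) (D S : ℝ) (hD : 0 ≤ D)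
    (hDle : D ≤ |(s * g + sY * i) - (s * g' + sY * i')|)
    (hS : (s * g + sY * i) + (s * g' + sY * i') ≤ S) (hS0 : 0 < S) :
    |ip (ker s sY g i) (ker s sY g' i')| ≤ 8 * Real.exp (-(D ^ 2 / (4 * S))) := by
  obtain ⟨x, _, hx⟩ := eval_pair h0 h1 hY0 hY1 g i g' i' D S hD hDle hS hS0
  have h2 : |ip (ker s sY g i) (ker s sY g' i')| ≤ ip (ker s sY g i) (ker s sY g' i') :=
    ip_abs_le _ _ _ _ (fun j => by rw [abs_of_nonneg (ker_coeff_nonneg h0 h1 hY0 hY1 _ _ _)])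
      (fun j => by rw [abs_of_nonneg (ker_coeff_nonneg h0 h1 hY0 hY1 _ _ _)])
  have h3 := ip_le_eval (ker s sY g i) (ker s sY g' i') (ker_coeff_nonneg h0 h1 hY0 hY1 _ _)
    (ker_coeff_nonneg h0 h1 hY0 hY1 _ _) (Real.exp x) (Real.exp_pos x)
  have h4 := Real.exp_pos (-(D ^ 2 / (4 * S)))
  linarith

theorem coeff_sub_le (s : ℝ) (h0 : 0 ≤ s) (h1 : s ≤ 1) (P : ℝ[X]) (hP : ∀ j, 0 ≤ P.coeff j) (j : ℕ) :
    |((w s - 1) * P).coeff j| ≤ ((X + 1) * P).coeff j := by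
  rw [w_sub_one, mul_assoc, coeff_C_mul, abs_mul, abs_of_nonneg h0]
  have h2 : |((X - 1) * P).coeff j| ≤ ((X + 1) * P).coeff j := by
    rw [sub_mul, add_mul, coeff_sub, coeff_add, one_mul]
    have hX : 0 ≤ (X * P).coeff j := by
      cases j with
      | zero => simp
      | succ j => rw [coeff_X_mul]; exact hP j
    have := hP j
    rw [abs_le]
    constructor <;> linarith
  calc s * |((X - 1) * P).coeff j| ≤ 1 * |((X - 1) * P).coeff j| := by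
        gcongr
    _ ≤ _ := by rw [one_mul]; exact h2

theorem off1 {s sY : ℝ} (h0 : 0 ≤ s) (h1 : s ≤ 1) (hY0 : 0 ≤ sY) (hY1 : sY ≤ 1)
    (g i g' i' : ℕ) (D S : ℝ) (hD : 0 ≤ D)
    (hDle : D ≤ |(s * g + sY * i) - (s * g' + sY * i')|)
    (hS : (s * g + sY * i) + (s * g' + sY * i') ≤ S) (hS0 : 0 < S) :
    |ip ((w s - 1) * ker s sY g i) ((w s - 1) * ker s sY g' i')| ≤
      8 * Real.exp (-(D ^ 2 / (4 * S))) := by
  obtain ⟨x, hx1, hx⟩ := eval_pair h0 h1 hY0 hY1 g i g' i' D S hD hDle hS hS0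
  have hk := ker_coeff_nonneg (s := s) (sY := sY) h0 h1 hY0 hY1
  have h2 : |ip ((w s - 1) * ker s sY g i) ((w s - 1) * ker s sY g' i')| ≤
      ip ((X + 1) * ker s sY g i) ((X + 1) * ker s sY g' i') :=
    ip_abs_le _ _ _ _ (coeff_sub_le s h0 h1 _ (hk g i)) (coeff_sub_le s h0 h1 _ (hk g' i'))
  have hX1 : ∀ j, 0 ≤ ((X : ℝ[X]) + 1).coeff j := by
    intro j
    rw [coeff_add, coeff_X, coeff_one]
    split_ifs <;> norm_num
  have h3 := ip_le_eval ((X + 1) * ker s sY g i) ((X + 1) * ker s sY g' i')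
    (coeff_mul_nonneg _ _ hX1 (hk g i)) (coeff_mul_nonneg _ _ hX1 (hk g' i'))
    (Real.exp x) (Real.exp_pos x)
  rw [eval_mul, eval_mul, eval_add, eval_add, eval_X, eval_X, eval_one, eval_one] at h3
  set E1 := (ker s sY g i).eval (Real.exp x) with hE1
  set E2 := (ker s sY g' i').eval (Real.exp x)⁻¹ with hE2
  have hE1n : 0 ≤ E1 := eval_ker_nonneg h0 h1 hY0 hY1 g i x
  have hE2n : 0 ≤ E2 := by
    rw [hE2, ← Real.exp_neg]
    exact eval_ker_nonneg h0 h1 hY0 hY1 g' i' (-x)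
  have hfac : (Real.exp x + 1) * ((Real.exp x)⁻¹ + 1) ≤ 8 := by
    have h4 : Real.exp x ≤ 3 := by
      have h5 : x ≤ 1 := by
        have := le_abs_self x
        linarith
      have h6 := Real.exp_le_exp.mpr h5
      have := Real.exp_one_lt_d9
      linarith
    have h4' : (Real.exp x)⁻¹ ≤ 3 := by
      rw [← Real.exp_neg]
      have h5 : -x ≤ 1 := by
        have := neg_abs_le x
        linarith
      have h6 := Real.exp_le_exp.mpr h5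
      have := Real.exp_one_lt_d9
      linarith
    have h7 : Real.exp x * (Real.exp x)⁻¹ = 1 := mul_inv_cancel₀ (Real.exp_pos x).ne'
    nlinarith
  have hprod : (Real.exp x + 1) * E1 * (((Real.exp x)⁻¹ + 1) * E2) =
      ((Real.exp x + 1) * ((Real.exp x)⁻¹ + 1)) * (E1 * E2) := by ring
  rw [hprod] at h3
  have hEE : 0 ≤ E1 * E2 := mul_nonneg hE1n hE2n
  have h8 : ((Real.exp x + 1) * ((Real.exp x)⁻¹ + 1)) * (E1 * E2) ≤ 8 * (E1 * E2) := by gcongr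
  linarith

end Vale.Agent.P321
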