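import Mathlib

/-!
Internal definitions for the proof (blueprint for P321).

Block strings are lists of `Bool`: `false` is the plain block `X`, whose string is `01`,
and `true` is the defect block `Y`, whose string is `0`.  A word of marks is a list of `Bool`
(`true` = marked letter).
-/

namespace Vale.Agent.P321

/-- expectation over a trace of the string `l` (deletion probability `q`) -/
def Etr (q : ℝ) : List Bool → (List Bool → ℝ) → ℝ
  | [], g => g []
  | a :: l, g => q * Etr q l g + (1 - q) * Etr q l (fun t => g (a :: t))

/-- `E f` over i.i.d. words of length `M` with letter law `π` -/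
def Ex {α : Type} [Fintype α] (π : α → ℝ) (M : ℕ) (f : List α → ℝ) : ℝ :=
  ∑ v : Fin M → α, (∏ i, π (v i)) * f (List.ofFn v)

/-- the chaos with coefficient function `c`, evaluated at a word -/
def chaos {α : Type} (ψ : α → ℝ) : (List Bool → ℝ) → List α → ℝ
  | c, [] => c []
  | c, x :: σ => chaos ψ (fun u => c (false :: u)) σ + ψ x * chaos ψ (fun u => c (true :: u)) σ

/-- `∑_{|u| = M} κ^{#true u} c(u)^2` -/
def nsq (κ : ℝ) : ℕ → (List Bool → ℝ) → ℝ
  | 0, c => c [] ^ 2
  | M + 1, c => nsq κ M (fun u => c (false :: u)) + κ * nsq κ M (fun u => c (true :: u))

/-- coefficient of the word of marks `u` in the product over the blocks of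
`(1-s) + s Z` (plain block) and `(1-sY) + sY (Z + ζ)` (defect block) -/
def coef (s sY : ℝ) : List Bool → List Bool → ℝ
  | [], [] => 1
  | [], _ :: _ => 0
  | b :: B, [] => (1 - (if b then sY else s)) * coef s sY B []
  | b :: B, x :: u => (1 - (if b then sY else s)) * coef s sY B (x :: u)
      + (if b then sY else if x then 0 else s) * coef s sY B u

/-- the binary string of a block string -/
def str : List Bool → List Bool
  | [] => []
  | false :: B => false :: true :: str B
  | true :: B => false :: str B

/-- string of an output symbol of a block: symbol `0` is `01`, symbol `1` is `0`,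
symbol `2` is `1` -/
def symStr : Fin 3 → List Bool := ![[false, true], [false], [true]]

/-- concatenation of the output symbols -/
def flat (σ : List (Fin 3)) : List Bool := (σ.map symStr).flatten

/-- law of the output of a surviving plain block -/
noncomputable def piX (q : ℝ) : Fin 3 → ℝ := ![(1 - q) / (1 + q), q / (1 + q), q / (1 + q)]

/-- `π_Y / π_X - 1` where `π_Y` is the point mass at symbol `1` -/
noncomputable def psi (q : ℝ) : Fin 3 → ℝ := ![-1, 1 / q, -1]

/-- one period of the comb: `X^h Y X^h` (`false`) or `X^(h+1) Y X^(h-1)` (`true`) -/
def per (h : ℕ) (b : Bool) : List Bool :=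
  List.replicate (if b then h + 1 else h) false ++
    true :: List.replicate (if b then h - 1 else h) false

/-- Thue-Morse pattern of length `2^m` starting with `b` -/
def pat : ℕ → Bool → List Bool
  | 0, b => [b]
  | j + 1, b => pat j b ++ pat j (!b)

/-- the perturbed comb -/
def comb (h R m : ℕ) (b : Bool) : List Bool :=
  (List.replicate R false ++ pat m b ++ List.replicate R false).flatMap (per h)

/-- plain blocks, comb, plain blocks -/
def full (N h R m : ℕ) (b : Bool) : List Bool :=
  List.replicate N false ++ comb h R m b ++ List.replicate N false

/-- generating polynomial of a Bernoulli variable -/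
noncomputable def w (s : ℝ) : Polynomial ℝ :=
  Polynomial.C (1 - s) + Polynomial.C s * Polynomial.X

/-- `ℓ¹` norm of the coefficients -/
noncomputable def l1 (P : Polynomial ℝ) : ℝ := P.sum fun _ a => |a|

/-- `ℓ²` inner product of the coefficients -/
noncomputable def ip (P Q : Polynomial ℝ) : ℝ := P.sum fun i a => a * Q.coeff i

/-- survival probability of a defect block when the plain one is `s` -/
noncomputable def tiltY (q s : ℝ) : ℝ := (q / (1 + q)) * s / (1 - s + (q / (1 + q)) * s)

end Vale.Agent.P321
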