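import Vale.Agent.P321.Defs
import Vale.Agent.P321.Words

/-! M1: reduction of the sample complexity to a Hellinger affinity. -/

namespace Vale.Agent.P321

/-- splitting the first coordinate of a finite function -/
theorem sum_fin_cons {n : ℕ} {α : Type*} [Fintype α] (f : (Fin (n + 1) → α) → ℝ) :
    ∑ k : Fin (n + 1) → α, f k = ∑ b : α, ∑ k : Fin n → α, f (Fin.cons b k) := by
  rw [← Fintype.sum_prod_type']
  exact (Fintype.sum_equiv (Fin.consEquiv (fun _ => α)) _ _ (fun p => rfl)).symm

theorem trace_cons {n : ℕ} (x : Fin (n + 1) → Bool) (b : Bool) (k : Fin n → Bool) :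
    trace x (Fin.cons b k) =
      if b then x 0 :: trace (fun i => x i.succ) k else trace (fun i => x i.succ) k := by
  unfold trace
  rw [List.finRange_succ]
  cases b <;> simp [List.filter_map, Function.comp_def]

theorem keepProb_cons {n : ℕ} (q : ℝ) (b : Bool) (k : Fin n → Bool) :
    keepProb q (Fin.cons b k : Fin (n + 1) → Bool) = (if b then 1 - q else q) * keepProb q k := by
  unfold keepProb
  rw [Fin.prod_univ_succ]
  simp

theorem Etr_ofFn {n : ℕ} (q : ℝ) (x : Fin n → Bool) (g : List Bool → ℝ) :
    ∑ k : Fin n → Bool, keepProb q k * g (trace x k) = Etr q (List.ofFn x) g := by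
  induction n generalizing g with
  | zero => simp [keepProb, trace, Etr]
  | succ n ih =>
    rw [sum_fin_cons, List.ofFn_succ, Etr]
    rw [← ih (fun i => x i.succ) g, ← ih (fun i => x i.succ) (fun t => g (x 0 :: t))]
    rw [Fintype.sum_bool]
    simp_rw [keepProb_cons, trace_cons]
    simp only [if_true, Bool.false_eq_true, if_false]
    rw [Finset.mul_sum, Finset.mul_sum, add_comm]
    congr 1
    · apply Finset.sum_congr rfl
      intro k _
      ring
    · apply Finset.sum_congr rfl
      intro k _
      ring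

theorem Etr_append (q : ℝ) (l₁ l₂ : List Bool) (g : List Bool → ℝ) :
    Etr q (l₁ ++ l₂) g = Etr q l₁ (fun t₁ => Etr q l₂ (fun t₂ => g (t₁ ++ t₂))) := by
  induction l₁ generalizing g with
  | nil => rfl
  | cons a l ih =>
    rw [List.cons_append, Etr, Etr, ih, ih]
    rfl

theorem keepProb_nonneg {q : ℝ} (hq0 : 0 < q) (hq1 : q < 1) {n : ℕ} (k : Fin n → Bool) :
    0 ≤ keepProb q k := by
  unfold keepProb
  apply Finset.prod_nonneg
  intro i _
  split_ifs <;> linarith

theorem sum_keepProb (q : ℝ) (n : ℕ) : ∑ k : Fin n → Bool, keepProb q k = 1 := by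
  induction n with
  | zero => simp [keepProb]
  | succ n ih =>
    rw [sum_fin_cons, Fintype.sum_bool]
    simp_rw [keepProb_cons]
    rw [← Finset.mul_sum, ← Finset.mul_sum, ih]
    simp

/-- product laws: if two finitely supported laws agree after push-forward, so do their powers -/
theorem push_pow {A B S : Type} [Fintype A] [Fintype B] (p : A → ℝ) (r : B → ℝ) (u : A → S)
    (v : B → S) (h : ∀ g : S → ℝ, ∑ a, p a * g (u a) = ∑ b, r b * g (v b)) (m : ℕ)
    (G : (Fin m → S) → ℝ) :
    ∑ a : Fin m → A, (∏ j, p (a j)) * G (fun j => u (a j)) =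
      ∑ b : Fin m → B, (∏ j, r (b j)) * G (fun j => v (b j)) := by
  induction m with
  | zero =>
    simp only [Finset.univ_eq_empty, Finset.prod_empty, Finset.univ_unique, Finset.sum_singleton]
    congr 1
    congr 1
    ext j
    exact j.elim0
  | succ m ih =>
    rw [sum_fin_cons, sum_fin_cons]
    have e1 : ∀ (a : A) (k : Fin m → A),
        (∏ j, p ((Fin.cons a k : Fin (m + 1) → A) j)) *
          G (fun j => u ((Fin.cons a k : Fin (m + 1) → A) j))
        = p a * ((∏ j, p (k j)) * G (Fin.cons (u a) (fun j => u (k j)))) := by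
      intro a k
      rw [Fin.prod_univ_succ]
      simp only [Fin.cons_zero, Fin.cons_succ]
      rw [mul_assoc]
      congr 3
      ext j
      refine Fin.cases ?_ (fun j => ?_) j <;> simp
    have e2 : ∀ (a : B) (k : Fin m → B),
        (∏ j, r ((Fin.cons a k : Fin (m + 1) → B) j)) *
          G (fun j => v ((Fin.cons a k : Fin (m + 1) → B) j))
        = r a * ((∏ j, r (k j)) * G (Fin.cons (v a) (fun j => v (k j)))) := by
      intro a k
      rw [Fin.prod_univ_succ]
      simp only [Fin.cons_zero, Fin.cons_succ]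
      rw [mul_assoc]
      congr 3
      ext j
      refine Fin.cases ?_ (fun j => ?_) j <;> simp
    simp_rw [e1, e2, ← Finset.mul_sum]
    rw [← h (fun s => ∑ k : Fin m → B, (∏ j, r (k j)) * G (Fin.cons s (fun j => v (k j))))]
    apply Finset.sum_congr rfl
    intro a _
    congr 1
    exact ih (fun w => G (Fin.cons (u a) w))

theorem trace_all {n : ℕ} (x : Fin n → Bool) : trace x (fun _ => true) = List.ofFn x := by
  unfold trace
  simp [List.ofFn_eq_map]

theorem trace_eq_of_length {n : ℕ} (x k : Fin n → Bool) (h : (trace x k).length = n) :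
    trace x k = List.ofFn x := by
  unfold trace at *
  rw [List.length_map] at h
  have h1 : (List.finRange n).filter (fun i => k i) = List.finRange n := by
    apply List.Sublist.eq_of_length (List.filter_sublist)
    rw [h, List.length_finRange]
  rw [h1, List.ofFn_eq_map]

theorem keepProb_true (q : ℝ) (n : ℕ) : keepProb q (fun _ : Fin n => true) = (1 - q) ^ n := by
  unfold keepProb
  simp

/-- some number of traces suffices (output a trace of full length if there is one) -/
theorem exists_suffices {q : ℝ} (hq0 : 0 < q) (hq1 : q < 1) (n : ℕ) : ∃ m, Suffices q n m := by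
  classical
  set a : ℝ := (1 - q) ^ n with ha
  have ha0 : 0 < a := by
    apply pow_pos
    linarith
  have ha1 : a ≤ 1 := pow_le_one₀ (by linarith) (by linarith)
  obtain ⟨m, hm⟩ := exists_pow_lt_of_lt_one (show (0 : ℝ) < 1 / 3 by norm_num)
    (show 1 - a < 1 by linarith)
  refine ⟨m, ?_⟩
  -- the estimator
  set dec : (Fin m → List Bool) → (Fin n → Bool) := fun w =>
    if h : ∃ j, (w j).length = n then
      fun i => (w h.choose).get (Fin.cast h.choose_spec.symm i) else fun _ => false with hdec
  refine ⟨fun w => PMF.pure (dec w), fun x => ?_⟩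
  have hcorrect : ∀ k : Fin m → Fin n → Bool, (∃ j, k j = fun _ => true) →
      dec (fun j => trace x (k j)) = x := by
    intro k hk
    obtain ⟨j0, hj0⟩ := hk
    have hex : ∃ j, (trace x (k j)).length = n := by
      refine ⟨j0, ?_⟩
      rw [hj0, trace_all, List.length_ofFn]
    simp only [hdec]
    rw [dif_pos hex]
    have hspec := hex.choose_spec
    have htr := trace_eq_of_length x (k hex.choose) hspec
    ext i
    have : ∀ (l : List Bool) (hl : l.length = n), l = List.ofFn x →
        l.get (Fin.cast hl.symm i) = x i := by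
      intro l hl h
      subst h
      simp
    exact this _ hspec htr
  have hbad : ∑ k : Fin m → Fin n → Bool, (∏ j, keepProb q (k j)) *
      (if ∃ j, k j = fun _ => true then 0 else 1) = (1 - a) ^ m := by
    have e : ∀ k : Fin m → Fin n → Bool, (∏ j, keepProb q (k j)) *
        (if ∃ j, k j = fun _ => true then (0 : ℝ) else 1)
        = ∏ j, (keepProb q (k j) * (if k j = fun _ => true then 0 else 1)) := by
      intro k
      rw [Finset.prod_mul_distrib]
      congr 1
      by_cases h : ∃ j, k j = fun _ => true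
      · rw [if_pos h]
        obtain ⟨j, hj⟩ := h
        rw [Finset.prod_eq_zero (Finset.mem_univ j)]
        rw [if_pos hj]
      · rw [if_neg h]
        push Not at h
        rw [Finset.prod_eq_one]
        intro j _
        rw [if_neg (h j)]
    simp_rw [e]
    rw [← Fintype.sum_pow (fun k : Fin n → Bool => keepProb q k *
      (if k = (fun _ => true) then (0 : ℝ) else 1)) m]
    congr 1
    have : ∑ k : Fin n → Bool, keepProb q k * (if k = fun _ => true then (0 : ℝ) else 1)
        = ∑ k : Fin n → Bool, (keepProb q k - if k = (fun _ => true) then keepProb q k else 0) := by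
      apply Finset.sum_congr rfl
      intro k _
      split_ifs <;> ring
    rw [this, Finset.sum_sub_distrib, sum_keepProb, Finset.sum_ite_eq']
    simp [keepProb_true, ha]
  have htot : ∑ k : Fin m → Fin n → Bool, (∏ j, keepProb q (k j)) = 1 := by
    rw [← Fintype.sum_pow, sum_keepProb, one_pow]
  unfold successProb
  have hle : ∑ k : Fin m → Fin n → Bool, ((∏ j, keepProb q (k j)) -
      (∏ j, keepProb q (k j)) * (if ∃ j, k j = fun _ => true then 0 else 1)) ≤
      ∑ k : Fin m → Fin n → Bool, (∏ j, keepProb q (k j)) *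
        ((PMF.pure (dec (fun j => trace x (k j)))) x).toReal := by
    apply Finset.sum_le_sum
    intro k _
    have hnn : 0 ≤ ∏ j, keepProb q (k j) :=
      Finset.prod_nonneg (fun j _ => keepProb_nonneg hq0 hq1 _)
    by_cases h : ∃ j, k j = fun _ => true
    · rw [if_pos h, hcorrect k h]
      simp
    · rw [if_neg h]
      have : 0 ≤ ((PMF.pure (dec (fun j => trace x (k j)))) x).toReal := ENNReal.toReal_nonneg
      have := mul_nonneg hnn this
      linarith
  refine le_trans ?_ hle
  rw [Finset.sum_sub_distrib, htot, hbad]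
  linarith

theorem one_le_T {q : ℝ} (hq0 : 0 < q) (hq1 : q < 1) {n : ℕ} (hn : 1 ≤ n) : 1 ≤ T q n := by
  by_contra hcon
  have h0 : T q n = 0 := by omega
  have hmem : Suffices q n (T q n) := Nat.sInf_mem (exists_suffices hq0 hq1 n)
  rw [h0] at hmem
  obtain ⟨est, hest⟩ := hmem
  have hs : ∀ x, successProb q est x = ((est (fun j => j.elim0)) x).toReal := by
    intro x
    unfold successProb
    simp only [Finset.univ_eq_empty, Finset.prod_empty, Finset.univ_unique, Finset.sum_singleton,
      one_mul]
    congr 3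
    ext j
    exact j.elim0
  set x : Fin n → Bool := fun _ => false
  set y : Fin n → Bool := fun _ => true
  have hxy : x ≠ y := by
    intro h
    have := congrFun h ⟨0, hn⟩
    simp [x, y] at this
  have h1 := hest x
  have h2 := hest y
  rw [hs] at h1 h2
  have hsum : (est (fun j => j.elim0)) x + (est (fun j => j.elim0)) y ≤ 1 := by
    have := (est (fun j : Fin 0 => (j.elim0 : List Bool))).tsum_coe
    rw [← this]
    have h3 := ENNReal.sum_le_tsum (f := est (fun j : Fin 0 => (j.elim0 : List Bool))) {x, y}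
    rwa [Finset.sum_pair hxy] at h3
  have hne : ∀ z, (est (fun j => j.elim0)) z ≠ ⊤ := fun z => PMF.apply_ne_top _ _
  have := ENNReal.toReal_mono ENNReal.one_ne_top hsum
  rw [ENNReal.toReal_add (hne x) (hne y)] at this
  simp only [ENNReal.toReal_one] at this
  linarith

/-- Bernoulli type inequality for the affinity -/
theorem one_sub_pow_le {b : ℝ} (hb0 : 0 ≤ b) (m : ℕ) :
    1 - b ^ m ≤ m * (1 - b) := by
  have h := one_add_mul_le_pow (show (-2 : ℝ) ≤ b - 1 by linarith) m
  have e : (1 + (b - 1)) ^ m = b ^ m := by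
    congr 1
    ring
  rw [e] at h
  linarith

/-- Two strings whose trace laws are push-forwards (by the same map `F`) of two laws `P`, `P'`
on a finite set cannot be told apart by fewer than `1 / (18 (1 - ∑ √(P P')))` traces. -/
theorem two_point {q : ℝ} (hq0 : 0 < q) (hq1 : q < 1) {n m : ℕ} (x y : Fin n → Bool)
    (hxy : x ≠ y) {Ω : Type} [Fintype Ω] (P P' : Ω → ℝ) (hP : ∀ ω, 0 ≤ P ω)
    (hP' : ∀ ω, 0 ≤ P' ω) (F : Ω → List Bool)
    (hx : ∀ g : List Bool → ℝ, Etr q (List.ofFn x) g = ∑ ω, P ω * g (F ω))
    (hy : ∀ g : List Bool → ℝ, Etr q (List.ofFn y) g = ∑ ω, P' ω * g (F ω))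
    (hs : Suffices q n m) :
    1 / 18 ≤ (m : ℝ) * (1 - ∑ ω, √(P ω * P' ω)) := by
  classical
  obtain ⟨est, hest⟩ := hs
  have hP1 : ∑ ω, P ω = 1 := by
    have h := hx (fun _ => 1)
    rw [← Etr_ofFn] at h
    simp only [mul_one] at h
    rw [← h, sum_keepProb]
  have hP'1 : ∑ ω, P' ω = 1 := by
    have h := hy (fun _ => 1)
    rw [← Etr_ofFn] at h
    simp only [mul_one] at h
    rw [← h, sum_keepProb]
  set A : (Fin m → Ω) → ℝ := fun w => ∏ j, P (w j) with hA
  set B : (Fin m → Ω) → ℝ := fun w => ∏ j, P' (w j) with hB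
  have hA0 : ∀ w, 0 ≤ A w := fun w => Finset.prod_nonneg (fun j _ => hP _)
  have hB0 : ∀ w, 0 ≤ B w := fun w => Finset.prod_nonneg (fun j _ => hP' _)
  have hA1 : ∑ w, A w = 1 := by
    rw [hA, ← Fintype.sum_pow, hP1, one_pow]
  have hB1 : ∑ w, B w = 1 := by
    rw [hB, ← Fintype.sum_pow, hP'1, one_pow]
  -- success probabilities
  have hsx : successProb q est x = ∑ w : Fin m → Ω, A w * ((est (fun j => F (w j))) x).toReal := by
    unfold successProb
    exact push_pow (fun k => keepProb q k) P (fun k => trace x k) F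
      (fun g => by rw [Etr_ofFn, hx]) m (fun s => ((est s) x).toReal)
  have hsy : successProb q est y = ∑ w : Fin m → Ω, B w * ((est (fun j => F (w j))) y).toReal := by
    unfold successProb
    exact push_pow (fun k => keepProb q k) P' (fun k => trace y k) F
      (fun g => by rw [Etr_ofFn, hy]) m (fun s => ((est s) y).toReal)
  have h1 := hest x
  have h2 := hest y
  rw [hsx] at h1
  rw [hsy] at h2
  have hpoint : ∀ w : Fin m → Ω, A w * ((est (fun j => F (w j))) x).toReal
      + B w * ((est (fun j => F (w j))) y).toReal ≤ (A w + B w) / 2 + |A w - B w| / 2 := by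
    intro w
    set u : ℝ := ((est (fun j => F (w j))) x).toReal with hu
    set v : ℝ := ((est (fun j => F (w j))) y).toReal with hv
    have hu0 : 0 ≤ u := ENNReal.toReal_nonneg
    have hv0 : 0 ≤ v := ENNReal.toReal_nonneg
    have huv : u + v ≤ 1 := by
      have hsum : (est (fun j => F (w j))) x + (est (fun j => F (w j))) y ≤ 1 := by
        have := (est (fun j => F (w j))).tsum_coe
        rw [← this]
        have h3 := ENNReal.sum_le_tsum (f := est (fun j => F (w j))) {x, y}
        rwa [Finset.sum_pair hxy] at h3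
      have hne : ∀ z, (est (fun j => F (w j))) z ≠ ⊤ := fun z => PMF.apply_ne_top _ _
      have := ENNReal.toReal_mono ENNReal.one_ne_top hsum
      rw [ENNReal.toReal_add (hne x) (hne y)] at this
      simpa using this
    have hAw := hA0 w
    have hBw := hB0 w
    rcases le_total (A w) (B w) with h | h
    · rw [abs_of_nonpos (by linarith)]
      nlinarith
    · rw [abs_of_nonneg (by linarith)]
      nlinarith
  have hTV : 2 / 3 ≤ ∑ w, |A w - B w| := by
    have h3 := Finset.sum_le_sum (fun w (_ : w ∈ Finset.univ) => hpoint w)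
    rw [Finset.sum_add_distrib, Finset.sum_add_distrib, ← Finset.sum_div, ← Finset.sum_div,
      Finset.sum_add_distrib, hA1, hB1] at h3
    linarith
  set b : ℝ := ∑ ω, √(P ω * P' ω) with hb
  have hb0 : 0 ≤ b := Finset.sum_nonneg (fun ω _ => Real.sqrt_nonneg _)
  have hb1 : b ≤ 1 := by
    have : ∀ ω, √(P ω * P' ω) ≤ (P ω + P' ω) / 2 := by
      intro ω
      rw [Real.sqrt_le_left (by have := hP ω; have := hP' ω; linarith)]
      nlinarith [sq_nonneg (P ω - P' ω)]
    calc b ≤ ∑ ω, (P ω + P' ω) / 2 := Finset.sum_le_sum (fun ω _ => this ω)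
      _ = 1 := by
          rw [← Finset.sum_div, Finset.sum_add_distrib, hP1, hP'1]
          norm_num
  have hbm : ∑ w : Fin m → Ω, √(A w) * √(B w) = b ^ m := by
    rw [hb, Fintype.sum_pow]
    apply Finset.sum_congr rfl
    intro w _
    rw [← Real.sqrt_mul (hA0 w), hA, hB]
    simp only
    rw [← Finset.prod_mul_distrib, Real.sqrt_eq_rpow, ← Real.finsetProd_rpow]
    · apply Finset.prod_congr rfl
      intro j _
      rw [Real.sqrt_eq_rpow]
    · intro j _
      exact mul_nonneg (hP _) (hP' _)
  have hCS : (∑ w, |A w - B w|) ^ 2 ≤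
      (∑ w, (√(A w) - √(B w)) ^ 2) * ∑ w, (√(A w) + √(B w)) ^ 2 := by
    have h4 := Finset.sum_mul_sq_le_sq_mul_sq Finset.univ
      (fun w => |√(A w) - √(B w)|) (fun w => (√(A w) + √(B w)))
    have e1 : ∀ w, |√(A w) - √(B w)| * (√(A w) + √(B w)) = |A w - B w| := by
      intro w
      have hnn : 0 ≤ √(A w) + √(B w) := by positivity
      rw [← abs_of_nonneg hnn, ← abs_mul]
      congr 1
      have h5 := Real.sq_sqrt (hA0 w)
      have h6 := Real.sq_sqrt (hB0 w)
      nlinarith
    simp_rw [e1, sq_abs] at h4
    exact h4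
  have hm1 : ∑ w, (√(A w) - √(B w)) ^ 2 = 2 - 2 * b ^ m := by
    have e : ∀ w, (√(A w) - √(B w)) ^ 2 = A w + B w - 2 * (√(A w) * √(B w)) := by
      intro w
      have h5 := Real.sq_sqrt (hA0 w)
      have h6 := Real.sq_sqrt (hB0 w)
      nlinarith
    simp_rw [e]
    rw [Finset.sum_sub_distrib, Finset.sum_add_distrib, ← Finset.mul_sum, hbm, hA1, hB1]
    ring
  have hm2 : ∑ w, (√(A w) + √(B w)) ^ 2 = 2 + 2 * b ^ m := by
    have e : ∀ w, (√(A w) + √(B w)) ^ 2 = A w + B w + 2 * (√(A w) * √(B w)) := by
      intro w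
      have h5 := Real.sq_sqrt (hA0 w)
      have h6 := Real.sq_sqrt (hB0 w)
      nlinarith
    simp_rw [e]
    rw [Finset.sum_add_distrib, Finset.sum_add_distrib, ← Finset.mul_sum, hbm, hA1, hB1]
    ring
  rw [hm1, hm2] at hCS
  have hbm0 : 0 ≤ b ^ m := pow_nonneg hb0 m
  have hbm1 : b ^ m ≤ 1 := pow_le_one₀ hb0 hb1
  have h7 : (2 / 3 : ℝ) ^ 2 ≤ (∑ w, |A w - B w|) ^ 2 := by
    gcongr
  have h8 := one_sub_pow_le hb0 m
  nlinarith

/-- the same for `T`, for lists, and for all `n` at least the common length (pad both strings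
by the same letters at the end) -/
theorem lower_T {q : ℝ} (hq0 : 0 < q) (hq1 : q < 1) (l l' : List Bool)
    (hlen : l.length = l'.length) (hne : l ≠ l') {Ω : Type} [Fintype Ω] (P P' : Ω → ℝ)
    (hP : ∀ ω, 0 ≤ P ω) (hP' : ∀ ω, 0 ≤ P' ω) (F : Ω → List Bool)
    (hx : ∀ g : List Bool → ℝ, Etr q l g = ∑ ω, P ω * g (F ω))
    (hy : ∀ g : List Bool → ℝ, Etr q l' g = ∑ ω, P' ω * g (F ω))
    {n : ℕ} (hn : l.length ≤ n) :
    1 / 18 ≤ (T q n : ℝ) * (1 - ∑ ω, √(P ω * P' ω)) := by
  classical
  set c : ℕ := n - l.length with hc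
  set pad : Fin c → Bool := fun _ => false with hpad
  set L : List Bool := l ++ List.ofFn pad with hL
  set L' : List Bool := l' ++ List.ofFn pad with hL'
  have hLn : L.length = n := by
    rw [hL, List.length_append, List.length_ofFn, hc]
    omega
  have hL'n : L'.length = n := by
    rw [hL', List.length_append, List.length_ofFn, hc, ← hlen]
    omega
  set x : Fin n → Bool := fun i => L.get (Fin.cast hLn.symm i) with hxdef
  set y : Fin n → Bool := fun i => L'.get (Fin.cast hL'n.symm i) with hydef
  have hofx : List.ofFn x = L := by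
    apply List.ext_get
    · rw [List.length_ofFn, hLn]
    · intro i h1 h2
      simp [hxdef]
  have hofy : List.ofFn y = L' := by
    apply List.ext_get
    · rw [List.length_ofFn, hL'n]
    · intro i h1 h2
      simp [hydef]
  have hxy : x ≠ y := by
    intro h
    apply hne
    have : L = L' := by rw [← hofx, ← hofy, h]
    rw [hL, hL'] at this
    exact List.append_cancel_right this
  have hmem : Suffices q n (T q n) := Nat.sInf_mem (exists_suffices hq0 hq1 n)
  have key := two_point hq0 hq1 x y hxy (Ω := Ω × (Fin c → Bool))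
    (fun w => P w.1 * keepProb q w.2) (fun w => P' w.1 * keepProb q w.2)
    (fun w => mul_nonneg (hP _) (keepProb_nonneg hq0 hq1 _))
    (fun w => mul_nonneg (hP' _) (keepProb_nonneg hq0 hq1 _))
    (fun w => F w.1 ++ trace pad w.2)
    (by
      intro g
      rw [hofx, hL, Etr_append, hx, Fintype.sum_prod_type]
      apply Finset.sum_congr rfl
      intro w _
      rw [← Etr_ofFn, Finset.mul_sum]
      apply Finset.sum_congr rfl
      intro k _
      ring)
    (by
      intro g
      rw [hofy, hL', Etr_append, hy, Fintype.sum_prod_type]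
      apply Finset.sum_congr rfl
      intro w _
      rw [← Etr_ofFn, Finset.mul_sum]
      apply Finset.sum_congr rfl
      intro k _
      ring) hmem
  have e : ∑ w : Ω × (Fin c → Bool), √(P w.1 * keepProb q w.2 * (P' w.1 * keepProb q w.2))
      = ∑ ω, √(P ω * P' ω) := by
    rw [Fintype.sum_prod_type]
    apply Finset.sum_congr rfl
    intro w _
    have e1 : ∀ k : Fin c → Bool, √(P w * keepProb q k * (P' w * keepProb q k))
        = √(P w * P' w) * keepProb q k := by
      intro k
      rw [show P w * keepProb q k * (P' w * keepProb q k) = (P w * P' w) * keepProb q k ^ 2 by ring]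
      rw [Real.sqrt_mul (mul_nonneg (hP _) (hP' _)), Real.sqrt_sq (keepProb_nonneg hq0 hq1 _)]
    simp_rw [e1]
    rw [← Finset.mul_sum, sum_keepProb, mul_one]
  rw [e] at key
  exact key

end Vale.Agent.P321
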