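import Vale.Agent.P321.LitDefs
import Vale.Agent.P321.TwoPoint

open scoped NNReal ENNReal
open Filter

namespace Vale.Agent.P321.Lit

theorem bind_bernoulli {β : Type} (q : ℝ≥0) (hq : q ≤ 1) (h : Bool → PMF β) (y : β) :
    (((PMF.bernoulli q hq).bind h) y).toReal =
      (q : ℝ) * ((h true) y).toReal + (1 - (q : ℝ)) * ((h false) y).toReal := by
  rw [PMF.bind_apply, tsum_fintype, Fintype.sum_bool]
  rw [PMF.bernoulli_apply, PMF.bernoulli_apply]
  have h1 : (h true) y ≠ ∞ := PMF.apply_ne_top _ _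
  have h2 : (h false) y ≠ ∞ := PMF.apply_ne_top _ _
  simp only [cond_true, cond_false]
  rw [ENNReal.toReal_add (ENNReal.mul_ne_top ENNReal.coe_ne_top h1)
    (ENNReal.mul_ne_top ENNReal.coe_ne_top h2), ENNReal.toReal_mul, ENNReal.toReal_mul]
  rw [ENNReal.coe_toReal, ENNReal.coe_toReal, NNReal.coe_sub hq]
  rfl

theorem bind_traceLaw {β : Type} (q : ℝ≥0) (hq : q ≤ 1) (l : List Bool)
    (h : List Bool → PMF β) (y : β) :
    (((traceLaw q hq l).bind h) y).toReal = Etr q l (fun t => ((h t) y).toReal) := by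
  induction l generalizing h with
  | nil =>
    rw [traceLaw, PMF.pure_bind, Etr]
  | cons b l ih =>
    rw [traceLaw, PMF.bind_bind, bind_bernoulli, PMF.bind_bind, PMF.bind_bind]
    simp only [PMF.pure_bind, if_true, Bool.false_eq_true, if_false]
    rw [ih, ih, Etr]

theorem bind_samples {n : ℕ} {β : Type} (q : ℝ≥0) (hq : q ≤ 1) (x : Fin n → Bool) (m : ℕ)
    (h : List (List Bool) → PMF β) (y : β) :
    (((samples (traceLaw q hq (List.ofFn x)) m).bind h) y).toReal =
      ∑ k : Fin m → Fin n → Bool, (∏ j, keepProb q (k j)) *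
        ((h (List.ofFn fun j => trace x (k j))) y).toReal := by
  induction m generalizing h with
  | zero =>
    rw [samples, PMF.pure_bind]
    simp
  | succ m ih =>
    rw [samples, PMF.bind_bind, bind_traceLaw, ← Etr_ofFn, sum_fin_cons]
    refine Finset.sum_congr rfl fun k0 _ => ?_
    rw [PMF.bind_bind]
    simp only [PMF.pure_bind]
    rw [ih, Finset.mul_sum]
    refine Finset.sum_congr rfl fun k _ => ?_
    rw [Fin.prod_univ_succ]
    simp only [Fin.cons_zero, Fin.cons_succ, List.ofFn_succ]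
    ring

theorem reconstructible_iff (q : ℝ≥0) (hq : q ≤ 1) (n m : ℕ) :
    Reconstructible q hq n m ↔ Suffices q n m := by
  constructor
  · rintro ⟨est, h⟩
    refine ⟨fun v => est (List.ofFn v), fun x => ?_⟩
    have := h x
    rwa [bind_samples] at this
  · rintro ⟨est, h⟩
    refine ⟨fun l => est (fun j => l.getD j []), fun x => ?_⟩
    have := h x
    rw [bind_samples]
    unfold successProb at this
    refine this.trans (le_of_eq ?_)
    refine Finset.sum_congr rfl fun k _ => ?_
    congr 3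
    congr 1
    funext j
    simp [List.getD_eq_getElem?_getD]

theorem sampleComplexity_eq (q : ℝ≥0) (hq : q ≤ 1) (n : ℕ) :
    sampleComplexity q hq n = T q n := by
  unfold sampleComplexity T
  simp only [reconstructible_iff]

/-- from the power bounds to the limit and to polynomials -/
theorem tendsto_of_pow_le {f : ℕ → ℝ}
    (h : ∀ C : ℝ, 0 ≤ C → ∃ c : ℝ, 0 < c ∧ ∀ n : ℕ, 1 ≤ n → c * (n : ℝ) ^ C ≤ f n) (k : ℕ) :
    Tendsto (fun n : ℕ => f n / (n : ℝ) ^ k) atTop atTop := by
  obtain ⟨c, hc, hcn⟩ := h ((k : ℝ) + 1) (by positivity)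
  refine tendsto_atTop_mono' atTop ?_ (tendsto_natCast_atTop_atTop.const_mul_atTop hc)
  filter_upwards [eventually_ge_atTop 1] with n hn
  have hn0 : (0 : ℝ) < n := by exact_mod_cast hn
  rw [le_div_iff₀ (by positivity)]
  refine le_trans (le_of_eq ?_) (hcn n hn)
  rw [Real.rpow_add hn0, Real.rpow_natCast, Real.rpow_one]
  ring

theorem no_poly_of_tendsto {f : ℕ → ℝ}
    (h : ∀ k : ℕ, Tendsto (fun n : ℕ => f n / (n : ℝ) ^ k) atTop atTop) :
    ¬ ∃ P : Polynomial ℝ, ∀ n : ℕ, f n ≤ P.eval (n : ℝ) := by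
  rintro ⟨P, hP⟩
  have h1 : Tendsto (fun x : ℝ => P.eval x / (Polynomial.X ^ (P.natDegree + 1) :
      Polynomial ℝ).eval x) atTop (nhds 0) := by
    refine Polynomial.div_tendsto_zero_of_degree_lt _ _ ?_
    rw [Polynomial.degree_X_pow]
    exact lt_of_le_of_lt Polynomial.degree_le_natDegree (by exact_mod_cast Nat.lt_succ_self _)
  have h2 := h1.comp (tendsto_natCast_atTop_atTop (R := ℝ))
  have h3 := h (P.natDegree + 1)
  have h4 : Tendsto (fun n : ℕ => P.eval (n : ℝ) / (n : ℝ) ^ (P.natDegree + 1)) atTop atTop := by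
    refine tendsto_atTop_mono (fun n => ?_) h3
    exact div_le_div_of_nonneg_right (hP n) (by positivity)
  have h5 : Tendsto (fun n : ℕ => P.eval (n : ℝ) / (n : ℝ) ^ (P.natDegree + 1)) atTop
      (nhds 0) := by
    refine h2.congr fun n => ?_
    simp
  exact not_tendsto_nhds_of_tendsto_atTop h4 0 h5

end Vale.Agent.P321.Lit
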