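import Mathlib

open scoped NNReal

namespace Vale.Agent.P321.Lit

/-- The law of the trace of a finite binary string: each letter is deleted with probability `q`,
independently, and the surviving letters are listed in order. -/
noncomputable def traceLaw (q : ℝ≥0) (hq : q ≤ 1) : List Bool → PMF (List Bool)
  | [] => PMF.pure []
  | b :: x => (PMF.bernoulli q hq).bind fun deleted =>
      (traceLaw q hq x).bind fun t => PMF.pure (if deleted then t else b :: t)

/-- The law of `m` independent samples from `μ`. -/
noncomputable def samples {α : Type} (μ : PMF α) : ℕ → PMF (List α)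
  | 0 => PMF.pure []
  | m + 1 => μ.bind fun a => (samples μ m).bind fun l => PMF.pure (a :: l)

/-- Some randomized estimator, given `m` independent traces of an unknown string `x` of length
`n`, outputs `x` with probability at least `2/3`, whatever `x` is. -/
def Reconstructible (q : ℝ≥0) (hq : q ≤ 1) (n m : ℕ) : Prop :=
  ∃ est : List (List Bool) → PMF (Fin n → Bool), ∀ x : Fin n → Bool,
    2 / 3 ≤ (((samples (traceLaw q hq (List.ofFn x)) m).bind est) x).toReal

/-- The worst-case sample complexity of trace reconstruction. -/
noncomputable def sampleComplexity (q : ℝ≥0) (hq : q ≤ 1) (n : ℕ) : ℕ :=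
  sInf {m | Reconstructible q hq n m}

end Vale.Agent.P321.Lit
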